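import Vale.Agent.P153.Bd5.B26
import Vale.Agent.P153.Bd5.B25

/-!
P153, block RDEC-P (helper435), part 2: under the law of the absolute heights the measure of the
event that there are circuits at level `0` at two scales of large ratio is small.
-/

namespace Vale.Agent.P153.R2.RDEC

open MeasureTheory Filter Topology
open Vale.Agent.P153 Vale.Agent.P153.F Vale.Agent.P153.F.X
open Vale.Agent.P153.GFF (Plane SpecOut RowCLT smear)
open Vale.Agent.P153.F.RSW.AC (bw dif second phi psi supp_ax mass_bw ev_bw smear_sub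
  smear_scale dif_test phi_cont phi_compact psi_smooth psi_compact anti_dif test_sub)

/-- Second moment on a piece and Markov. -/
theorem cheb {Ω : Type*} [MeasurableSpace Ω] {μ : Measure Ω} {A : Ω → ℝ} (hA : Measurable A)
    {Z : Set Ω} {C T : ℝ} (hT : 0 < T)
    (h : ∫⁻ x in Z, ENNReal.ofReal (A x ^ 2) ∂μ ≤ ENNReal.ofReal C) :
    μ (Z ∩ {x | T < |A x|}) ≤ ENNReal.ofReal (C / T ^ 2) := by
  have h3 := mul_meas_ge_le_lintegral (μ := μ.restrict Z)
    (f := fun x => ENNReal.ofReal (A x ^ 2)) (hA.pow_const 2).ennreal_ofReal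
    (ENNReal.ofReal (T ^ 2))
  have h4 : MeasurableSet {x | ENNReal.ofReal (T ^ 2) ≤ ENNReal.ofReal (A x ^ 2)} :=
    measurableSet_le measurable_const (hA.pow_const 2).ennreal_ofReal
  rw [Measure.restrict_apply h4] at h3
  have h5 := h3.trans h
  have hT2 : 0 < T ^ 2 := by positivity
  rw [ENNReal.ofReal_div_of_pos hT2, ENNReal.le_div_iff_mul_le
    (Or.inl (by simpa using hT.ne')) (Or.inl ENNReal.ofReal_ne_top), mul_comm]
  refine le_trans ?_ h5
  refine mul_le_mul_right (measure_mono ?_) _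
  rintro x ⟨hx, hx2⟩
  refine ⟨?_, hx⟩
  have h6 : T < |A x| := hx2
  refine ENNReal.ofReal_le_ofReal ?_
  rw [← sq_abs (A x)]
  exact pow_le_pow_left₀ hT.le h6.le 2

/-- The smeared height at scale `s` at distance `3 s` of the origin, and at the origin: second
moments on the event of a circuit. -/
theorem mom_two {P : Measure (Pt → ℤ)} {κ : ℝ} (hP : Plane P) (hS : SpecOut P κ) :
    ∃ C : ℝ, ∃ s₀ : ℕ, 20 ≤ s₀ ∧ ∀ s : ℕ, s₀ ≤ s →
      ∫⁻ h in ZE 0 s, ENNReal.ofReal (evT (bw (0, 0) s) h ^ 2) ∂(muT P) ≤ ENNReal.ofReal C ∧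
      ∫⁻ h in ZE 0 s, ENNReal.ofReal (evT (bw (3, 0) s) h ^ 2) ∂(muT P) ≤ ENNReal.ofReal C := by
  obtain ⟨D, hD⟩ := second hP hS (test_sub (0, 0) (3, 0))
  have t1 : Tendsto (fun s : ℕ => 1 / (s : ℝ)) atTop (𝓝[>] 0) := by
    rw [tendsto_nhdsWithin_iff]
    refine ⟨tendsto_one_div_atTop_nhds_zero_nat, ?_⟩
    filter_upwards [eventually_gt_atTop 0] with s hs
    have : (0 : ℝ) < s := by exact_mod_cast hs
    exact one_div_pos.2 this
  obtain ⟨s0, hs0⟩ := Filter.eventually_atTop.1 (t1.eventually hD)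
  refine ⟨3 * (4 * D), max s0 20, le_max_right _ _, fun s hs => ?_⟩
  have hs20 : 20 ≤ s := (le_max_right _ _).trans hs
  have h1 := hs0 s ((le_max_left _ _).trans hs)
  have hspos : 0 < s := by omega
  have hsr : (20 : ℝ) ≤ s := by exact_mod_cast hs20
  have hprob := hP.prob
  have e : ∀ φ : Pt → ℤ, evT (bw (0, 0) s + -bw (3, 0) s) φ =
      smear φ (1 / s) (fun x => phi (0, 0) x - phi (3, 0) x) := by
    intro φ
    have h0 : (0 : ℝ) < 1 / s := by positivity
    rw [← sub_eq_add_neg, evT_sub, smear_sub φ h0 (phi_cont _) (phi_compact _) (phi_cont _)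
      (phi_compact _), ← ev_bw _ hspos, ← ev_bw _ hspos]
    rfl
  have hm := momT (gb_of_plane hP) (p := 0) (s := (s : ℤ)) (by omega) (a := bw (0, 0) s)
    (b := -bw (3, 0) s) (fun v hv => by
      obtain ⟨h1, h2⟩ := supp_ax 0 hs20 hv
      rw [mul_zero, sub_zero] at h2
      constructor
      · have h3 : |v.1| < (s : ℤ) := by exact_mod_cast h2
        simpa using h3.le
      · have h4 : |v.2| < (s : ℤ) := by exact_mod_cast h1
        simpa using h4.le) (fun v hv => by
      rw [Finsupp.support_neg] at hv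
      obtain ⟨-, h3⟩ := supp_ax 3 hs20 hv
      intro hb
      have hb1 : |v.1 - 0| ≤ 2 * (s : ℤ) := hb.1
      rw [abs_lt] at h3
      rw [sub_zero, abs_le] at hb1
      have hb2 : (v.1 : ℝ) ≤ 2 * (s : ℝ) := by exact_mod_cast hb1.2
      linarith [h3.1]) (by
      rw [← sub_eq_add_neg, massT_sub]
      have := mass_bw (0, 0) hspos
      have h2 := mass_bw (3, 0) hspos
      unfold massT
      rw [this, h2, sub_self]) 1
  have hi : Integrable (fun φ => (evT (bw (0, 0) s + -bw (3, 0) s) φ) ^ 2) P := by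
    have hw' : ∑ v ∈ (bw (0, 0) s + -bw (3, 0) s).support,
        (bw (0, 0) s + -bw (3, 0) s) v = 0 := by
      have h2 : massT (bw (0, 0) s + -bw (3, 0) s) = 0 := by
        rw [← sub_eq_add_neg, massT_sub]
        have := mass_bw (0, 0) hspos
        have h2 := mass_bw (3, 0) hspos
        unfold massT
        rw [this, h2, sub_self]
      exact h2
    obtain ⟨M, hM⟩ := PL.lin_bdd hP.lip hw'
    have hX := PL.measurable_lin (bw (0, 0) s + -bw (3, 0) s).support
      (bw (0, 0) s + -bw (3, 0) s)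
    refine Integrable.mono' (integrable_const (M ^ 2)) (hX.pow_const _).aestronglyMeasurable ?_
    filter_upwards [hM] with φ hφ
    rw [norm_pow, Real.norm_eq_abs]
    exact pow_le_pow_left₀ (abs_nonneg _) hφ _
  have hb : 3 * ∫⁻ φ, ENNReal.ofReal ((2 * evT (bw (0, 0) s + -bw (3, 0) s) φ) ^ (2 * 1)) ∂P ≤
      ENNReal.ofReal (3 * (4 * D)) := by
    have h3 : ∀ φ : Pt → ℤ, (2 * evT (bw (0, 0) s + -bw (3, 0) s) φ) ^ (2 * 1) =
        4 * (evT (bw (0, 0) s + -bw (3, 0) s) φ) ^ 2 := fun φ => by ring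
    simp only [h3]
    rw [← ofReal_integral_eq_lintegral_ofReal (hi.const_mul 4)
      (Eventually.of_forall fun φ => by positivity), integral_const_mul]
    have e3 : (3 : ENNReal) = ENNReal.ofReal 3 := by norm_num
    rw [e3, ← ENNReal.ofReal_mul (by norm_num)]
    refine ENNReal.ofReal_le_ofReal ?_
    have h4 : ∫ φ, (evT (bw (0, 0) s + -bw (3, 0) s) φ) ^ 2 ∂P ≤ D := by
      simp_rw [e]
      exact h1
    linarith
  refine ⟨?_, ?_⟩
  · exact hm.1.trans hb
  · have h5 : ∀ h : Hg, evT (-bw (3, 0) s) h ^ (2 * 1) = evT (bw (3, 0) s) h ^ 2 := by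
      intro h
      have : evT (-bw (3, 0) s) h = - evT (bw (3, 0) s) h := by
        unfold evT
        rw [Finsupp.sum_neg_index (fun v => by simp), ← Finsupp.sum_neg]
        exact Finsupp.sum_congr fun v _ => by ring
      rw [this]
      ring
    have h6 := hm.2.trans hb
    simp only [h5] at h6
    exact h6

/-- **Two scales.** -/
theorem two_scale {P : Measure (Pt → ℤ)} {κ : ℝ} (hP : Plane P) (hS : SpecOut P κ)
    (hC : RowCLT P κ) (hκ : 0 < κ) {ε : ℝ} (hε : 0 < ε) :
    ∃ M₁ : ℕ, 1 ≤ M₁ ∧ ∀ M : ℕ, M₁ ≤ M → ∃ s₀ : ℤ, 1 ≤ s₀ ∧ ∀ s : ℤ, s₀ ≤ s → ∀ p : Pt,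
      muT P (ZE p s ∩ ZE p (2 * M * s)) ≤ ENNReal.ofReal ε := by
  have hprob := hP.prob
  obtain ⟨C, s1, hs1, hmom⟩ := mom_two hP hS
  set V : ℝ := max C 1 with hV
  have hV1 : 1 ≤ V := le_max_right _ _
  set T : ℝ := 1 + 4 * V / ε with hT
  have h8 : 0 < 4 * V / ε := by positivity
  have hT0 : 0 < T := by linarith
  obtain ⟨M1, hM1, hM⟩ := anti_dif hP hS hC hκ T (ε / (4 * (T + 1))) (by positivity)
  refine ⟨M1, hM1, fun M hMM => ?_⟩
  have hMpos : 1 ≤ M := le_trans hM1 hMM
  have hMr : (1 : ℝ) ≤ M := by exact_mod_cast hMpos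
  have t1 : Tendsto (fun s : ℕ => 1 / (s : ℝ)) atTop (𝓝[>] 0) := by
    rw [tendsto_nhdsWithin_iff]
    refine ⟨tendsto_one_div_atTop_nhds_zero_nat, ?_⟩
    filter_upwards [eventually_gt_atTop 0] with s hs
    have : (0 : ℝ) < s := by exact_mod_cast hs
    exact one_div_pos.2 this
  obtain ⟨s2, hs2⟩ := Filter.eventually_atTop.1 (t1.eventually (hM M hMM))
  refine ⟨max (s1 : ℤ) s2, by omega, fun s hs p => ?_⟩
  obtain ⟨n, rfl⟩ : ∃ n : ℕ, s = n := ⟨s.toNat, by omega⟩
  have hn1 : s1 ≤ n := by omega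
  have hn2 : s2 ≤ n := by omega
  have hn : 20 ≤ n := hs1.trans hn1
  have hn0 : 0 < n := by omega
  have hN : n ≤ 2 * M * n := by nlinarith
  have hN0 : 0 < 2 * M * n := by omega
  have eN : (2 : ℤ) * M * (n : ℤ) = ((2 * M * n : ℕ) : ℤ) := by push_cast; ring
  -- the centre
  have hm1 : MeasurableSet (ZE (0 : Pt) (n : ℤ)) := meas_ZE _ (by omega)
  have hm2 : MeasurableSet (ZE (0 : Pt) (2 * M * (n : ℤ))) := by
    rw [eN]; exact meas_ZE _ (by exact_mod_cast hN0)
  have e0 : muT P (ZE p n ∩ ZE p (2 * M * (n : ℤ))) =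
      muT P (ZE 0 n ∩ ZE 0 (2 * M * (n : ℤ))) := by
    have h2 : trT p ⁻¹' (ZE 0 n ∩ ZE 0 (2 * M * (n : ℤ))) = ZE p n ∩ ZE p (2 * M * (n : ℤ)) := by
      ext x
      simp only [Set.mem_preimage, Set.mem_inter_iff, ZE_tr]
    rw [← h2, ← Measure.map_apply (measurable_trT _) (hm1.inter hm2), muT_trT hP.shift p]
  rw [e0]
  -- the two weights
  set a := bw (0, 0) n with ha
  set b := bw (3, 0) (2 * M * n) with hb
  have ma : massT a = 1 := mass_bw _ hn0
  have mb : massT b = 1 := mass_bw _ hN0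
  have q1 := cheb (μ := muT P) (measurable_evT a) (C := V) hT0
    (((hmom n hn1).1).trans (ENNReal.ofReal_le_ofReal (le_max_left _ _)))
  have q2 := cheb (μ := muT P) (measurable_evT b) (C := V) hT0
    (((hmom (2 * M * n) (hn1.trans hN)).2).trans (ENNReal.ofReal_le_ofReal (le_max_left _ _)))
  have q3 : muT P ({h | |evT a h| ≤ T} ∩ {h | |evT b h| ≤ T}) ≤ ENNReal.ofReal (ε / 4) := by
    have hsa : MeasurableSet {h : Hg | |evT a h| ≤ T} :=
      measurableSet_le (continuous_abs.measurable.comp (measurable_evT a)) measurable_const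
    have hsb : MeasurableSet {h : Hg | |evT b h| ≤ T} :=
      measurableSet_le (continuous_abs.measurable.comp (measurable_evT b)) measurable_const
    rw [← lintegral_indicator_one (hsa.inter hsb), lintegral_muT (measurable_one.indicator
      (hsa.inter hsb))]
    have hsm : MeasurableSet {φ : Pt → ℤ | |smear φ (1 / n) (dif (2 * M))| ≤ T} :=
      measurableSet_le (continuous_abs.measurable.comp
        (GFF.g3meas _ (dif_test (by positivity)))) measurable_const
    have edif : ∀ φ : Pt → ℤ, evT a φ - evT b φ = smear φ (1 / n) (dif (2 * M)) := by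
      intro φ
      have hl0 : (0 : ℝ) < 2 * M := by linarith
      have hs1 : (0 : ℝ) < 1 / n := by positivity
      have e1 : (1 : ℝ) / ((2 * M * n : ℕ) : ℝ) = 1 / n / (2 * M) := by
        push_cast
        field_simp
      have e2 := smear_sub φ hs1 (phi_cont (0, 0)) (phi_compact _)
        (psi_smooth (2 * M) (3, 0)).continuous (psi_compact hl0 _)
      have e3 : evT a φ = smear φ (1 / (n : ℝ)) (phi (0, 0)) := ev_bw _ hn0 φ
      have e4 : evT b φ = smear φ (1 / ((2 * M * n : ℕ) : ℝ)) (phi (3, 0)) := ev_bw _ hN0 φ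
      rw [e3, e4, e1, ← smear_scale φ hl0, ← e2]
      rfl
    calc ∫⁻ φ, ∑' k : ℤ, ({h : Hg | |evT a h| ≤ T} ∩ {h | |evT b h| ≤ T}).indicator 1
          (odd k φ) ∂P
        ≤ ∫⁻ φ, {φ : Pt → ℤ | |smear φ (1 / n) (dif (2 * M))| ≤ T}.indicator
            (fun _ => ENNReal.ofReal (T + 1)) φ ∂P := by
          refine lintegral_mono fun φ => ?_
          by_cases hφ : |smear φ (1 / n) (dif (2 * M))| ≤ T
          · rw [Set.indicator_of_mem (show φ ∈ {φ : Pt → ℤ |
              |smear φ (1 / n) (dif (2 * M))| ≤ T} from hφ)]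
            refine le_trans (ENNReal.tsum_le_tsum fun k => ?_) (tsum_two_le
              (c := evT a (odd 0 φ)) hT0.le)
            have e : evT a (odd k φ) = evT a (odd 0 φ) + 2 * k := by rw [evT_odd, ma, mul_one]
            by_cases h : |evT a (odd 0 φ) + 2 * k| ≤ T
            · rw [if_pos h]
              exact Set.indicator_le_self' (fun _ _ => zero_le) _
            · rw [if_neg h, Set.indicator_of_notMem]
              rintro ⟨h1, -⟩
              apply h
              rw [← e]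
              exact h1
          · rw [Set.indicator_of_notMem (show φ ∉ {φ : Pt → ℤ |
              |smear φ (1 / n) (dif (2 * M))| ≤ T} from hφ)]
            refine le_of_eq (ENNReal.tsum_eq_zero.2 fun k => Set.indicator_of_notMem ?_ _)
            rintro ⟨h1, h2⟩
            apply hφ
            rw [← edif]
            have h1' : |evT a (odd k φ)| ≤ T := h1
            have h2' : |evT b (odd k φ)| ≤ T := h2
            have ea : ∀ w : Pt →₀ ℝ, massT w = 1 → evT w (odd k φ) =
                2 * evT w φ + (2 * k - 1) := by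
              intro w hw
              have h5 : evT w (odd k φ) = 2 * evT w φ + (2 * k - 1) * massT w := by
                unfold evT massT
                rw [Finsupp.sum, Finsupp.sum, Finsupp.sum, Finset.mul_sum, Finset.mul_sum,
                  ← Finset.sum_add_distrib]
                refine Finset.sum_congr rfl fun q _ => ?_
                unfold odd
                push_cast
                ring
              rw [h5, hw, mul_one]
            rw [ea a ma, abs_le] at h1'
            rw [ea b mb, abs_le] at h2'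
            rw [abs_le]
            constructor <;> linarith [h1'.1, h1'.2, h2'.1, h2'.2]
      _ = ENNReal.ofReal (T + 1) * P {φ : Pt → ℤ | |smear φ (1 / n) (dif (2 * M))| ≤ T} := by
          rw [lintegral_indicator_const hsm]
      _ ≤ ENNReal.ofReal (T + 1) * ENNReal.ofReal (ε / (4 * (T + 1))) := by
          refine mul_le_mul_right ?_ _
          rw [← ofReal_measureReal]
          exact ENNReal.ofReal_le_ofReal (hs2 n hn2)
      _ = ENNReal.ofReal (ε / 4) := by
          rw [← ENNReal.ofReal_mul (by linarith)]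
          congr 1
          field_simp
  have hsub : ZE 0 (n : ℤ) ∩ ZE 0 (2 * M * (n : ℤ)) ⊆
      (ZE 0 (n : ℤ) ∩ {x | T < |evT a x|}) ∪ (ZE 0 ((2 * M * n : ℕ) : ℤ) ∩ {x | T < |evT b x|}) ∪
        ({h | |evT a h| ≤ T} ∩ {h | |evT b h| ≤ T}) := by
    rintro x ⟨hx1, hx2⟩
    rw [eN] at hx2
    rcases lt_or_ge T (|evT a x|) with h1 | h1
    · exact Or.inl (Or.inl ⟨hx1, h1⟩)
    · rcases lt_or_ge T (|evT b x|) with h2 | h2
      · exact Or.inl (Or.inr ⟨hx2, h2⟩)
      · exact Or.inr ⟨h1, h2⟩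
  have h4 : V / T ^ 2 ≤ ε / 4 := by
    have hTT : T ≤ T ^ 2 := by nlinarith
    have h5 : V / T ^ 2 ≤ V / T := div_le_div_of_nonneg_left (by linarith) hT0 hTT
    have h6 : V / T ≤ ε / 4 := by
      rw [div_le_iff₀ hT0, hT]
      have : ε / 4 * (1 + 4 * V / ε) = ε / 4 + V := by field_simp
      rw [this]; linarith
    linarith
  calc muT P (ZE 0 (n : ℤ) ∩ ZE 0 (2 * M * (n : ℤ)))
      ≤ ENNReal.ofReal (V / T ^ 2) + ENNReal.ofReal (V / T ^ 2) + ENNReal.ofReal (ε / 4) :=
        (measure_mono hsub).trans ((measure_union_le _ _).trans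
          (add_le_add ((measure_union_le _ _).trans (add_le_add q1 q2)) q3))
    _ ≤ ENNReal.ofReal (ε / 4) + ENNReal.ofReal (ε / 4) + ENNReal.ofReal (ε / 4) :=
        add_le_add (add_le_add (ENNReal.ofReal_le_ofReal h4) (ENNReal.ofReal_le_ofReal h4)) le_rfl
    _ = ENNReal.ofReal (ε / 4 + ε / 4 + ε / 4) := by
        rw [ENNReal.ofReal_add (by positivity) (by positivity),
          ENNReal.ofReal_add (by positivity) (by positivity)]
    _ ≤ ENNReal.ofReal ε := ENNReal.ofReal_le_ofReal (by linarith)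

end Vale.Agent.P153.R2.RDEC
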