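import Vale.Agent.P153.R2.RDEC.Asm

/-!
# P153-R2, block RDEC: localisation of the law near a finite set
-/

namespace Vale.Agent.P153.R2.RD

open Set Relation
open Vale.Agent.P153 Vale.Agent.P153.R2
open Vale.Agent.P153.Topo (Conn)
open Vale.Agent.P153.R2.F2 (thk)
open scoped Classical

theorem thk_mono {B0 : Set Pt} {a b : ℤ} (h : a ≤ b) : thk B0 a ⊆ thk B0 b :=
  fun _ ⟨y, hy, h1, h2⟩ => ⟨y, hy, h1.trans h, h2.trans h⟩

theorem thk_step {B0 : Set Pt} {a : ℤ} {x y : Pt} (hx : x ∈ thk B0 a) (hxy : Adj x y) :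
    y ∈ thk B0 (a + 1) := by
  obtain ⟨z, hz, h1, h2⟩ := hx
  have h3 := sd_adj (p := z) hxy
  have h4 : sd z x ≤ a := max_le h1 h2
  have h5 : sd z y ≤ a + 1 := by omega
  exact ⟨z, hz, (le_max_left _ _).trans h5, (le_max_right _ _).trans h5⟩

theorem sub_thk {B0 : Set Pt} {a : ℤ} (ha : 0 ≤ a) : B0 ⊆ thk B0 a :=
  fun x hx => ⟨x, hx, by simpa using ha, by simpa using ha⟩

theorem nb_sub_thk {B0 : Set Pt} : nb B0 ⊆ thk B0 1 := by
  rintro x (hx | ⟨-, y, hy, hyx⟩)
  · exact sub_thk (by norm_num) hx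
  · exact thk_step (a := 0) (sub_thk le_rfl hy) hyx

/-- The number of steps down from `-1`. -/
noncomputable def stp (B0 : Set Pt) (j : ℕ) (x : Pt) : ℤ :=
  ∑ i ∈ Finset.range j, if x ∈ thk B0 (i + 2) then 0 else 1

theorem stp_nonneg (B0 : Set Pt) (j : ℕ) (x : Pt) : 0 ≤ stp B0 j x :=
  Finset.sum_nonneg fun _ _ => by split_ifs <;> norm_num

theorem stp_le (B0 : Set Pt) (j : ℕ) (x : Pt) : stp B0 j x ≤ j := by
  unfold stp
  refine (Finset.sum_le_card_nsmul (Finset.range j) _ 1 fun i _ => ?_).trans (by simp)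
  split_ifs <;> norm_num

theorem stp_zero {B0 : Set Pt} {j : ℕ} {x : Pt} (hx : x ∈ thk B0 2) : stp B0 j x = 0 := by
  unfold stp
  refine Finset.sum_eq_zero fun i _ => if_pos (thk_mono ?_ hx)
  have : (0 : ℤ) ≤ i := Int.natCast_nonneg i
  omega

theorem stp_top {B0 : Set Pt} {j : ℕ} {x : Pt} (hx : x ∉ thk B0 (j + 1)) : stp B0 j x = j := by
  unfold stp
  rw [Finset.sum_congr rfl (g := fun _ => (1 : ℤ)) fun i hi => if_neg fun h => hx (thk_mono ?_ h)]
  · simp
  · have := Finset.mem_range.1 hi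
    have : (i : ℤ) < j := by exact_mod_cast this
    omega

theorem stp_adj {B0 : Set Pt} {j : ℕ} {x y : Pt} (hxy : Adj x y) :
    stp B0 j y ≤ stp B0 j x + 1 := by
  cases j with
  | zero => simp [stp]
  | succ n =>
    unfold stp
    rw [Finset.sum_range_succ', Finset.sum_range_succ]
    have h1 : ∑ i ∈ Finset.range n, (if y ∈ thk B0 (((i + 1 : ℕ) : ℤ) + 2) then (0 : ℤ) else 1) ≤
        ∑ i ∈ Finset.range n, (if x ∈ thk B0 ((i : ℤ) + 2) then (0 : ℤ) else 1) := by
      refine Finset.sum_le_sum fun i _ => ?_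
      by_cases h : x ∈ thk B0 ((i : ℤ) + 2)
      · have h2 := thk_step h hxy
        have h3 : (i : ℤ) + 2 + 1 = ((i + 1 : ℕ) : ℤ) + 2 := by push_cast; ring
        rw [h3] at h2
        rw [if_pos h, if_pos h2]
      · rw [if_neg h]; split_ifs <;> norm_num
    have h4 : (if y ∈ thk B0 (((0 : ℕ) : ℤ) + 2) then (0 : ℤ) else 1) ≤ 1 := by
      split_ifs <;> norm_num
    have h5 : (0 : ℤ) ≤ if x ∈ thk B0 ((n : ℤ) + 2) then (0 : ℤ) else 1 := by
      split_ifs <;> norm_num
    linarith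

/-- **Localisation.** -/
theorem s_alpha (j : ℕ) : S_alpha j := by
  intro V A I hJ B0 hB0 hA
  have hj : (0 : ℤ) ≤ j := Int.natCast_nonneg j
  set m : ℤ := -(2 * j + 2) with hm
  have hme : Even m := ⟨-(j + 1), by rw [hm]; ring⟩
  have hVf : V.Finite := hJ.dat.fin
  set V' : Set Pt := V ∩ thk B0 (j + 3) with hV'
  have hV'V : V' ⊆ V := Set.inter_subset_left
  have h2A : thk B0 2 ⊆ A := fun x hx => hA (thk_mono (by omega) hx)
  set τ : Pt → ℤ := fun x => -1 - 2 * stp B0 j x with hτ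
  have τ1 : ∀ x, τ x ≤ -1 := fun x => by have := stp_nonneg B0 j x; simp only [hτ]; omega
  have τ2 : ∀ x, m + 1 ≤ τ x := fun x => by have := stp_le B0 j x; simp only [hτ]; omega
  have τ3 : ∀ x, x ∈ thk B0 2 → τ x = -1 := fun x hx => by simp only [hτ]; rw [stp_zero hx]; ring
  have τ4 : ∀ x, x ∉ thk B0 (j + 1) → τ x = m + 1 := fun x hx => by
    simp only [hτ]; rw [stp_top hx, hm]; ring
  have τ5 : ∀ x, Odd (τ x) := fun x => ⟨-1 - stp B0 j x, by simp only [hτ]; ring⟩
  have τ6 : ∀ x y, Adj x y → |τ x - τ y| ≤ 2 := fun x y hxy => by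
    have h1 := stp_adj (B0 := B0) (j := j) hxy
    have h2 := stp_adj (B0 := B0) (j := j) (Topo.adj_symm hxy)
    simp only [hτ]
    rw [abs_le]; omega
  -- dummies off `nb V`
  set I₁ : Pt → Set ℤ := fun x => if x ∈ nb V then I x else {-1} with hI₁
  have I₁_nb : ∀ x, x ∈ nb V → I₁ x = I x := fun x hx => if_pos hx
  have I₁_far : ∀ x, x ∉ nb V → I₁ x = {-1} := fun x hx => if_neg hx
  have dI₁ : Dat V I₁ := by
    refine ⟨hVf, fun x hx => ?_, (nb_finite hVf).subset fun x hx => ?_⟩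
    · by_cases h1 : x ∈ nb V
      · rw [I₁_nb x h1]; exact hJ.dat.bdd x hx
      · rw [I₁_far x h1]; exact Set.finite_singleton _
    · by_contra h1
      exact hx (by rw [I₁_far x h1]; exact Set.subsingleton_singleton)
  have nI₁ : (Cfg V I₁).Nonempty := by
    obtain ⟨h, hh⟩ := hJ.ne
    refine ⟨fun x => if x ∈ nb V then h x else -1, fun x => ?_, fun x => ?_, fun x hx y hxy => ?_⟩
    · simp only
      split_ifs
      · exact hh.1 x
      · exact odd_neg_one
    · simp only
      by_cases h1 : x ∈ nb V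
      · rw [if_pos h1, I₁_nb x h1]; exact hh.2.1 x
      · rw [if_neg h1, I₁_far x h1]; rfl
    · simp only
      have h1 := Tr.mem_nb_of_left hx hxy
      rw [if_pos h1.1, if_pos h1.2]
      exact hh.2.2 x hx y hxy
  -- the data are on the positive side of the level
  have wr : ∀ x, x ∈ nb V → ¬ (x ∈ V ∧ x ∈ A) → Wr m 1 (I x) := by
    intro x hx hxA b hb _
    have hge : -(2 * (j : ℤ) + 1) ≤ b := by
      by_cases h1 : x ∈ V
      · exact (hJ.froz x h1 (fun h => hxA ⟨h1, h⟩) b hb).1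
      · have h2 : x ∈ ebd V := hx.resolve_left h1
        by_cases h3 : x ∈ A
        · rw [hJ.wallA x h2 h3] at hb
          rcases hb with hb | hb
          · rw [hb]; omega
          · rw [Set.mem_singleton_iff.1 hb]; omega
        · exact (hJ.wall x h2 h3 b hb).1
    omega
  have hL : Lv V I₁ m 1 :=
    { even := hme
      sg := Or.inl rfl
      dI := dI₁
      ne := nI₁
      sd := fun x => by
        by_cases h1 : x ∈ nb V
        · left
          rw [I₁_nb x h1]
          by_cases h2 : x ∈ V ∧ x ∈ A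
          · rw [hJ.free x h2.1 h2.2]; exact Sd_univ _ _
          · exact Or.inl (wr x h1 h2)
        · right
          exact ⟨h1, by rw [I₁_far x h1]; exact Set.subsingleton_singleton⟩ }
  -- the smaller data
  set A₀ : Set Pt := {x | x ∈ nb V ∧ x ∉ V' ∧ (x ∈ V ∨ x ∉ thk B0 2)} with hA₀
  set J₀ : Pt → Set ℤ := fun x => if x ∈ V then {m - 1, m + 1} else {τ x} with hJ₀
  set J : Pt → Set ℤ := rpl I₁ A₀ J₀ with hJd
  have J_V' : ∀ x, x ∈ V' → J x = univ := fun x hx => by
    rw [hJd, rpl_out (fun h => h.2.1 hx), I₁_nb x (Or.inl hx.1),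
      hJ.free x hx.1 (hA (thk_mono (by omega) hx.2))]
  have J_V : ∀ x, x ∈ V → x ∉ V' → J x = {m - 1, m + 1} := fun x hx hx' => by
    rw [hJd, rpl_in (show x ∈ A₀ from ⟨Or.inl hx, hx', Or.inl hx⟩)]
    exact if_pos hx
  have J_w : ∀ x, x ∈ ebd V → x ∉ thk B0 2 → J x = {τ x} := fun x hx hx' => by
    rw [hJd, rpl_in (show x ∈ A₀ from ⟨Or.inr hx, fun h => hx.1 h.1, Or.inr hx'⟩)]
    exact if_neg hx.1
  have J_n : ∀ x, x ∈ ebd V → x ∈ thk B0 2 → J x = {-1, 1} := fun x hx hx' => by
    rw [hJd, rpl_out (fun h => h.2.2.elim hx.1 (fun h => h hx')), I₁_nb x (Or.inr hx),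
      hJ.wallA x hx (h2A hx')]
  have J_f : ∀ x, x ∉ nb V → J x = {-1} := fun x hx => by
    rw [hJd, rpl_out (fun h => hx h.1), I₁_far x hx]
  set g : Hg := fun x => if x ∈ nb V then τ x else -1 with hg
  have hgJ : g ∈ Cfg V J := by
    refine ⟨fun x => ?_, fun x => ?_, fun x hx y hxy => ?_⟩
    · simp only [hg]
      split_ifs
      · exact τ5 x
      · exact odd_neg_one
    · simp only [hg]
      by_cases h1 : x ∈ nb V
      · rw [if_pos h1]
        by_cases h2 : x ∈ V'
        · rw [J_V' x h2]; exact Set.mem_univ _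
        · by_cases h3 : x ∈ V
          · rw [J_V x h3 h2]
            have h4 : x ∉ thk B0 (j + 1) := fun h => h2 ⟨h3, thk_mono (by omega) h⟩
            rw [τ4 x h4]; simp
          · have h4 : x ∈ ebd V := h1.resolve_left h3
            by_cases h5 : x ∈ thk B0 2
            · rw [J_n x h4 h5, τ3 x h5]; simp
            · rw [J_w x h4 h5]; rfl
      · rw [if_neg h1, J_f x h1]; rfl
    · simp only [hg]
      have h1 := Tr.mem_nb_of_left hx hxy
      rw [if_pos h1.1, if_pos h1.2]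
      exact τ6 x y hxy
  have hcmp : Cmp V J I₁ m 1 := by
    refine Cmp_rpl_le hL ((nb_finite hVf).subset fun x hx => hx.1) (fun x hx => ?_)
      (fun x _ => ?_) ⟨g, hgJ⟩
    · simp only [hJ₀]
      have hsd : Sd m 1 (I₁ x) := by
        rcases hL.sd x with h | h
        · exact h
        · exact absurd hx.1 h.1
      by_cases h1 : x ∈ V
      · rw [if_pos h1]; exact SdLe_free hme (Or.inl rfl) hsd
      · rw [if_neg h1, I₁_nb x hx.1]
        have h2 := wr x hx.1 (fun h => h1 h.1)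
        have h3 : 0 < 1 * (τ x - m) := by have := τ2 x; omega
        refine ⟨Sd_single h3, Or.inl h2, fun _ => h2, fun a ha _ b hb hbo hlt => ?_⟩
        exfalso
        rw [Set.mem_singleton_iff] at ha
        subst ha
        have h4 := h2 b hb hbo
        have h5 : |τ x - m| = τ x - m := abs_of_pos (by omega)
        have h6 : |b - m| = b - m := abs_of_pos (by omega)
        rw [h5, h6] at hlt
        have hxe : x ∈ ebd V := hx.1.resolve_left h1
        by_cases h7 : x ∈ A
        · rw [hJ.wallA x hxe h7] at hb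
          have h8 := τ1 x
          rcases hb with hb | hb
          · omega
          · rw [Set.mem_singleton_iff] at hb; omega
        · have h8 : x ∉ thk B0 (j + 1) := fun h => h7 (hA (thk_mono (by omega) h))
          have h9 := τ4 x h8
          omega
    · simp only [hJ₀]
      split_ifs
      · exact Set.toFinite _
      · exact Set.finite_singleton _
  have e1 : Cfg V J = Cfg V' J := by
    have h1 : Cfg V J = Cfg (V \ (V \ V')) J := by
      refine Cfg_cut (m := m) (fun x hx => by rw [J_V x hx.1 hx.2]) (fun x hx y hy _ hxy => ?_)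
      have hye : y ∈ ebd V := ⟨hy, x, hx.1, hxy⟩
      have hxt : x ∉ thk B0 (j + 3) := fun h => hx.2 ⟨hx.1, h⟩
      have hyt : y ∉ thk B0 (j + 2) := fun h => hxt (by
        have := thk_step h (Topo.adj_symm hxy)
        rwa [show (j : ℤ) + 2 + 1 = j + 3 by ring] at this)
      rw [J_w y hye (fun h => hyt (thk_mono (by omega) h)),
        τ4 y (fun h => hyt (thk_mono (by omega) h))]
      intro b hb
      rw [Set.mem_singleton_iff] at hb
      rw [hb]; simp
    rw [h1]
    congr 1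
    ext x
    constructor
    · rintro ⟨h3, h4⟩
      by_contra h5
      exact h4 ⟨h3, h5⟩
    · intro h3
      exact ⟨hV'V h3, fun h4 => h4.2 h3⟩
  refine ⟨V', J, hV'V, fun x hx => ⟨hx.1, sub_thk (by omega) hx.2⟩, ?_, ?_, ?_, ?_⟩
  · refine ⟨hVf.subset hV'V, fun x hx => ?_, hcmp.dI.cof⟩
    by_cases h1 : x ∈ V
    · rw [J_V x h1 hx]; exact Set.toFinite _
    · exact hcmp.dI.bdd x h1
  · rw [← e1]; exact ⟨g, hgJ⟩
  · intro x hx
    by_cases h1 : x ∈ V'
    · exact Or.inl ⟨h1, J_V' x h1⟩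
    · obtain ⟨-, y, hy, hyx⟩ := hx.resolve_left h1
      right
      by_cases h2 : x ∈ V
      · right
        refine ⟨fun h => h1 ⟨h2, thk_mono (by omega) (nb_sub_thk h)⟩, fun b hb => ?_⟩
        rw [J_V x h2 h1] at hb
        rcases hb with hb | hb
        · omega
        · rw [Set.mem_singleton_iff] at hb; omega
      · have h3 : x ∈ ebd V := ⟨h2, y, hy.1, hyx⟩
        by_cases h4 : x ∈ thk B0 2
        · exact Or.inl ⟨h1, J_n x h3 h4⟩
        · right
          refine ⟨fun h => h4 (thk_mono (by norm_num) (nb_sub_thk h)), fun b hb => ?_⟩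
          rw [J_w x h3 h4, Set.mem_singleton_iff] at hb
          have := τ1 x
          have := τ2 x
          omega
  · intro Z a hZ ha
    rw [← e1]
    have key := md_mom0 hcmp (Z := Z) (φ := fun (_ : Fin 1) => a)
      (fun x hx => Or.inl (hZ x hx).1) (fun _ x hx => ha x hx)
    rw [Ex_pm_lin (Cfg_finite hcmp.dI) hcmp.ne, Ex_pm_lin (Cfg_finite dI₁) nI₁] at key
    have e2 : Ex (Cfg V I₁) (lin Z a) = Ex (Cfg V I) (lin Z a) :=
      Ex_off dI₁ hJ.dat I₁_nb nI₁ hJ.ne fun b c hbc =>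
        lin_congr (U := nb V) (fun x hx => Or.inl (hZ x hx).1) b c hbc
    rw [← e2]
    push_cast at key
    linarith

end Vale.Agent.P153.R2.RD
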