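import Vale.Agent.P153.R2.RDEC.Rdec
import Vale.Agent.P153.R2.RDEC.Alpha
import Vale.Agent.P153.R2.LAND.Land

/-!
# P153-R2, block RDEC: RDEC and LAND from the plane theorem
-/

namespace Vale.Agent.P153.R2.RD

open Vale.Agent.P153 Vale.Agent.P153.R2 MeasureTheory

variable {Q : Measure A.Om} {κ : ℝ}

/-- **RDEC.** -/
theorem s_rdec (hQ : A.IsQ Q) (hP : GFF.Plane (Q.map A.rc)) (hS : GFF.SpecOut (Q.map A.rc) κ)
    (hC : GFF.RowCLT (Q.map A.rc) κ) (hκ : 0 < κ) (j : ℕ) : LAND.S_rdec j :=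
  s_rdec_of hQ hP hS hC hκ (s_alpha j)

/-- **LAND.** -/
theorem s_land (hQ : A.IsQ Q) (hP : GFF.Plane (Q.map A.rc)) (hS : GFF.SpecOut (Q.map A.rc) κ)
    (hC : GFF.RowCLT (Q.map A.rc) κ) (hκ : 0 < κ) (j : ℕ) : LAND.S_land j := by
  obtain ⟨R₁, t₁, hR₁, ht₁, hone⟩ := F2.s_one (F2A.s_lc hQ hP hS hC hκ)
  exact LAND.s_land hR₁ ht₁ (by norm_num) hone j (s_rdec hQ hP hS hC hκ j)

end Vale.Agent.P153.R2.RD
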