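import Vale.Agent.P153.R2.RDEC.Abs

/-!
# P153-R2, block RDEC: averaging over the outer cluster, flipping the inner cluster

`nu B0 β = Cfg (B0 \ β) (frd (B0 \ β) 0)`; `Oc m B0 h` = open cluster (level `-m`) of the complement
of `B0`; `DD m B0 M4 = {h | Oc m B0 h misses M4}`; `CF0 T M`: the open cluster (level `0`) of `T` is
in `M`.
-/

namespace Vale.Agent.P153.R2.RD

open Set Relation
open Vale.Agent.P153 Vale.Agent.P153.R2
open Vale.Agent.P153.Topo (Conn)
open scoped Classical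

/-- The free law in `B0 \ β`. -/
noncomputable abbrev nu (B0 β : Set Pt) : Set Hg := Cfg (B0 \ β) (frd (B0 \ β) 0)

section frd

variable {V : Set Pt} {x : Pt}

theorem frd_in (h : x ∈ V) : frd V 0 x = univ := if_pos h

theorem frd_bd (h : x ∈ ebd V) : frd V 0 x = {-1, 1} := by
  unfold frd
  rw [if_neg h.1, if_pos h]
  norm_num

theorem frd_far (h : x ∉ V) (h2 : x ∉ ebd V) : frd V 0 x = {1} := by
  unfold frd
  rw [if_neg h, if_neg h2]
  norm_num

theorem frd_abs (h : x ∉ V) {n : ℤ} (hn : n ∈ frd V 0 x) : |n| = 1 := by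
  by_cases h2 : x ∈ ebd V
  · rw [frd_bd h2] at hn
    rcases hn with hn | hn
    · rw [hn]; rfl
    · have : n = 1 := hn
      rw [this]; rfl
  · rw [frd_far h h2] at hn
    have : n = 1 := hn
    rw [this]; rfl

theorem frd_dat (hV : V.Finite) : Dat V (frd V 0) := by
  refine ⟨hV, fun x hx => ?_, (nb_finite hV).subset fun x hx => ?_⟩
  · by_cases h2 : x ∈ ebd V
    · rw [frd_bd h2]; exact Set.toFinite _
    · rw [frd_far hx h2]; exact Set.finite_singleton _
  · by_contra hc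
    apply hx
    rw [frd_far (fun h => hc (Or.inl h)) (fun h => hc (Or.inr h))]
    exact Set.subsingleton_singleton

theorem frd_nonempty (V : Set Pt) : (Cfg V (frd V 0)).Nonempty := by
  refine ⟨fun _ => 1, fun _ => odd_one, fun x => ?_, fun x _ y _ => by simp⟩
  by_cases h : x ∈ V
  · rw [frd_in h]; exact Set.mem_univ _
  · by_cases h2 : x ∈ ebd V
    · rw [frd_bd h2]; simp
    · rw [frd_far h h2]; simp

end frd

/-- The open cluster (level `-m`) of the complement of `B0`. -/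
def Oc (m : ℤ) (B0 : Set Pt) (h : Hg) : Set Pt := CluL (-m) B0ᶜ h

/-- The outer cluster misses `M4`. -/
def DD (m : ℤ) (B0 M4 : Set Pt) : Set Hg := {h | ∀ x ∈ M4, x ∉ Oc m B0 h}

variable {m : ℤ}

theorem compl_sub_Oc (m : ℤ) (B0 : Set Pt) (h : Hg) : B0ᶜ ⊆ Oc m B0 h :=
  fun x hx => ⟨x, hx, ReflTransGen.refl⟩

theorem Oc_step {B0 : Set Pt} {h : Hg} {x y : Pt} (hx : x ∈ Oc m B0 h) (hxy : OpL (-m) h x y) :
    y ∈ Oc m B0 h := by
  obtain ⟨z, hz, hzx⟩ := hx
  exact ⟨z, hz, hzx.tail hxy⟩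

/-- At the boundary of the outer cluster the heights are `-m - 1` or `-m + 1`. -/
theorem Oc_closed {B0 : Set Pt} {h : Hg} {x y : Pt} (hx : x ∈ Oc m B0 h) (hy : y ∉ Oc m B0 h)
    (hxy : Adj x y) : |h x - (-m)| = 1 ∧ |h y - (-m)| = 1 := by
  by_contra hc
  exact hy (Oc_step hx ⟨hxy, hc⟩)

/-- The outer cluster is determined by the heights on it and its neighbours. -/
theorem Oc_eq {B0 : Set Pt} {g h : Hg} (hgh : ∀ x ∈ Oc m B0 h, g x = h x)
    (hb : ∀ x ∈ ebd (Oc m B0 h), |g x - (-m)| = 1) : Oc m B0 g = Oc m B0 h := by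
  apply Set.Subset.antisymm
  · rintro x ⟨z, hz, hzx⟩
    induction hzx with
    | refl => exact compl_sub_Oc m B0 h hz
    | @tail b c _ h1 ih =>
      by_contra hc
      have h2 := Oc_closed ih hc h1.1
      refine h1.2 ⟨?_, hb _ ⟨hc, b, ih, h1.1⟩⟩
      rw [hgh b ih]; exact h2.1
  · rintro x ⟨z, hz, hzx⟩
    have key : x ∈ Oc m B0 h ∧ x ∈ Oc m B0 g := by
      induction hzx with
      | refl => exact ⟨compl_sub_Oc m B0 h hz, compl_sub_Oc m B0 g hz⟩
      | @tail b c _ h1 ih =>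
        have h3 : c ∈ Oc m B0 h := Oc_step ih.1 h1
        refine ⟨h3, Oc_step ih.2 ⟨h1.1, ?_⟩⟩
        rw [hgh b ih.1, hgh c h3]
        exact h1.2
    exact key.2

variable {B0 β M4 : Set Pt}

/-- The data on the fibre of `h`. -/
noncomputable def JF (m : ℤ) (B0 β : Set Pt) (h : Hg) : Pt → Set ℤ := fun x =>
  if x ∈ Oc m B0 h then {h x} else if x ∈ ebd (Oc m B0 h) then {-m - 1, -m + 1} else frd (B0 \ β) 0 x

/-- All the vertices within two steps of `β` are in `M4`. -/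
def Deep (β M4 : Set Pt) : Prop :=
  ∀ x ∈ β, x ∈ M4 ∧ ∀ y, Adj x y → y ∈ M4 ∧ ∀ z, Adj y z → z ∈ M4

theorem Deep.far (hM : Deep β M4) {h : Hg} (hD : h ∈ DD m B0 M4) :
    (∀ x ∈ β, x ∉ Oc m B0 h) ∧ (∀ x ∈ β, x ∉ ebd (Oc m B0 h)) ∧
      ∀ x ∈ β, ∀ y, Adj x y → y ∉ nb (Oc m B0 h) := by
  refine ⟨fun x hx => hD x (hM x hx).1, ?_, ?_⟩
  · rintro x hx ⟨-, y, hy, hyx⟩
    exact hD y ((hM x hx).2 y (Topo.adj_symm hyx)).1 hy
  · rintro x hx y hxy (h1 | ⟨-, z, hz, hzy⟩)
    · exact hD y ((hM x hx).2 y hxy).1 h1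
    · exact hD z (((hM x hx).2 y hxy).2 z (Topo.adj_symm hzy)) hz

/-- The fibre. -/
theorem fib_eq (hM : Deep β M4) {h : Hg} (hh : h ∈ nu B0 β) (hD : h ∈ DD m B0 M4) :
    nu B0 β ∩ {g | Oc m B0 g = Oc m B0 h ∧ ∀ x ∈ Oc m B0 h, g x = h x} =
      Cfg ((Oc m B0 h)ᶜ \ β) (JF m B0 β h) := by
  obtain ⟨hβO, hβe, -⟩ := hM.far hD
  set O := Oc m B0 h with hO
  have hOB : B0ᶜ ⊆ O := compl_sub_Oc m B0 h
  have hin : ∀ x, x ∉ O → x ∈ B0 := fun x hx => by
    by_contra h1
    exact hx (hOB h1)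
  ext g
  constructor
  · rintro ⟨hg, hgO, hgh⟩
    refine ⟨hg.1, fun x => ?_, fun x hx y hxy => hg.2.2 x ⟨hin x hx.1, hx.2⟩ y hxy⟩
    unfold JF
    by_cases h1 : x ∈ O
    · rw [if_pos h1]; exact hgh x h1
    · rw [if_neg h1]
      by_cases h2 : x ∈ ebd O
      · rw [if_pos h2]
        obtain ⟨-, z, hz, hzx⟩ := h2
        have h3 := (Oc_closed (m := m) (B0 := B0) (h := g) (by rw [hgO]; exact hz) (by rw [hgO]; exact h1)
          hzx).2
        rcases abs_cases (g x - (-m)) with ⟨h4, _⟩ | ⟨h4, _⟩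
        · right; show g x = -m + 1; omega
        · left; omega
      · rw [if_neg h2]; exact hg.2.1 x
  · intro hg
    have hgh : ∀ x ∈ O, g x = h x := fun x hx => by
      have := hg.2.1 x
      unfold JF at this
      rw [if_pos hx] at this
      exact this
    have hgb : ∀ x ∈ ebd O, |g x - (-m)| = 1 := fun x hx => by
      have := hg.2.1 x
      unfold JF at this
      rw [if_neg hx.1, if_pos hx] at this
      rcases this with h3 | h3
      · rw [h3, show -m - 1 - -m = -1 by ring]; rfl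
      · have h4 : g x = -m + 1 := h3
        rw [h4, show -m + 1 - -m = 1 by ring]; rfl
    refine ⟨⟨hg.1, fun x => ?_, fun x hx y hxy => ?_⟩, Oc_eq hgh hgb, hgh⟩
    · by_cases h1 : x ∈ O
      · rw [hgh x h1]; exact hh.2.1 x
      · by_cases h2 : x ∈ ebd O
        · have h3 : x ∈ B0 \ β := ⟨hin x h1, fun h => hβe x h h2⟩
          rw [frd_in h3]; exact Set.mem_univ _
        · have := hg.2.1 x
          unfold JF at this
          rw [if_neg h1, if_neg h2] at this
          exact this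
    · by_cases h1 : x ∈ O
      · by_cases h2 : y ∈ O
        · rw [hgh x h1, hgh y h2]; exact hh.2.2 x hx y hxy
        · have hyβ : y ∉ β := fun h => hβe y h ⟨h2, x, h1, hxy⟩
          rw [abs_sub_comm]
          exact hg.2.2 y ⟨h2, hyβ⟩ x (Topo.adj_symm hxy)
      · exact hg.2.2 x ⟨h1, hx.2⟩ y hxy

/-- The inner laws are not empty. -/
theorem inner_ne (hm : Even m) (hM : Deep β M4) {h : Hg} (hh : h ∈ nu B0 β)
    (hD : h ∈ DD m B0 M4) :
    (Cfg (WO β (Oc m B0 h)) (D4 m (WO β (Oc m B0 h)) β (ebd (Oc m B0 h)))).Nonempty := by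
  obtain ⟨hβO, hβe, hβn⟩ := hM.far hD
  set O := Oc m B0 h with hO
  have hOB : B0ᶜ ⊆ O := compl_sub_Oc m B0 h
  refine ⟨fun x => if x ∈ O then -m + 1 else h x, fun x => ?_, fun x => ?_, fun x hx y hxy => ?_⟩
  · by_cases h1 : x ∈ O
    · simp only [h1, if_true]; exact hm.neg.add_odd odd_one
    · simp only [h1, if_false]; exact hh.1 x
  · by_cases h1 : x ∈ O
    · simp only [h1, if_true]
      have h2 : x ∉ WO β O := fun h => h.2 (Or.inl h1)
      rw [D4_N h2 (fun h => hβO x h h1) (fun h => h.1 h1)]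
      exact Set.mem_singleton _
    · simp only [h1, if_false]
      by_cases h2 : x ∈ WO β O
      · rw [D4_W h2]; exact Set.mem_univ _
      · by_cases h3 : x ∈ β
        · rw [D4_A h2 h3]
          have h4 : |h x| = 1 := frd_abs (fun h => h.2 h3) (hh.2.1 x)
          simp only [Set.mem_insert_iff, Set.mem_singleton_iff]
          rcases abs_cases (h x) with ⟨h5, _⟩ | ⟨h5, _⟩ <;> omega
        · have h4 : x ∈ nb O := by
            by_contra h
            exact h2 ⟨h3, h⟩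
          have h5 : x ∈ ebd O := h4.resolve_left h1
          rw [D4_E h2 h3 h5]
          obtain ⟨-, z, hz, hzx⟩ := h5
          have h6 := (Oc_closed (m := m) (B0 := B0) (h := h) hz h1 hzx).2
          simp only [Set.mem_insert_iff, Set.mem_singleton_iff]
          rcases abs_cases (h x - (-m)) with ⟨h7, _⟩ | ⟨h7, _⟩ <;> omega
  · have h1 : x ∉ O := fun h => hx.2 (Or.inl h)
    have h2 : y ∉ O := fun h => hx.2 (Or.inr ⟨h1, y, h, Topo.adj_symm hxy⟩)
    have h3 : x ∈ B0 := by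
      by_contra h4
      exact h1 (hOB h4)
    simp only [h1, h2, if_false]
    exact hh.2.2 x ⟨h3, hx.1⟩ y hxy

/-- The average over the fibre. -/
theorem Ex_fib (hm : Even m) (hB0 : B0.Finite) (hβ : β ⊆ B0) (hM : Deep β M4) {h : Hg} (hh : h ∈ nu B0 β)
    (hD : h ∈ DD m B0 M4) {F : Hg → ℝ}
    (hF : ∀ g g' : Hg, (∀ x ∈ nb (WO β (Oc m B0 h)), g x = g' x) → F g = F g') :
    Ex (nu B0 β ∩ {g | Oc m B0 g = Oc m B0 h ∧ ∀ x ∈ Oc m B0 h, g x = h x}) F =
      Ex (Cfg (WO β (Oc m B0 h)) (D4 m (WO β (Oc m B0 h)) β (ebd (Oc m B0 h)))) F := by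
  have hne : (nu B0 β ∩ {g | Oc m B0 g = Oc m B0 h ∧ ∀ x ∈ Oc m B0 h, g x = h x}).Nonempty :=
    ⟨h, hh, rfl, fun _ _ => rfl⟩
  have hk := inner_ne hm hM hh hD
  rw [fib_eq hM hh hD] at hne ⊢
  obtain ⟨hβO, hβe, hβn⟩ := hM.far hD
  set O := Oc m B0 h with hO
  have hOB : B0ᶜ ⊆ O := compl_sub_Oc m B0 h
  have hin : ∀ x, x ∉ O → x ∈ B0 := fun x hx => by
    by_contra h1
    exact hx (hOB h1)
  have hβf : β.Finite := hB0.subset hβ
  have eU : (Oᶜ \ β) \ ebd O = WO β O := by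
    ext x
    constructor
    · rintro ⟨⟨h1, h2⟩, h3⟩
      exact ⟨h2, fun h => h.elim h1 h3⟩
    · rintro ⟨h1, h2⟩
      exact ⟨⟨fun h => h2 (Or.inl h), h1⟩, fun h => h2 (Or.inr h)⟩
  have hJe : ∀ x ∈ ebd O, JF m B0 β h x = {-m - 1, -m + 1} := fun x hx => by
    unfold JF
    rw [if_neg hx.1, if_pos hx]
  have e1 : Cfg (Oᶜ \ β) (JF m B0 β h) = Cfg (WO β O) (JF m B0 β h) := by
    rw [← eU]
    refine Cfg_sdiff fun x hx y hy hxy n hn k hk => ?_
    rw [hJe x hx] at hn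
    have h2 : k = -m - 1 ∨ k = -m + 1 := by
      by_cases hyO : y ∈ O
      · have hJ : JF m B0 β h y = {h y} := by
          unfold JF; rw [if_pos hyO]
        rw [hJ, Set.mem_singleton_iff] at hk
        have h3 := (Oc_closed (m := m) (B0 := B0) (h := h) hyO hx.1 (Topo.adj_symm hxy)).1
        rw [hk]
        rcases abs_cases (h y - (-m)) with ⟨h4, _⟩ | ⟨h4, _⟩ <;> omega
      · by_cases hye : y ∈ ebd O
        · rw [hJe y hye] at hk
          simpa using hk
        · exfalso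
          have hyβ : y ∈ β := by
            by_contra h4
            exact hy ⟨⟨hyO, h4⟩, hye⟩
          exact hβn y hyβ x (Topo.adj_symm hxy) (Or.inr hx)
    simp only [Set.mem_insert_iff, Set.mem_singleton_iff] at hn
    rw [abs_le]
    omega
  rw [e1] at hne ⊢
  have hWf : (WO β O).Finite := hB0.subset fun x hx => hin x fun h => hx.2 (Or.inl h)
  have heO : (ebd O).Finite := hB0.subset fun x hx => hin x hx.1
  have hnbf : (nb (B0 \ β)).Finite := nb_finite (hB0.subset Set.sdiff_subset)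
  have dJ : Dat (WO β O) (JF m B0 β h) := by
    refine ⟨hWf, fun x hx => ?_, hnbf.subset fun x hx => ?_⟩
    · unfold JF
      split_ifs with h1 h2
      · exact Set.finite_singleton _
      · exact Set.toFinite _
      · have h3 : x ∉ B0 \ β := fun h4 => hx ⟨h4.2, fun h5 => h5.elim h1 h2⟩
        exact (frd_dat (hB0.subset Set.sdiff_subset)).bdd x h3
    · by_contra hc
      apply hx
      unfold JF
      have h1 : x ∉ B0 \ β := fun h => hc (Or.inl h)
      have h2 : x ∉ ebd (B0 \ β) := fun h => hc (Or.inr h)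
      have h3 : x ∉ ebd O := fun h => h1 ⟨hin x h.1, fun h4 => hβe x h4 h⟩
      split_ifs with h4
      · exact Set.subsingleton_singleton
      · rw [frd_far h1 h2]; exact Set.subsingleton_singleton
  refine Ex_off dJ (D4_dat hWf hβf heO hWf le_rfl) (fun x hx => ?_) hne hk hF
  by_cases h1 : x ∈ WO β O
  · rw [D4_W h1]
    unfold JF
    have h2 : x ∉ O := fun h => h1.2 (Or.inl h)
    have h3 : x ∉ ebd O := fun h => h1.2 (Or.inr h)
    have h4 : x ∈ B0 \ β := ⟨hin x h2, h1.1⟩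
    rw [if_neg h2, if_neg h3, frd_in h4]
  · have h3 : x ∈ ebd (WO β O) := hx.resolve_left h1
    obtain ⟨-, y, hy, hyx⟩ := h3
    have hyO : y ∉ O := fun h => hy.2 (Or.inl h)
    have h5 : x ∉ O := fun h => hy.2 (Or.inr ⟨hyO, x, h, Topo.adj_symm hyx⟩)
    by_cases h2 : x ∈ β
    · rw [D4_A h1 h2]
      unfold JF
      have h6 : x ∈ ebd (B0 \ β) := ⟨fun h => h.2 h2, y, ⟨hin y hyO, hy.1⟩, hyx⟩
      rw [if_neg h5, if_neg (hβe x h2), frd_bd h6]
    · have h4 : x ∈ nb O := by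
        by_contra h
        exact h1 ⟨h2, h⟩
      have h6 : x ∈ ebd O := h4.resolve_left h5
      rw [D4_E h1 h2 h6, hJe x h6]

/-- Averaging: if all inner laws have mean at most `c0`. -/
theorem avg_le (hm : Even m) (hB0 : B0.Finite) (hβ : β ⊆ B0) (hM : Deep β M4) {F : Hg → ℝ} {c0 : ℝ}
    (hF : ∀ h ∈ nu B0 β, h ∈ DD m B0 M4 → ∀ g g' : Hg, (∀ x ∈ nb (WO β (Oc m B0 h)), g x = g' x) →
      F g = F g')
    (hc : ∀ h ∈ nu B0 β, h ∈ DD m B0 M4 →
      Ex (Cfg (WO β (Oc m B0 h)) (D4 m (WO β (Oc m B0 h)) β (ebd (Oc m B0 h)))) F ≤ c0) :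
    Ex (nu B0 β) (fun h => ind (DD m B0 M4) h * F h) ≤ c0 * Pr (nu B0 β) (DD m B0 M4) := by
  have hS : (nu B0 β).Finite := Cfg_finite (frd_dat (hB0.subset Set.sdiff_subset))
  rw [Pr_eq_Ex hS, ← Ex_const_mul]
  have hDO : ∀ g h : Hg, Oc m B0 g = Oc m B0 h → (g ∈ DD m B0 M4 ↔ h ∈ DD m B0 M4) := by
    intro g h hgh
    unfold DD
    simp only [Set.mem_ofPred_eq, hgh]
  refine Ex_le_of_fiber hS (fun h => (Oc m B0 h, fun x => if x ∈ Oc m B0 h then h x else 0)) _ _ ?_ ?_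
  · intro g _ h _ hgh
    have h1 : Oc m B0 g = Oc m B0 h := congrArg Prod.fst hgh
    have h2 := hDO g h h1
    by_cases h3 : h ∈ DD m B0 M4
    · simp [ind, h3, h2.2 h3]
    · have h4 : g ∉ DD m B0 M4 := fun h5 => h3 (h2.1 h5)
      simp [ind, h3, h4]
  · intro h hh
    have e : {b : Hg | ((Oc m B0 b, fun x => if x ∈ Oc m B0 b then b x else 0) : Set Pt × Hg) =
        (Oc m B0 h, fun x => if x ∈ Oc m B0 h then h x else 0)} =
        {g | Oc m B0 g = Oc m B0 h ∧ ∀ x ∈ Oc m B0 h, g x = h x} := by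
      ext g
      simp only [Set.mem_ofPred_eq, Prod.mk.injEq]
      constructor
      · rintro ⟨h1, h2⟩
        refine ⟨h1, fun x hx => ?_⟩
        have h3 := congrFun h2 x
        rw [h1] at h3
        simpa [hx] using h3
      · rintro ⟨h1, h2⟩
        refine ⟨h1, ?_⟩
        funext x
        rw [h1]
        by_cases hx : x ∈ Oc m B0 h
        · simp [hx, h2 x hx]
        · simp [hx]
    rw [e]
    by_cases hD : h ∈ DD m B0 M4
    · have h1 : Ex (nu B0 β ∩ {g | Oc m B0 g = Oc m B0 h ∧ ∀ x ∈ Oc m B0 h, g x = h x})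
          (fun g => ind (DD m B0 M4) g * F g) =
          Ex (nu B0 β ∩ {g | Oc m B0 g = Oc m B0 h ∧ ∀ x ∈ Oc m B0 h, g x = h x}) F :=
        Ex_congr fun g hg => by
          have : g ∈ DD m B0 M4 := (hDO g h hg.2.1).2 hD
          simp [ind, this]
      rw [h1, Ex_fib hm hB0 hβ hM hh hD (hF h hh hD)]
      have h2 : ind (DD m B0 M4) h = 1 := by simp [ind, hD]
      rw [h2, mul_one]
      exact hc h hh hD
    · have h1 : Ex (nu B0 β ∩ {g | Oc m B0 g = Oc m B0 h ∧ ∀ x ∈ Oc m B0 h, g x = h x})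
          (fun g => ind (DD m B0 M4) g * F g) =
          Ex (nu B0 β ∩ {g | Oc m B0 g = Oc m B0 h ∧ ∀ x ∈ Oc m B0 h, g x = h x}) (fun _ => 0) :=
        Ex_congr fun g hg => by
          have : g ∉ DD m B0 M4 := fun h5 => hD ((hDO g h hg.2.1).1 h5)
          simp [ind, this]
      rw [h1, Ex_zero]
      simp [ind, hD]

/-! ### Flipping the inner cluster -/

/-- The open cluster (level `0`) of `T` is in `M`. -/
def CF0 (T M : Set Pt) : Set Hg := {h | CluL 0 T h ⊆ M}

/-- Flip the inner cluster if it is in `M`. -/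
noncomputable def flp (T M : Set Pt) (h : Hg) : Hg :=
  if CluL 0 T h ⊆ M then refl 0 (CluL 0 T h) h else h

theorem refl_in {K : Set Pt} {h : Hg} {x : Pt} (hx : x ∈ K) : refl 0 K h x = - h x := by
  unfold refl
  rw [if_pos hx]; ring

theorem refl_out {K : Set Pt} {h : Hg} {x : Pt} (hx : x ∉ K) : refl 0 K h x = h x := by
  unfold refl
  rw [if_neg hx]

theorem refl_abs (K : Set Pt) (h : Hg) (x : Pt) : |refl 0 K h x| = |h x| := by
  by_cases hx : x ∈ K
  · rw [refl_in hx, abs_neg]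
  · rw [refl_out hx]

theorem CluL_abs {T : Set Pt} {g h : Hg} (hgh : ∀ x, |g x| = |h x|) : CluL 0 T g = CluL 0 T h := by
  have e : OpL 0 g = OpL 0 h := by
    funext x y
    unfold OpL
    simp only [sub_zero, hgh]
  unfold CluL
  rw [e]

theorem flp_abs (T M : Set Pt) (h : Hg) (x : Pt) : |flp T M h x| = |h x| := by
  unfold flp
  split_ifs
  · exact refl_abs _ h x
  · rfl

theorem flp_clu (T M : Set Pt) (h : Hg) : CluL 0 T (flp T M h) = CluL 0 T h :=
  CluL_abs (flp_abs T M h)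

theorem flp_pos {T M : Set Pt} {h : Hg} (hc : CluL 0 T h ⊆ M) :
    flp T M h = refl 0 (CluL 0 T h) h := if_pos hc

theorem flp_flp (T M : Set Pt) (h : Hg) : flp T M (flp T M h) = h := by
  by_cases hc : CluL 0 T h ⊆ M
  · have h1 : flp T M h = refl 0 (CluL 0 T h) h := flp_pos hc
    have h2 : flp T M (flp T M h) = refl 0 (CluL 0 T h) (flp T M h) := by
      rw [flp_pos (h := flp T M h) (by rw [flp_clu]; exact hc), flp_clu]
    rw [h2, h1]
    funext x
    by_cases hx : x ∈ CluL 0 T h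
    · rw [refl_in hx, refl_in hx, neg_neg]
    · rw [refl_out hx, refl_out hx]
  · have h1 : flp T M h = h := by unfold flp; rw [if_neg hc]
    rw [h1, h1]

theorem clu_step {T : Set Pt} {h : Hg} {x y : Pt} (hx : x ∈ CluL 0 T h) (hxy : OpL 0 h x y) :
    y ∈ CluL 0 T h := by
  obtain ⟨z, hz, hzx⟩ := hx
  exact ⟨z, hz, hzx.tail hxy⟩

theorem clu_nb {T : Set Pt} {V : Set Pt} (hT : T ⊆ nb V) {h : Hg} (hh : h ∈ Cfg V (frd V 0))
    {x : Pt} (hx : x ∈ CluL 0 T h) : x ∈ nb V := by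
  obtain ⟨z, hz, hzx⟩ := hx
  induction hzx with
  | refl => exact hT hz
  | @tail b c _ h1 ih =>
    by_contra hc
    have hcV : c ∉ V := fun h => hc (Or.inl h)
    have hbV : b ∉ V := fun h => hc (Tr.mem_nb_of_left h h1.1).2
    apply h1.2
    rw [sub_zero, sub_zero]
    exact ⟨frd_abs hbV (hh.2.1 b), frd_abs hcV (hh.2.1 c)⟩

theorem flp_mem {T M V : Set Pt} (hT : T ⊆ nb V) {h : Hg} (hh : h ∈ Cfg V (frd V 0)) :
    flp T M h ∈ Cfg V (frd V 0) := by
  by_cases hc : CluL 0 T h ⊆ M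
  · have h1 : flp T M h = refl 0 (CluL 0 T h) h := by unfold flp; rw [if_pos hc]
    rw [h1]
    refine ⟨fun x => ?_, fun x => ?_, fun x hx y hxy => ?_⟩
    · by_cases hxK : x ∈ CluL 0 T h
      · rw [refl_in hxK]; exact (hh.1 x).neg
      · rw [refl_out hxK]; exact hh.1 x
    · by_cases hxK : x ∈ CluL 0 T h
      · rw [refl_in hxK]
        rcases clu_nb hT hh hxK with h2 | h2
        · rw [frd_in h2]; exact Set.mem_univ _
        · have h3 := hh.2.1 x
          rw [frd_bd h2] at h3 ⊢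
          simp only [Set.mem_insert_iff, Set.mem_singleton_iff] at h3 ⊢
          omega
      · rw [refl_out hxK]; exact hh.2.1 x
    · have hL := hh.2.2 x hx y hxy
      by_cases hxK : x ∈ CluL 0 T h
      · by_cases hyK : y ∈ CluL 0 T h
        · rw [refl_in hxK, refl_in hyK, show - h x - - h y = -(h x - h y) by ring, abs_neg]
          exact hL
        · have h4 : |h x| = 1 ∧ |h y| = 1 := by
            by_contra hcc
            refine hyK (clu_step hxK ⟨hxy, ?_⟩)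
            rwa [sub_zero, sub_zero]
          rw [refl_in hxK, refl_out hyK, abs_le]
          rcases abs_cases (h x) with ⟨h5, _⟩ | ⟨h5, _⟩ <;>
            rcases abs_cases (h y) with ⟨h6, _⟩ | ⟨h6, _⟩ <;> omega
      · by_cases hyK : y ∈ CluL 0 T h
        · have h4 : |h x| = 1 ∧ |h y| = 1 := by
            by_contra hcc
            refine hxK (clu_step hyK ⟨Topo.adj_symm hxy, ?_⟩)
            rw [sub_zero, sub_zero]
            exact fun h => hcc ⟨h.2, h.1⟩
          rw [refl_out hxK, refl_in hyK, abs_le]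
          rcases abs_cases (h x) with ⟨h5, _⟩ | ⟨h5, _⟩ <;>
            rcases abs_cases (h y) with ⟨h6, _⟩ | ⟨h6, _⟩ <;> omega
        · rw [refl_out hxK, refl_out hyK]; exact hL
  · have h1 : flp T M h = h := by unfold flp; rw [if_neg hc]
    rw [h1]; exact hh

/-- The outer cluster does not change if the heights change in `M` only, on `DD`. -/
theorem Oc_sub {M : Set Pt} (hM : nb M ⊆ M4) {g h : Hg} (hgh : ∀ x, x ∉ M → g x = h x)
    (hD : h ∈ DD m B0 M4) : Oc m B0 g ⊆ Oc m B0 h := by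
  rintro x ⟨z, hz, hzx⟩
  induction hzx with
  | refl => exact compl_sub_Oc m B0 h hz
  | @tail b c _ h1 ih =>
    have hb4 : b ∉ M4 := fun h => hD b h ih
    have hbM : b ∉ M := fun h => hb4 (hM (Or.inl h))
    have hcM : c ∉ M := fun h => hb4 (hM (by
      exact Or.inr ⟨hbM, c, h, Topo.adj_symm h1.1⟩))
    refine Oc_step ih ⟨h1.1, ?_⟩
    rw [← hgh b hbM, ← hgh c hcM]
    exact h1.2

theorem flp_DD {T M : Set Pt} (hM : nb M ⊆ M4) (h : Hg) :
    flp T M h ∈ DD m B0 M4 ↔ h ∈ DD m B0 M4 := by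
  have hoff : ∀ (h : Hg) x, x ∉ M → flp T M h x = h x := by
    intro h x hx
    unfold flp
    split_ifs with hc
    · exact refl_out fun h1 => hx (hc h1)
    · rfl
  constructor
  · intro hD x hx hxO
    exact hD x hx (Oc_sub hM (fun y hy => (hoff h y hy).symm) hD hxO)
  · intro hD x hx hxO
    exact hD x hx (Oc_sub hM (hoff h) hD hxO)

/-- The flip gives mean zero. -/
theorem flip_zero (hB0 : B0.Finite) {T M : Set Pt} (hM : nb M ⊆ M4) (hT : T ⊆ nb (B0 \ β))
    {Z : Finset Pt} (hZ : ∀ x ∈ Z, x ∈ T) (a : Pt → ℝ) :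
    Ex (nu B0 β) (fun h => ind (DD m B0 M4) h * (ind (CF0 T M) h * lin Z a h)) = 0 := by
  have hS : (nu B0 β).Finite := Cfg_finite (frd_dat (hB0.subset Set.sdiff_subset))
  have hb : BijOn (flp T M) (nu B0 β) (nu B0 β) := by
    refine ⟨fun h hh => flp_mem hT hh, fun g _ h _ e => ?_, fun h hh => ⟨flp T M h, flp_mem hT hh,
      flp_flp T M h⟩⟩
    rw [← flp_flp T M g, e, flp_flp]
  have h1 := Ex_bij (flp T M) hb (fun h => ind (DD m B0 M4) h * (ind (CF0 T M) h * lin Z a h))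
  have h2 : Ex (nu B0 β) (fun h => ind (DD m B0 M4) (flp T M h) * (ind (CF0 T M) (flp T M h) *
      lin Z a (flp T M h))) =
      - Ex (nu B0 β) (fun h => ind (DD m B0 M4) h * (ind (CF0 T M) h * lin Z a h)) := by
    rw [← Ex_neg]
    refine Ex_congr fun h _ => ?_
    have e1 : ind (DD m B0 M4) (flp T M h) = ind (DD m B0 M4) h := by
      unfold ind
      simp only [flp_DD hM h]
    have e2 : ind (CF0 T M) (flp T M h) = ind (CF0 T M) h := by
      unfold ind CF0
      simp only [Set.mem_ofPred_eq, flp_clu]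
    rw [e1, e2]
    by_cases hc : h ∈ CF0 T M
    · have h3 : lin Z a (flp T M h) = - lin Z a h := by
        unfold lin
        rw [← Finset.sum_neg_distrib]
        refine Finset.sum_congr rfl fun x hx => ?_
        have h4 : flp T M h x = - h x := by
          rw [flp_pos hc]
          exact refl_in ⟨x, hZ x hx, ReflTransGen.refl⟩
        rw [h4]
        push_cast
        ring
      rw [h3]
      ring
    · have h3 : ind (CF0 T M) h = 0 := by simp [ind, hc]
      rw [h3]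
      ring
  rw [h2] at h1
  linarith

/-- The abstract lower bound. -/
theorem abs_bound (hm : Even m) (hB0 : B0.Finite) (hβ : β ⊆ B0) (hM : Deep β M4) {T M : Set Pt}
    (hMM : nb M ⊆ M4) (hT : T ⊆ nb (B0 \ β)) {Z : Finset Pt} (hZ : ∀ x ∈ Z, x ∈ T)
    {a : Pt → ℝ} {c0 : ℝ}
    (hF : ∀ h ∈ nu B0 β, h ∈ DD m B0 M4 → ∀ x ∈ Z, x ∈ nb (WO β (Oc m B0 h)))
    (hc : ∀ h ∈ nu B0 β, h ∈ DD m B0 M4 →
      Ex (Cfg (WO β (Oc m B0 h)) (D4 m (WO β (Oc m B0 h)) β (ebd (Oc m B0 h)))) (lin Z a) ≤ c0) :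
    - √(Ex (nu B0 β) (fun h => lin Z a h ^ 2) * Pr (nu B0 β) (CF0 T M)ᶜ) ≤
      c0 * Pr (nu B0 β) (DD m B0 M4) := by
  have hS : (nu B0 β).Finite := Cfg_finite (frd_dat (hB0.subset Set.sdiff_subset))
  have h1 := avg_le (F := lin Z a) hm hB0 hβ hM (fun h hh hD g g' hgg =>
    lin_congr (hF h hh hD) g g' hgg) hc
  have h2 := flip_zero (m := m) (β := β) hB0 hMM hT hZ a
  have h3 : Ex (nu B0 β) (fun h => ind (DD m B0 M4) h * lin Z a h) =
      Ex (nu B0 β) (fun h => ind (DD m B0 M4) h * (ind (CF0 T M) h * lin Z a h)) +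
      Ex (nu B0 β) (fun h => (ind (CF0 T M)ᶜ h) * (ind (DD m B0 M4) h * lin Z a h)) := by
    rw [← Ex_add]
    refine Ex_congr fun h _ => ?_
    by_cases hcc : h ∈ CF0 T M <;> simp [ind, hcc]
  rw [h2, zero_add] at h3
  have h4 := Ex_mul_sq_le hS (ind (CF0 T M)ᶜ) (fun h => ind (DD m B0 M4) h * lin Z a h)
  have h5 : Ex (nu B0 β) (fun h => ind (CF0 T M)ᶜ h ^ 2) = Pr (nu B0 β) (CF0 T M)ᶜ := by
    rw [Pr_eq_Ex hS]
    refine Ex_congr fun h _ => ?_
    by_cases hcc : h ∈ (CF0 T M)ᶜ <;> simp only [ind, hcc, if_true, if_false] <;> norm_num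
  have h6 : Ex (nu B0 β) (fun h => (ind (DD m B0 M4) h * lin Z a h) ^ 2) ≤
      Ex (nu B0 β) (fun h => lin Z a h ^ 2) := by
    refine Ex_mono fun h _ => ?_
    by_cases hcc : h ∈ DD m B0 M4
    · simp [ind, hcc]
    · simp only [ind, hcc, if_false, zero_mul]
      rw [sq, mul_zero]
      exact sq_nonneg _
  rw [h5] at h4
  rw [h3] at h1
  refine le_trans ?_ h1
  rw [neg_le]
  refine Real.le_sqrt_of_sq_le ?_
  rw [neg_sq]
  refine h4.trans ?_
  rw [mul_comm]
  exact mul_le_mul_of_nonneg_right h6 (Pr_nonneg _ _)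

end Vale.Agent.P153.R2.RD
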