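import Vale.Agent.P153.R2.FKGK.Pos

/-!
# P153-R2, block RDEC: the abstract lower bound of the mean at a free wall

`B0` is a finite region, `β ⊆ B0` (closed piece of the wall), `ν = Cfg (B0 \ β) (frd (B0 \ β) 0)`.
`Oc B0 h` is the open cluster (level `-2`) of the complement of `B0`.
-/

namespace Vale.Agent.P153.R2.RD

open Set Relation
open Vale.Agent.P153 Vale.Agent.P153.R2
open Vale.Agent.P153.Topo (Conn)
open scoped Classical

/-- Linear functional. -/
noncomputable def lin (Z : Finset Pt) (a : Pt → ℝ) (h : Hg) : ℝ := ∑ x ∈ Z, a x * (h x : ℝ)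

/-- Data: everything on `W`, `{-1, 1}` on `A`, `{-m - 1, -m + 1}` on `E`, `-m + 1` elsewhere. -/
noncomputable def D4 (m : ℤ) (W A E : Set Pt) : Pt → Set ℤ := fun x =>
  if x ∈ W then univ else if x ∈ A then {-1, 1} else if x ∈ E then {-m - 1, -m + 1} else {-m + 1}

section D4

variable {m : ℤ} {W A E : Set Pt} {x : Pt}

theorem D4_W (h : x ∈ W) : D4 m W A E x = univ := if_pos h

theorem D4_A (h : x ∉ W) (h2 : x ∈ A) : D4 m W A E x = {-1, 1} := by
  unfold D4; rw [if_neg h, if_pos h2]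

theorem D4_E (h : x ∉ W) (h2 : x ∉ A) (h3 : x ∈ E) : D4 m W A E x = {-m - 1, -m + 1} := by
  unfold D4; rw [if_neg h, if_neg h2, if_pos h3]

theorem D4_N (h : x ∉ W) (h2 : x ∉ A) (h3 : x ∉ E) : D4 m W A E x = {-m + 1} := by
  unfold D4; rw [if_neg h, if_neg h2, if_neg h3]

theorem D4_dat (hW : W.Finite) (hA : A.Finite) (hE : E.Finite) {U : Set Pt} (hU : U.Finite)
    (hWU : W ⊆ U) : Dat U (D4 m W A E) := by
  refine ⟨hU, fun x hx => ?_, ?_⟩
  · unfold D4
    rw [if_neg fun h => hx (hWU h)]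
    split_ifs
    · exact Set.toFinite _
    · exact Set.toFinite _
    · exact Set.finite_singleton _
  · refine ((hW.union hA).union hE).subset fun x hx => ?_
    by_contra hc
    simp only [Set.mem_union, not_or] at hc
    apply hx
    rw [D4_N hc.1.1 hc.1.2 hc.2]
    exact Set.subsingleton_singleton

end D4

theorem pm_lin (m σ : ℤ) (Z : Finset Pt) (a : Pt → ℝ) (h : Hg) :
    pm m σ Z (fun (_ : Fin 1) => a) h = σ * (lin Z a h - (∑ x ∈ Z, a x) * m) := by
  unfold pm lin
  simp only [Finset.univ_unique, Finset.prod_singleton]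
  rw [Finset.sum_mul, ← Finset.sum_sub_distrib, Finset.mul_sum]
  refine Finset.sum_congr rfl fun x _ => ?_
  push_cast
  ring

theorem Ex_pm_lin {S : Set Hg} (hS : S.Finite) (hn : S.Nonempty) (m σ : ℤ) (Z : Finset Pt)
    (a : Pt → ℝ) : Ex S (pm m σ Z (fun (_ : Fin 1) => a)) =
      σ * (Ex S (lin Z a) - (∑ x ∈ Z, a x) * m) := by
  rw [← Ex_const hS hn ((∑ x ∈ Z, a x) * (m : ℝ)), ← Ex_sub, ← Ex_const_mul]
  exact Ex_congr fun h _ => pm_lin m σ Z a h

theorem lin_congr {Z : Finset Pt} {a : Pt → ℝ} {U : Set Pt} (hZ : ∀ x ∈ Z, x ∈ U) (g h : Hg)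
    (hgh : ∀ x ∈ U, g x = h x) : lin Z a g = lin Z a h := by
  unfold lin
  exact Finset.sum_congr rfl fun x hx => by rw [hgh x (hZ x hx)]

theorem lin_mono {Z : Finset Pt} {a : Pt → ℝ} (ha : ∀ x ∈ Z, 0 ≤ a x) : Monotone (lin Z a) := by
  intro g h hgh
  unfold lin
  exact Finset.sum_le_sum fun x hx => mul_le_mul_of_nonneg_left (by exact_mod_cast hgh x) (ha x hx)

/-! ### Comparison of the given law with the inner laws -/

/-- The sites away from `O` and off `β`. -/
def WO (β O : Set Pt) : Set Pt := {x | x ∉ β ∧ x ∉ nb O}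

/-- The hypotheses on the law: on `nb V`: everything at vertices of `V`; `{-1, 1}` at walls; or, off
`nb B0`, values in `[-m + 1, -1]`. -/
def LJ (m : ℤ) (V B0 : Set Pt) (I : Pt → Set ℤ) : Prop :=
  ∀ x ∈ nb V, (x ∈ V ∧ I x = univ) ∨ (x ∉ V ∧ I x = {-1, 1}) ∨
    (x ∉ nb B0 ∧ ∀ n ∈ I x, -m + 1 ≤ n ∧ n ≤ -1)

/-- The mean is larger than the mean of each of the inner laws. -/
theorem inner_le {m : ℤ} (hm : Even m) (hm2 : 2 ≤ m) {V B0 β O : Set Pt} {I : Pt → Set ℤ}
    (dI : Dat V I) (hne : (Cfg V I).Nonempty) (hI : LJ m V B0 I) (hB0 : B0.Finite)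
    (hβ0 : β ⊆ B0) (hβV : Disjoint β V) (hO : B0ᶜ ⊆ O)
    (hOβ : ∀ x ∈ β, ∀ y, Adj x y → y ∉ nb O)
    (hk : (Cfg (WO β O) (D4 m (WO β O) β (ebd O))).Nonempty)
    {Z : Finset Pt} (hZ : ∀ x ∈ Z, x ∈ WO β O)
    (hZV : ∀ x ∈ Z, x ∈ V) {a : Pt → ℝ} (ha : ∀ x ∈ Z, 0 ≤ a x) :
    Ex (Cfg (WO β O) (D4 m (WO β O) β (ebd O))) (lin Z a) ≤ Ex (Cfg V I) (lin Z a) := by
  have hVf : V.Finite := dI.fin
  have hβf : β.Finite := hB0.subset hβ0
  -- the larger domain
  set V' : Set Pt := V ∪ (B0 \ β) with hV'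
  have hV'f : V'.Finite := hVf.union (hB0.subset Set.sdiff_subset)
  have hβVx : ∀ x ∈ β, x ∉ V := fun x hx h => Set.disjoint_left.1 hβV hx h
  have hβV' : ∀ x ∈ β, x ∉ V' := by
    rintro x hx (h1 | h1)
    · exact hβVx x hx h1
    · exact h1.2 hx
  have hBI : ∀ x ∈ nb V, x ∈ nb B0 → (x ∈ V ∧ I x = univ) ∨ (x ∉ V ∧ I x = {-1, 1}) := by
    intro x hx hxB
    rcases hI x hx with h | h | h
    · exact Or.inl h
    · exact Or.inr h
    · exact absurd hxB h.1
  set I' : Pt → Set ℤ := fun x =>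
    if x ∈ B0 \ β then univ else if x ∈ β then {-1, 1} else if x ∈ nb V then I x else {-1} with hI'
  have I'_B : ∀ x, x ∈ B0 \ β → I' x = univ := fun x hx => if_pos hx
  have I'_β : ∀ x, x ∈ β → I' x = {-1, 1} := fun x hx => by
    have h1 : x ∉ B0 \ β := fun h => h.2 hx
    rw [hI']
    simp only
    rw [if_neg h1, if_pos hx]
  have I'_V : ∀ x, x ∉ B0 → x ∈ nb V → I' x = I x := fun x hx hxV => by
    have h1 : x ∉ B0 \ β := fun h => hx h.1
    have h2 : x ∉ β := fun h => hx (hβ0 h)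
    rw [hI']
    simp only
    rw [if_neg h1, if_neg h2, if_pos hxV]
  have I'_N : ∀ x, x ∉ B0 → x ∉ nb V → I' x = {-1} := fun x hx hxV => by
    have h1 : x ∉ B0 \ β := fun h => hx h.1
    have h2 : x ∉ β := fun h => hx (hβ0 h)
    rw [hI']
    simp only
    rw [if_neg h1, if_neg h2, if_neg hxV]
  -- (0) the law of `I` is the law of `rpl I' (V' \ V) {-1, 1}`
  set I0 : Pt → Set ℤ := rpl I' (V' \ V) fun _ => {0 - 1, 0 + 1} with hI0
  have hag : ∀ x ∈ nb V, I x = I0 x := by
    intro x hx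
    by_cases h1 : x ∈ V' \ V
    · rw [hI0, rpl_in h1]
      have h2 : x ∈ B0 := (h1.1.resolve_left h1.2).1
      rcases hBI x hx (Or.inl h2) with h3 | h3
      · exact absurd h3.1 h1.2
      · rw [h3.2]; norm_num
    · rw [hI0, rpl_out h1]
      by_cases h2 : x ∈ B0
      · by_cases h3 : x ∈ β
        · rw [I'_β x h3]
          rcases hBI x hx (Or.inl h2) with h4 | h4
          · exact absurd h4.1 (hβVx x h3)
          · exact h4.2
        · rw [I'_B x ⟨h2, h3⟩]
          rcases hBI x hx (Or.inl h2) with h4 | h4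
          · exact h4.2
          · exact absurd ⟨Or.inr ⟨h2, h3⟩, h4.1⟩ h1
      · rw [I'_V x h2 hx]
  have dI' : Dat V' I' := by
    refine ⟨hV'f, fun x hx => ?_, ?_⟩
    · by_cases h2 : x ∈ B0
      · have h3 : x ∈ β := by
          by_contra h3
          exact hx (Or.inr ⟨h2, h3⟩)
        rw [I'_β x h3]; exact Set.toFinite _
      · by_cases h3 : x ∈ nb V
        · rw [I'_V x h2 h3]; exact dI.bdd x fun h => hx (Or.inl h)
        · rw [I'_N x h2 h3]; exact Set.finite_singleton _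
    · refine (hB0.union (nb_finite hVf)).subset fun x hx => ?_
      by_contra hc
      simp only [Set.mem_union, not_or] at hc
      apply hx
      rw [I'_N x hc.1 hc.2]
      exact Set.subsingleton_singleton
  have hNf : (V' \ V).Finite := hV'f.subset Set.sdiff_subset
  have dI0 : Dat V I0 := by
    refine ⟨hVf, fun x hx => ?_, ?_⟩
    · by_cases h1 : x ∈ V' \ V
      · rw [hI0, rpl_in h1]; exact Set.toFinite _
      · rw [hI0, rpl_out h1]
        exact dI'.bdd x fun h => h1 ⟨h, hx⟩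
    · refine (hNf.union dI'.cof).subset fun x hx => ?_
      by_contra hc
      simp only [Set.mem_union, not_or] at hc
      apply hx
      rw [hI0, rpl_out hc.1]
      have h5 := hc.2
      simp only [Set.mem_ofPred_eq, not_not] at h5
      exact h5
  have hne0 : (Cfg V I0).Nonempty := by
    obtain ⟨h, hh⟩ := hne
    refine ⟨fun x => if x ∈ nb V then h x else -1, fun x => ?_, fun x => ?_, fun x hx y hxy => ?_⟩
    · by_cases h1 : x ∈ nb V
      · simp only [h1, if_true]; exact hh.1 x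
      · simp only [h1, if_false]; exact ⟨-1, by norm_num⟩
    · by_cases h1 : x ∈ nb V
      · simp only [h1, if_true]
        rw [← hag x h1]; exact hh.2.1 x
      · simp only [h1, if_false]
        by_cases h2 : x ∈ V' \ V
        · rw [hI0, rpl_in h2]; norm_num
        · rw [hI0, rpl_out h2]
          by_cases h3 : x ∈ B0
          · by_cases h4 : x ∈ β
            · rw [I'_β x h4]; simp
            · rw [I'_B x ⟨h3, h4⟩]; exact Set.mem_univ _
          · rw [I'_N x h3 h1]; exact Set.mem_singleton _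
    · have h3 := Tr.mem_nb_of_left hx hxy
      simp only [h3.1, h3.2, if_true]
      exact hh.2.2 x hx y hxy
  have s0 : Ex (Cfg V I) (lin Z a) = Ex (Cfg V I0) (lin Z a) :=
    Ex_off dI dI0 hag hne hne0 fun g h hgh =>
      lin_congr (U := nb V) (fun x hx => Or.inl (hZV x hx)) g h hgh
  rw [s0]
  -- (a) level 0, sign -1
  have eV : V' \ (V' \ V) = V := by
    ext x
    constructor
    · rintro ⟨h1, h2⟩
      by_contra h3
      exact h2 ⟨h1, h3⟩
    · intro h1
      exact ⟨Or.inl h1, fun h2 => h2.2 h1⟩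
  have hcutc : ∀ x ∈ V' \ V, ∀ y, y ∉ V' → Adj x y → I' y ⊆ {0 - 1, 0 + 1} := by
    intro x hx y hy hxy
    have hxB : x ∈ B0 := (hx.1.resolve_left hx.2).1
    by_cases h2 : y ∈ B0
    · have h3 : y ∈ β := by
        by_contra h3
        exact hy (Or.inr ⟨h2, h3⟩)
      rw [I'_β y h3]; norm_num
    · have hyB : y ∈ nb B0 := (Tr.mem_nb_of_left hxB hxy).2
      by_cases h3 : y ∈ nb V
      · rw [I'_V y h2 h3]
        rcases hBI y h3 hyB with h4 | h4
        · exact absurd (Or.inl h4.1) hy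
        · rw [h4.2]; norm_num
      · rw [I'_N y h2 h3]
        intro n hn
        rw [Set.mem_singleton_iff] at hn
        rw [hn]; norm_num
  have e0 : Cfg V' I0 = Cfg V I0 := by
    have := Cfg_cut (m := 0) (V := V') (I := I0) (N := V' \ V) (fun x hx => by
      rw [hI0, rpl_in hx]) (fun x hx y hy hyN hxy => by
      rw [hI0, rpl_out hyN]; exact hcutc x hx y hy hxy)
    rw [eV] at this
    exact this
  have hne' : (Cfg V' I').Nonempty := by
    rw [← e0] at hne0
    obtain ⟨h, hh⟩ := hne0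
    refine ⟨h, hh.1, fun x => ?_, hh.2.2⟩
    have h1 := hh.2.1 x
    by_cases h2 : x ∈ V' \ V
    · have h3 : x ∈ B0 \ β := h2.1.resolve_left h2.2
      rw [I'_B x h3]; exact Set.mem_univ _
    · rw [hI0, rpl_out h2] at h1
      exact h1
  have lowS : ∀ (S : Set ℤ), (∀ n ∈ S, -m + 1 ≤ n ∧ n ≤ -1) → Sd 0 (-1) S := by
    intro S hS
    left
    intro n hn _
    have := hS n hn
    omega
  have sdI : ∀ x ∈ nb V, Sd 0 (-1) (I x) := by
    intro x hx
    rcases hI x hx with h | h | h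
    · rw [h.2]; exact Sd_univ _ _
    · rw [h.2]
      have := Sd_free 0 (-1)
      norm_num at this
      exact this
    · exact lowS _ h.2
  have sdI' : ∀ x, Sd 0 (-1) (I' x) := by
    intro x
    by_cases h2 : x ∈ B0
    · by_cases h3 : x ∈ β
      · rw [I'_β x h3]
        have := Sd_free 0 (-1)
        norm_num at this
        exact this
      · rw [I'_B x ⟨h2, h3⟩]; exact Sd_univ _ _
    · by_cases h3 : x ∈ nb V
      · rw [I'_V x h2 h3]; exact sdI x h3
      · rw [I'_N x h2 h3]; exact Sd_single (by norm_num)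
  have lv1 : Lv V' I' 0 (-1) := ⟨Even.zero, Or.inr rfl, dI', hne', fun x => Or.inl (sdI' x)⟩
  have cut1 := Cmp_cut lv1 (N := V' \ V) Set.sdiff_subset hcutc
    (by rw [eV]; exact hne0) (fun x _ => sdI' x)
  rw [eV] at cut1
  have fV := Cfg_finite dI0
  have fV' := Cfg_finite dI'
  have s1 := md_mom0 cut1.2 (Z := Z) (fun x hx => Or.inl (Or.inl (hZV x hx)))
    (φ := fun (_ : Fin 1) => a) (fun _ x hx => ha x hx)
  rw [cut1.1, Ex_pm_lin fV hne0, Ex_pm_lin fV' hne'] at s1
  have s1' : Ex (Cfg V' I') (lin Z a) ≤ Ex (Cfg V I0) (lin Z a) := by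
    push_cast at s1
    linarith
  refine le_trans ?_ s1'
  -- (b) lower the data
  set Fr : Set Pt := {x | x ∈ V ∧ x ∉ B0 ∧ I x ≠ univ} with hFr
  have hFrf : Fr.Finite := hVf.subset fun x hx => hx.1
  set E : Set Pt := Fr ∪ (ebd V' \ β) with hE
  have hEf : E.Finite := hFrf.union ((ebd_finite hV'f).subset Set.sdiff_subset)
  have hW1 : V' \ Fr ⊆ V' := Set.sdiff_subset
  have hW1f : (V' \ Fr).Finite := hV'f.subset hW1
  have dJ : Dat V' (D4 m (V' \ Fr) β E) := by
    refine ⟨hV'f, fun x hx => ?_, (D4_dat hW1f hβf hEf hW1f le_rfl).cof⟩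
    exact (D4_dat hW1f hβf hEf hW1f le_rfl).bdd x fun h => hx h.1
  have hWO : WO β O ⊆ B0 \ β := fun x hx => by
    refine ⟨?_, hx.1⟩
    by_contra h
    exact hx.2 (Or.inl (hO h))
  have hWOV : WO β O ⊆ V' := fun x hx => Or.inr (hWO hx)
  have hWOf : (WO β O).Finite := hV'f.subset hWOV
  have hWOFr : ∀ x ∈ WO β O, x ∉ Fr := fun x hx h => h.2.1 (hWO hx).1
  -- the configuration `k`
  obtain ⟨k, hk⟩ := hk
  have kO : ∀ x ∈ O, k x = -m + 1 := by
    intro x hx
    have h1 := hk.2.1 x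
    have h2 : x ∉ WO β O := fun h => h.2 (Or.inl hx)
    have h3 : x ∉ β := fun h => by
      obtain ⟨y, hy⟩ : ∃ y, Adj x y := ⟨_, adj_right x⟩
      have h4 := hOβ x h y hy
      apply h4
      by_cases hyO : y ∈ O
      · exact Or.inl hyO
      · exact Or.inr ⟨hyO, x, hx, hy⟩
    have h4 : x ∉ ebd O := fun h => h.1 hx
    rw [D4_N h2 h3 h4] at h1
    exact h1
  have kb : ∀ x ∈ nb O, k x = -m - 1 ∨ k x = -m + 1 := by
    rintro x (hx | hx)
    · exact Or.inr (kO x hx)
    · have h1 := hk.2.1 x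
      have h2 : x ∉ WO β O := fun h => h.2 (Or.inr hx)
      have h3 : x ∉ β := fun h => by
        obtain ⟨-, y, hy, hyx⟩ := hx
        exact hOβ x h y (Topo.adj_symm hyx) (Or.inl hy)
      rw [D4_E h2 h3 hx] at h1
      simpa using h1
  have kβ : ∀ x ∈ β, k x = -1 ∨ k x = 1 := by
    intro x hx
    have h1 := hk.2.1 x
    rw [D4_A (fun h => h.1 hx) hx] at h1
    simpa using h1
  have kL : ∀ x ∈ V', ∀ y, Adj x y → |k x - k y| ≤ 2 := by
    intro x hx y hxy
    by_cases h1 : x ∈ WO β O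
    · exact hk.2.2 x h1 y hxy
    · by_cases h2 : y ∈ WO β O
      · rw [abs_sub_comm]; exact hk.2.2 y h2 x (Topo.adj_symm hxy)
      · have h3 : x ∈ nb O := by
          by_contra h
          exact h1 ⟨fun h4 => hβV' x h4 hx, h⟩
        have h4 : y ∈ nb O := by
          by_contra h
          apply h2
          refine ⟨fun h5 => ?_, h⟩
          exact hOβ y h5 x (Topo.adj_symm hxy) h3
        have h5 := kb x h3
        have h6 := kb y h4
        rw [abs_le]
        omega
  have hne2 : (Cfg V' (D4 m (V' \ Fr) β E)).Nonempty := by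
    refine ⟨k, hk.1, fun x => ?_, kL⟩
    by_cases h1 : x ∈ V' \ Fr
    · rw [D4_W h1]; exact Set.mem_univ _
    · by_cases h2 : x ∈ β
      · rw [D4_A h1 h2]
        rcases kβ x h2 with h3 | h3 <;> simp [h3]
      · have h3 : x ∈ O := by
          apply hO
          intro h4
          by_cases h5 : x ∈ Fr
          · exact h5.2.1 h4
          · exact h1 ⟨Or.inr ⟨h4, h2⟩, h5⟩
        by_cases h4 : x ∈ E
        · rw [D4_E h1 h2 h4, kO x h3]; simp
        · rw [D4_N h1 h2 h4, kO x h3]; simp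
  have s2 : Ex (Cfg V' (D4 m (V' \ Fr) β E)) (lin Z a) ≤ Ex (Cfg V' I') (lin Z a) := by
    refine Cfg_le dJ dI' hne2 hne' (fun x => ?_) _ (lin_mono ha)
    by_cases h1 : x ∈ V' \ Fr
    · rw [D4_W h1]
      by_cases h2 : x ∈ B0
      · have h3 : x ∉ β := fun h => hβV' x h h1.1
        rw [I'_B x ⟨h2, h3⟩]; exact SLe.refl _
      · have h3 : x ∈ V := h1.1.resolve_right fun h => h2 h.1
        have h4 : I x = univ := by
          by_contra h4
          exact h1.2 ⟨h3, h2, h4⟩
        rw [I'_V x h2 (Or.inl h3), h4]; exact SLe.refl _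
    · by_cases h2 : x ∈ β
      · rw [D4_A h1 h2, I'_β x h2]; exact SLe.refl _
      · have hxB : x ∉ B0 := fun h4 => by
          by_cases h5 : x ∈ Fr
          · exact h5.2.1 h4
          · exact h1 ⟨Or.inr ⟨h4, h2⟩, h5⟩
        have hlow : ∀ n ∈ D4 m (V' \ Fr) β E x, n ≤ -m + 1 := by
          intro n hn
          by_cases h3 : x ∈ E
          · rw [D4_E h1 h2 h3] at hn
            simp only [Set.mem_insert_iff, Set.mem_singleton_iff] at hn
            omega
          · rw [D4_N h1 h2 h3, Set.mem_singleton_iff] at hn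
            omega
        have hup : ∀ n ∈ I' x, -m + 1 ≤ n := by
          intro n hn
          by_cases h3 : x ∈ nb V
          · rw [I'_V x hxB h3] at hn
            rcases hI x h3 with h | h | h
            · exfalso
              have h6 : x ∈ V' := Or.inl h.1
              have h7 : x ∈ Fr := by
                by_contra h7
                exact h1 ⟨h6, h7⟩
              exact h7.2.2 h.2
            · rw [h.2] at hn
              simp only [Set.mem_insert_iff, Set.mem_singleton_iff] at hn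
              omega
            · exact (h.2 n hn).1
          · rw [I'_N x hxB h3, Set.mem_singleton_iff] at hn
            omega
        intro n hn k hk
        have h4 := hlow n hn
        have h5 := hup k hk
        have h6 : n ≤ k := by omega
        rw [min_eq_left h6, max_eq_right h6]
        exact ⟨hn, hk⟩
  refine le_trans ?_ s2
  -- (c) level -m, sign +1
  have hme : Even (-m) := hm.neg
  have sdJ : ∀ x, Sd (-m) 1 (D4 m (V' \ Fr) β E x) := by
    intro x
    by_cases h1 : x ∈ V' \ Fr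
    · rw [D4_W h1]; exact Sd_univ _ _
    · by_cases h2 : x ∈ β
      · rw [D4_A h1 h2]
        left
        intro n hn _
        simp only [Set.mem_insert_iff, Set.mem_singleton_iff] at hn
        omega
      · by_cases h3 : x ∈ E
        · rw [D4_E h1 h2 h3]; exact Sd_free (-m) 1
        · rw [D4_N h1 h2 h3]; exact Sd_single (by omega)
  have lv2 : Lv V' (D4 m (V' \ Fr) β E) (-m) 1 :=
    ⟨hme, Or.inl rfl, dJ, hne2, fun x => Or.inl (sdJ x)⟩
  have hN2f : (V' \ WO β O).Finite := hV'f.subset Set.sdiff_subset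
  have e2 : (rpl (D4 m (V' \ Fr) β E) (V' \ WO β O) fun _ => {-m - 1, -m + 1}) =
      D4 m (WO β O) β (E ∪ (V' \ WO β O)) := by
    funext x
    by_cases h1 : x ∈ V' \ WO β O
    · rw [rpl_in h1, D4_E h1.2 (fun h => hβV' x h h1.1) (Or.inr h1)]
    · rw [rpl_out h1]
      by_cases h2 : x ∈ WO β O
      · have h3 : x ∈ V' \ Fr := ⟨hWOV h2, hWOFr x h2⟩
        rw [D4_W h2, D4_W h3]
      · have h3 : x ∉ V' := fun h => h1 ⟨h, h2⟩
        have h3' : x ∉ V' \ Fr := fun h => h3 h.1
        by_cases h4 : x ∈ β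
        · rw [D4_A h3' h4, D4_A h2 h4]
        · by_cases h5 : x ∈ E
          · rw [D4_E h3' h4 h5, D4_E h2 h4 (Or.inl h5)]
          · rw [D4_N h3' h4 h5, D4_N h2 h4 (fun h => h.elim h5 h1)]
  have eW2 : V' \ (V' \ WO β O) = WO β O := by
    ext x
    constructor
    · rintro ⟨h1, h2⟩
      by_contra h3
      exact h2 ⟨h1, h3⟩
    · intro h1
      exact ⟨hWOV h1, fun h2 => h2.2 h1⟩
  have hnbO : ∀ x, x ∈ V' \ WO β O → x ∈ nb O := by
    intro x hx
    by_contra h
    exact hx.2 ⟨fun h2 => hβV' x h2 hx.1, h⟩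
  have hne3 : (Cfg (WO β O) (D4 m (WO β O) β (E ∪ (V' \ WO β O)))).Nonempty := by
    refine ⟨k, hk.1, fun x => ?_, hk.2.2⟩
    by_cases h1 : x ∈ WO β O
    · rw [D4_W h1]; exact Set.mem_univ _
    · by_cases h2 : x ∈ β
      · rw [D4_A h1 h2]
        rcases kβ x h2 with h3 | h3 <;> simp [h3]
      · have h3 : x ∈ nb O := by
          by_contra h
          exact h1 ⟨h2, h⟩
        by_cases h4 : x ∈ E ∪ (V' \ WO β O)
        · rw [D4_E h1 h2 h4]
          rcases kb x h3 with h5 | h5 <;> simp [h5]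
        · rw [D4_N h1 h2 h4]
          have h5 : x ∈ O := by
            apply hO
            intro h6
            exact h4 (Or.inr ⟨Or.inr ⟨h6, h2⟩, h1⟩)
          rw [kO x h5]; simp
  have cut2 := Cmp_cut lv2 (N := V' \ WO β O) Set.sdiff_subset (fun x hx y hy hxy => by
      have hyβ : y ∉ β := fun h => hOβ y h x (Topo.adj_symm hxy) (hnbO x hx)
      have hyE : y ∈ E := Or.inr ⟨⟨hy, x, hx.1, hxy⟩, hyβ⟩
      have hy1 : y ∉ V' \ Fr := fun h => hy h.1
      rw [D4_E hy1 hyβ hyE])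
    (by rw [e2, eW2]; exact hne3) (fun x _ => sdJ x)
  rw [e2, eW2] at cut2
  have fO := Cfg_finite (D4_dat (m := m) hWOf hβf (hEf.union hN2f) hWOf le_rfl)
  have fL := Cfg_finite dJ
  have s3 := md_mom0 cut2.2 (Z := Z) (fun x hx => Or.inl (Or.inl (hZV x hx)))
    (φ := fun (_ : Fin 1) => a) (fun _ x hx => ha x hx)
  rw [cut2.1, Ex_pm_lin fO hne3, Ex_pm_lin fL hne2] at s3
  have s3' : Ex (Cfg (WO β O) (D4 m (WO β O) β (E ∪ (V' \ WO β O)))) (lin Z a) ≤
      Ex (Cfg V' (D4 m (V' \ Fr) β E)) (lin Z a) := by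
    push_cast at s3
    linarith
  refine le_trans (le_of_eq ?_) s3'
  -- the data off the neighbourhood are irrelevant
  have heO : (ebd O).Finite := by
    refine hB0.subset fun x hx => ?_
    by_contra h
    exact hx.1 (hO h)
  refine Ex_off (D4_dat hWOf hβf heO hWOf le_rfl) (D4_dat hWOf hβf (hEf.union hN2f) hWOf le_rfl)
    (fun x hx => ?_) ⟨k, hk⟩ hne3
    (fun g h hgh => lin_congr (U := nb (WO β O)) (fun x hx => Or.inl (hZ x hx)) g h hgh)
  by_cases h1 : x ∈ WO β O
  · rw [D4_W h1, D4_W h1]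
  · by_cases h2 : x ∈ β
    · rw [D4_A h1 h2, D4_A h1 h2]
    · have h3 : x ∈ ebd (WO β O) := hx.resolve_left h1
      obtain ⟨-, y, hy, hyx⟩ := h3
      have h4 : x ∈ nb O := by
        by_contra h
        exact h1 ⟨h2, h⟩
      have h5 : x ∉ O := fun h => hy.2 (by
        by_cases hyO : y ∈ O
        · exact Or.inl hyO
        · exact Or.inr ⟨hyO, x, h, Topo.adj_symm hyx⟩)
      have h6 : x ∈ ebd O := h4.resolve_left h5
      rw [D4_E h1 h2 h6]
      by_cases h7 : x ∈ V'
      · rw [D4_E h1 h2 (Or.inr ⟨h7, h1⟩)]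
      · rw [D4_E h1 h2 (Or.inl (Or.inr ⟨⟨h7, y, hWOV hy, hyx⟩, h2⟩))]

end Vale.Agent.P153.R2.RD
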