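import Vale.Agent.P153.R2.RDEC.Avg

/-!
# P153-R2, block RDEC: the combined lower bound
-/

namespace Vale.Agent.P153.R2.RD

open Set Relation
open Vale.Agent.P153 Vale.Agent.P153.R2
open Vale.Agent.P153.Topo (Conn)
open scoped Classical

variable {m : ℤ} {V B0 β M M4 : Set Pt} {I : Pt → Set ℤ}

theorem CluL_mono {m : ℤ} {T T' : Set Pt} (h : T ⊆ T') (g : Hg) : CluL m T g ⊆ CluL m T' g :=
  fun _ ⟨x, hx, hxy⟩ => ⟨x, h hx, hxy⟩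

/-- The combined bound. -/
theorem comb_bound (hm : Even m) (hm2 : 2 ≤ m) (dI : Dat V I) (hne : (Cfg V I).Nonempty)
    (hI : LJ m V B0 I) (hB0 : B0.Finite) (hβ0 : β ⊆ B0) (hβV : Disjoint β V) (hM : Deep β M4)
    (hMM : nb M ⊆ M4) (hMB : M ⊆ B0) {Z : Finset Pt} (hZM : ∀ x ∈ Z, x ∈ M)
    (hZV : ∀ x ∈ Z, x ∈ V) {a : Pt → ℝ} (ha : ∀ x ∈ Z, 0 ≤ a x) :
    - √(Ex (nu B0 β) (fun h => lin Z a h ^ 2) * Pr (nu B0 β) (CF0 (Z : Set Pt) M)ᶜ) ≤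
      Ex (Cfg V I) (lin Z a) * Pr (nu B0 β) (DD m B0 M4) := by
  have hZW : ∀ h ∈ nu B0 β, h ∈ DD m B0 M4 → ∀ x ∈ Z, x ∈ WO β (Oc m B0 h) := by
    intro h _ hD x hx
    refine ⟨fun h1 => Set.disjoint_left.1 hβV h1 (hZV x hx), ?_⟩
    rintro (h1 | ⟨-, y, hy, hyx⟩)
    · exact hD x (hMM (Or.inl (hZM x hx))) h1
    · exact hD y (hMM (Tr.mem_nb_of_left (hZM x hx) (Topo.adj_symm hyx)).2) hy
  refine abs_bound hm hB0 hβ0 hM (T := (Z : Set Pt)) hMM (fun x hx => ?_) (fun x hx => hx)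
    (fun h hh hD x hx => Or.inl (hZW h hh hD x hx)) (fun h hh hD => ?_)
  · have hx' : x ∈ Z := by simpa using hx
    exact Or.inl ⟨hMB (hZM x hx'), fun h1 => Set.disjoint_left.1 hβV h1 (hZV x hx')⟩
  · exact inner_le hm hm2 dI hne hI hB0 hβ0 hβV (compl_sub_Oc m B0 h) (hM.far hD).2.2
      (inner_ne hm hM hh hD) (hZW h hh hD) hZV ha

/-- The same with numbers. -/
theorem comb_num (hm : Even m) (hm2 : 2 ≤ m) (dI : Dat V I) (hne : (Cfg V I).Nonempty)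
    (hI : LJ m V B0 I) (hB0 : B0.Finite) (hβ0 : β ⊆ B0) (hβV : Disjoint β V) (hM : Deep β M4)
    (hMM : nb M ⊆ M4) (hMB : M ⊆ B0) {Z : Finset Pt} (hZM : ∀ x ∈ Z, x ∈ M)
    (hZV : ∀ x ∈ Z, x ∈ V) {a : Pt → ℝ} (ha : ∀ x ∈ Z, 0 ≤ a x) {c C q η : ℝ} (hc : 0 < c)
    (hη : 0 ≤ η)
    (h1 : c ≤ Pr (nu B0 β) (DD m B0 M4)) (h2 : Ex (nu B0 β) (fun h => lin Z a h ^ 2) ≤ C)
    (h3 : Pr (nu B0 β) (CF0 (Z : Set Pt) M)ᶜ ≤ q) (h4 : C * q ≤ (η * c) ^ 2) :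
    - η ≤ Ex (Cfg V I) (lin Z a) := by
  have key := comb_bound hm hm2 dI hne hI hB0 hβ0 hβV hM hMM hMB hZM hZV ha
  have hE : 0 ≤ Ex (nu B0 β) (fun h => lin Z a h ^ 2) := Ex_nonneg fun h _ => sq_nonneg _
  have hP := Pr_nonneg (nu B0 β) (CF0 (Z : Set Pt) M)ᶜ
  have h5 : √(Ex (nu B0 β) (fun h => lin Z a h ^ 2) * Pr (nu B0 β) (CF0 (Z : Set Pt) M)ᶜ) ≤ η * c := by
    rw [show η * c = √((η * c) ^ 2) from (Real.sqrt_sq (by positivity)).symm]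
    refine Real.sqrt_le_sqrt (le_trans ?_ h4)
    exact mul_le_mul h2 h3 hP (hE.trans h2)
  by_contra hcon
  push Not at hcon
  have hp : 0 < Pr (nu B0 β) (DD m B0 M4) := lt_of_lt_of_le hc h1
  have h6 : Ex (Cfg V I) (lin Z a) * Pr (nu B0 β) (DD m B0 M4) < - η * Pr (nu B0 β) (DD m B0 M4) :=
    mul_lt_mul_of_pos_right hcon hp
  have h7 : - η * Pr (nu B0 β) (DD m B0 M4) ≤ - η * c := by nlinarith
  linarith

end Vale.Agent.P153.R2.RD
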