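import Vale.Agent.P153.R2.RDEC.Dom

/-!
# P153-R2, block RDEC: connected sets which cross an annulus
-/

namespace Vale.Agent.P153.R2.RD

open Set Relation
open Vale.Agent.P153 Vale.Agent.P153.R2
open Vale.Agent.P153.Topo (Conn)

/-- A path off `V` from `bx p (a + 1)` to the outside of `bx p b` contains a connected set which
crosses the annulus `bx p b \ bx p a`. -/
theorem cross {V : Set Pt} {p x y : Pt} {a b : ℤ} (hab : a < b) (hxy : Conn Vᶜ x y)
    (hx : x ∈ bx p (a + 1)) (hy : y ∉ bx p b) :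
    ∃ β : Set Pt, β ⊆ Vᶜ ∩ (bx p b \ bx p a) ∧ (∀ u ∈ β, ∀ v ∈ β, Conn β u v) ∧
      (∃ u ∈ β, u ∈ bx p (a + 1)) ∧ ∃ v ∈ β, v ∉ bx p (b - 1) := by
  set T : Set Pt := Vᶜ ∩ (bx p b \ bx p a) with hT
  have mT : ∀ z, z ∉ V → sd p z ≤ b → ¬ sd p z ≤ a → z ∈ T := fun z h1 h2 h3 =>
    ⟨h1, mem_bx_iff.2 h2, fun h => h3 (mem_bx_iff.1 h)⟩
  by_contra hcon
  have hno : ∀ u z, u ∈ bx p (a + 1) → Conn T u z → z ∈ bx p (b - 1) := by
    intro u z hu huz
    by_contra hz
    refine hcon ⟨{v | Conn T u v}, fun v hv => hv.right_mem, fun v hv v' hv' => ?_,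
      ⟨u, Conn.refl huz.left_mem, hu⟩, ⟨z, huz, hz⟩⟩
    have key : ∀ v', Conn T u v' → Conn {v | Conn T u v} u v' := fun v' h =>
      Conn.ind (S := T) (fun y => Conn {v | Conn T u v} u y)
        (Conn.refl (show Conn T u u from Conn.refl h.left_mem))
        (fun u' v hu huv hv ih => ih.tail huv (show Conn T u v from hu.tail huv hv)) h
    exact (key v hv).symm.trans (key v' hv')
  have hQ := Conn.ind (S := Vᶜ) (x := x)
    (fun z => sd p z ≤ a ∨ ∃ u ∈ bx p (a + 1), Conn T u z) ?_ ?_ hxy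
  · rcases hQ with hQ | ⟨u, hu, huy⟩
    · exact hy (mem_bx_iff.2 (by omega))
    · exact hy (bx_mono (by omega) (hno u y hu huy))
  · by_cases h : sd p x ≤ a
    · exact Or.inl h
    · have h2 := mem_bx_iff.1 hx
      exact Or.inr ⟨x, hx, Conn.refl (mT x hxy.left_mem (by omega) h)⟩
  · intro z z' hz hzz' hz' ih
    have h1 := sd_adj' (p := p) hzz'
    rw [abs_le] at h1
    by_cases h : sd p z' ≤ a
    · exact Or.inl h
    · rcases ih with ih | ⟨u, hu, huz⟩
      · exact Or.inr ⟨z', mem_bx_iff.2 (by omega), Conn.refl (mT z' hz' (by omega) h)⟩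
      · have h3 := mem_bx_iff.1 (hno u z hu huz)
        exact Or.inr ⟨u, hu, huz.tail hzz' (mT z' hz' (by omega) h)⟩

end Vale.Agent.P153.R2.RD
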