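import Vale.Agent.P153.R2.RDEC.SM
import Vale.Agent.P153.R2.RDEC.CrossA
import Vale.Agent.P153.R2.RDEC.Comb
import Vale.Agent.P153.R2.LAND.Stmt

/-!
# P153-R2, block RDEC: assembly
-/

namespace Vale.Agent.P153.R2.RD

open Set Relation
open Vale.Agent.P153 Vale.Agent.P153.R2
open Vale.Agent.P153.Topo (Conn)
open scoped Classical

/-- Localisation of the law near `B0`. -/
def S_alpha (j : ℕ) : Prop := ∀ (V A : Set Pt) (I : Pt → Set ℤ), LAND.LJ V A I j →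
  ∀ B0 : Set Pt, B0.Finite → F2.thk B0 (2 * j + 10) ⊆ A →
    ∃ (V' : Set Pt) (I' : Pt → Set ℤ), V' ⊆ V ∧ V ∩ B0 ⊆ V' ∧ Dat V' I' ∧
      (Cfg V' I').Nonempty ∧ LJ (2 * j + 4) V' B0 I' ∧
      ∀ (Z : Finset Pt) (a : Pt → ℝ), (∀ x ∈ Z, x ∈ V ∩ B0) → (∀ x ∈ Z, 0 ≤ a x) →
        Ex (Cfg V' I') (lin Z a) ≤ Ex (Cfg V I) (lin Z a)

/-- The common last step. -/
theorem fin_step {j : ℕ} (hα : S_alpha j) {V A : Set Pt} {I : Pt → Set ℤ}
    (hJ : LAND.LJ V A I j) {B0 β M M4 : Set Pt} (hB0 : B0.Finite)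
    (hA : F2.thk B0 (2 * j + 10) ⊆ A) (hβ0 : β ⊆ B0) (hβV : ∀ x ∈ β, x ∉ V) (hM : Deep β M4)
    (hMM : nb M ⊆ M4) (hMB : M ⊆ B0) {Z : Finset Pt} (hZM : ∀ x ∈ Z, x ∈ M)
    (hZV : ∀ x ∈ Z, x ∈ V) {a : Pt → ℝ} (ha : ∀ x ∈ Z, 0 ≤ a x) {c D q η : ℝ} (hc : 0 < c)
    (hη : 0 ≤ η) (h1 : c ≤ Pr (nu B0 β) (DD (2 * ((j + 2 : ℕ) : ℤ)) B0 M4))
    (h2 : Ex (nu B0 β) (fun h => lin Z a h ^ 2) ≤ D)
    (h3 : Pr (nu B0 β) (CF0 (Z : Set Pt) M)ᶜ ≤ q) (h4 : D * q ≤ (η * c) ^ 2) :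
    - η ≤ Ex (Cfg V I) (lin Z a) := by
  obtain ⟨V', I', hV', hVB, dI', hne', hL', hle⟩ := hα V A I hJ B0 hB0 hA
  have e : (2 * ((j + 2 : ℕ) : ℤ)) = 2 * (j : ℤ) + 4 := by push_cast; ring
  rw [e] at h1
  refine le_trans ?_ (hle Z a (fun x hx => ⟨hZV x hx, hMB (hZM x hx)⟩) ha)
  have hj : (0 : ℤ) ≤ j := Int.natCast_nonneg j
  refine comb_num (m := 2 * (j : ℤ) + 4) ⟨(j : ℤ) + 2, by ring⟩ (by linarith)
    dI' hne' hL' hB0 hβ0 ?_ hM hMM hMB hZM (fun x hx => hVB ⟨hZV x hx, hMB (hZM x hx)⟩) ha hc hη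
    h1 h2 h3 h4
  rw [Set.disjoint_left]
  exact fun x hx h => hβV x hx (hV' h)

/-- The uniform law on the box of radius `s / 4`. -/
theorem unif (w : Pt) {s : ℤ} (hs : 1 ≤ s) : ∃ (Z : Finset Pt) (a : Pt → ℝ),
    (∀ x, x ∈ Z ↔ x ∈ bx w (s / 4)) ∧ (∀ x ∈ Z, 0 ≤ a x ∧ a x ≤ 16 / (s : ℝ) ^ 2) ∧
      ∑ x ∈ Z, a x = 1 := by
  set k := s / 4 with hk
  have hk0 : 0 ≤ k := by omega
  set Z : Finset Pt := Finset.Icc (w.1 - k) (w.1 + k) ×ˢ Finset.Icc (w.2 - k) (w.2 + k) with hZ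
  have hcard : (Z.card : ℝ) = (2 * k + 1) ^ 2 := by
    have h1 : (Z.card : ℤ) = (2 * k + 1) ^ 2 := by
      rw [hZ, Finset.card_product, Int.card_Icc, Int.card_Icc]
      push_cast
      rw [Int.toNat_of_nonneg (by omega), Int.toNat_of_nonneg (by omega)]
      ring
    exact_mod_cast h1
  have hk0' : (0 : ℝ) ≤ k := by exact_mod_cast hk0
  have hs0 : (1 : ℝ) ≤ s := by exact_mod_cast hs
  have hsk : (s : ℝ) ≤ 4 * (2 * k + 1) := by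
    have : s ≤ 4 * (2 * k + 1) := by omega
    exact_mod_cast this
  refine ⟨Z, fun _ => 1 / (Z.card : ℝ), fun x => ?_, fun x _ => ⟨by positivity, ?_⟩, ?_⟩
  · rw [hZ, Finset.mem_product, Finset.mem_Icc, Finset.mem_Icc]
    unfold bx
    rw [Set.mem_ofPred_eq, abs_le, abs_le]
    constructor
    · rintro ⟨⟨h1, h2⟩, h3, h4⟩
      exact ⟨⟨by linarith, by linarith⟩, by linarith, by linarith⟩
    · rintro ⟨⟨h1, h2⟩, h3, h4⟩
      exact ⟨⟨by linarith, by linarith⟩, by linarith, by linarith⟩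
  · simp only
    rw [hcard, div_le_div_iff₀ (by positivity) (by positivity)]
    nlinarith
  · rw [Finset.sum_const, nsmul_eq_mul, mul_one_div, div_self]
    rw [hcard]
    positivity

/-- `Deep` for boxes. -/
theorem deep_box {β : Set Pt} {p : Pt} {l L : ℤ} (hβ : β ⊆ bx p l) (hL : l + 2 ≤ L) :
    Deep β (bx p L) := by
  intro x hx
  have h1 := mem_bx_iff.1 (hβ hx)
  refine ⟨mem_bx_iff.2 (by omega), fun y hxy => ?_⟩
  have h2 := sd_adj (p := p) hxy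
  refine ⟨mem_bx_iff.2 (by omega), fun z hyz => ?_⟩
  have h3 := sd_adj (p := p) hyz
  exact mem_bx_iff.2 (by omega)

/-- `Deep` for annuli. -/
theorem deep_ann {β : Set Pt} {p : Pt} {l l' L L' : ℤ} (hβ : β ⊆ bx p l \ bx p l')
    (hL : l + 2 ≤ L) (hL' : L' + 2 ≤ l') : Deep β (bx p L \ bx p L') := by
  intro x hx
  have h1 := mem_bx_iff.1 (hβ hx).1
  have h1' : ¬ sd p x ≤ l' := fun h => (hβ hx).2 (mem_bx_iff.2 h)
  refine ⟨⟨mem_bx_iff.2 (by omega), fun h => ?_⟩, fun y hxy => ?_⟩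
  · have := mem_bx_iff.1 h; omega
  have h2 := sd_adj' (p := p) hxy
  rw [abs_le] at h2
  refine ⟨⟨mem_bx_iff.2 (by omega), fun h => ?_⟩, fun z hyz => ?_⟩
  · have := mem_bx_iff.1 h; omega
  have h3 := sd_adj' (p := p) hyz
  rw [abs_le] at h3
  refine ⟨mem_bx_iff.2 (by omega), fun h => ?_⟩
  have := mem_bx_iff.1 h; omega

theorem nb_ann {p : Pt} {l l' L L' : ℤ} (hL : l + 1 ≤ L) (hL' : L' + 1 ≤ l') :
    nb (bx p l \ bx p l') ⊆ bx p L \ bx p L' := by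
  rintro x (hx | ⟨-, y, hy, hyx⟩)
  · have h1 := mem_bx_iff.1 hx.1
    have h1' : ¬ sd p x ≤ l' := fun h => hx.2 (mem_bx_iff.2 h)
    exact ⟨mem_bx_iff.2 (by omega), fun h => by have := mem_bx_iff.1 h; omega⟩
  · have h1 := mem_bx_iff.1 hy.1
    have h1' : ¬ sd p y ≤ l' := fun h => hy.2 (mem_bx_iff.2 h)
    have h2 := sd_adj' (p := p) hyx
    rw [abs_le] at h2
    exact ⟨mem_bx_iff.2 (by omega), fun h => by have := mem_bx_iff.1 h; omega⟩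

theorem CF0_anti {T T' M : Set Pt} (h : T ⊆ T') : CF0 T' M ⊆ CF0 T M := fun g hg x hx =>
  hg (CluL_mono h g hx)

theorem sd_self (p : Pt) : sd p p = 0 := by simp [sd]

theorem sd_comm (p q : Pt) : sd p q = sd q p := by
  unfold sd
  rw [abs_sub_comm p.1, abs_sub_comm p.2]

theorem sd_tri (p q x : Pt) : sd p x ≤ sd p q + sd q x := by
  unfold sd
  have h1 : |x.1 - p.1| ≤ |q.1 - p.1| + |x.1 - q.1| := by
    have := abs_add_le (q.1 - p.1) (x.1 - q.1)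
    rwa [show q.1 - p.1 + (x.1 - q.1) = x.1 - p.1 by ring] at this
  have h2 : |x.2 - p.2| ≤ |q.2 - p.2| + |x.2 - q.2| := by
    have := abs_add_le (q.2 - p.2) (x.2 - q.2)
    rwa [show q.2 - p.2 + (x.2 - q.2) = x.2 - p.2 by ring] at this
  have a1 := le_max_left |q.1 - p.1| |q.2 - p.2|
  have a2 := le_max_right |q.1 - p.1| |q.2 - p.2|
  have b1 := le_max_left |x.1 - q.1| |x.2 - q.2|
  have b2 := le_max_right |x.1 - q.1| |x.2 - q.2|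
  exact max_le (by linarith) (by linarith)

theorem sd_ring {p w : Pt} {r : ℤ} (hw : w ∈ PLAN.Ring p r) : sd p w = r := by
  obtain ⟨h1, h2, h3⟩ := hw
  unfold sd
  rcases h3 with h3 | h3
  · rw [h3]; exact max_eq_left h2
  · rw [h3]; exact max_eq_right h1

theorem mem_thk_sd {B0 : Set Pt} {k : ℤ} {x : Pt} (hx : x ∈ F2.thk B0 k) :
    ∃ y ∈ B0, sd y x ≤ k := by
  obtain ⟨y, hy, h1, h2⟩ := hx
  exact ⟨y, hy, max_le h1 h2⟩

end Vale.Agent.P153.R2.RD
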