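import Vale.Agent.P153.R2.RDEC.Asm

/-!
# P153-R2, block RDEC: the case of a small distance to the walls
-/

namespace Vale.Agent.P153.R2.RD

open Set Relation
open Vale.Agent.P153 Vale.Agent.P153.R2
open Vale.Agent.P153.Topo (Conn)
open scoped Classical

/-- Connected, joins `bx p t` to the outside of `bx p L`. -/
def Crs (β : Set Pt) (p : Pt) (t L : ℤ) : Prop :=
  (∀ x ∈ β, ∀ y ∈ β, Conn β x y) ∧ (∃ x ∈ β, x ∈ bx p t) ∧ ∃ y ∈ β, y ∉ bx p L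

/-- The slit estimate with the constants `M`, `s₁`, `q`. -/
def Slit (M : ℕ) (s₁ : ℤ) (q : ℝ) : Prop := ∀ t : ℤ, s₁ ≤ t → ∀ (p : Pt) (β B0 : Set Pt),
  B0.Finite → β ⊆ B0 → bx p (4 * M * t + 1) ⊆ B0 → Crs β p t (4 * M * t) →
  Pr (nu B0 β) (CF0 (bx p t) (bx p (4 * M * t)))ᶜ ≤ q

/-- The second moment estimate with the constants `M`, `N`, `s₁`, `D`. -/
def SMom (M : ℕ) (N s₁ : ℤ) (D : ℝ) : Prop := ∀ s : ℤ, s₁ ≤ s → ∀ t : ℤ, s ≤ t → t ≤ N * s →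
  ∀ (p w : Pt), w ∈ bx p t → ∀ (B1 β : Set Pt), B1.Finite → β ⊆ B1 → bx p (4 * M * t + 1) ⊆ B1 →
  Crs β p t (4 * M * t) → ∀ (Z : Finset Pt) (a : Pt → ℝ), (∀ x ∈ Z, x ∈ bx p t ∧ x ∉ β) →
  (∀ x ∈ Z, 0 ≤ a x ∧ a x ≤ 16 / (s : ℝ) ^ 2) → ∑ x ∈ Z, a x = 1 →
  Ex (nu B1 β) (fun h => lin Z a h ^ 2) ≤ D

/-- **Case (A)**: the distance `s + 1` of `w` to the walls is small with respect to `ρ`. -/
theorem case_A {j : ℕ} (hα : S_alpha j) {M Ma : ℕ} (hMa : 1 ≤ Ma) (hMM : Ma ≤ M) {c D q η : ℝ}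
    (hc : 0 < c) (hη : 0 < η) (hDq : D * q ≤ (η * c) ^ 2) {L s₁ s₂ : ℤ}
    (hDD : ∀ l, L ≤ l → ∀ (p : Pt) (β : Set Pt), β ⊆ bx p l →
      c ≤ Pr (nu (bx p ((4 * ((j + 2 : ℕ) : ℤ) + 10) * l)) β)
        (DD (2 * ((j + 2 : ℕ) : ℤ)) (bx p ((4 * ((j + 2 : ℕ) : ℤ) + 10) * l))
          (bx p ((2 * ((j + 2 : ℕ) : ℤ) + 5) * l))))
    (hslit : Slit M s₁ q) (hsm : SMom Ma 2 s₂ D)
    {V A : Set Pt} {I : Pt → Set ℤ} (hJ : LAND.LJ V A I j) {x₀ w : Pt} {r ρ R s : ℤ}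
    (hx₀ : x₀ ∉ V) (hA : bx x₀ R \ bx x₀ r ⊆ A) (hw : w ∈ PLAN.Ring x₀ ρ) (hs : bx w s ⊆ V)
    (hs' : ¬ bx w (s + 1) ⊆ V) (hs1 : 1 ≤ s) (hss₁ : s₁ ≤ s) (hss₂ : s₂ ≤ s) (hLs : L ≤ s)
    (hnear : (4 * (j + 2) + 10) * (4 * M * (s + 1) + 1) + 2 * j + 10 + r < ρ) (hr : 0 ≤ r)
    (hfar : 2 * ρ ≤ R) {Z : Finset Pt} {a : Pt → ℝ} (hZ : ∀ x, x ∈ Z ↔ x ∈ bx w (s / 4))
    (ha : ∀ x ∈ Z, 0 ≤ a x ∧ a x ≤ 16 / (s : ℝ) ^ 2) (ha1 : ∑ x ∈ Z, a x = 1) :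
    -η ≤ Ex (Cfg V I) (lin Z a) := by
  have hM1 : (1 : ℤ) ≤ M := by exact_mod_cast hMa.trans hMM
  have hMa1 : (1 : ℤ) ≤ Ma := by exact_mod_cast hMa
  have hMM' : (Ma : ℤ) ≤ M := by exact_mod_cast hMM
  have hj : (0 : ℤ) ≤ j := Int.natCast_nonneg j
  have hn : ((j + 2 : ℕ) : ℤ) = j + 2 := by push_cast; ring
  set t : ℤ := s + 1 with ht
  set l : ℤ := 4 * M * t + 1 with hl
  have ht1 : 2 ≤ t := by omega
  have hMt : 4 * t ≤ 4 * M * t := by nlinarith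
  have hMt' : 4 * Ma * t ≤ 4 * M * t := by nlinarith
  have hl1 : 9 ≤ l := by omega
  set N : ℤ := 4 * ((j + 2 : ℕ) : ℤ) + 10 with hN
  have hN1 : N = 4 * (j + 2) + 10 := by rw [hN, hn]
  have hN18 : 18 ≤ N := by omega
  have hNl : l ≤ N * l := by nlinarith
  have hρ : l < ρ := by nlinarith
  have hwρ := sd_ring hw
  -- the connected set
  obtain ⟨y, hy, hyV⟩ := Set.not_subset.1 hs'
  have hx₀l : x₀ ∉ bx w l := fun h => by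
    have := mem_bx_iff.1 h
    rw [sd_comm, hwρ] at this
    omega
  obtain ⟨β, hβ, hβc, hβ1, hβ2⟩ := cross (V := V) (p := w) (x := y) (y := x₀) (a := s) (b := l)
    (by omega) (hJ.cc y x₀ hyV hx₀) hy hx₀l
  have hβl : β ⊆ bx w l := fun x hx => (hβ hx).2.1
  have hβs : ∀ x ∈ β, x ∉ bx w s := fun x hx => (hβ hx).2.2
  have hβV : ∀ x ∈ β, x ∉ V := fun x hx => (hβ hx).1
  have hcrs : ∀ M' : ℤ, 1 ≤ M' → 4 * M' * t ≤ 4 * M * t → Crs β w t (4 * M' * t) := by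
    intro M' _ h
    obtain ⟨v, hv, hv'⟩ := hβ2
    exact ⟨hβc, hβ1, v, hv, fun h' => hv' (bx_mono (by omega) h')⟩
  -- the large box
  set B0 : Set Pt := bx w (N * l) with hB0
  have hβB : β ⊆ B0 := fun x hx => bx_mono hNl (hβl hx)
  have hlB : bx w l ⊆ B0 := bx_mono hNl
  have hZs : ∀ x ∈ Z, x ∈ bx w s := fun x hx => bx_mono (by omega) ((hZ x).1 hx)
  have hZt : ∀ x ∈ Z, x ∈ bx w t := fun x hx => bx_mono (by omega) (hZs x hx)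
  refine fin_step hα hJ (B0 := B0) (β := β) (M := bx w (4 * M * t))
    (M4 := bx w ((2 * ((j + 2 : ℕ) : ℤ) + 5) * l)) (bx_finite _ _) ?_ hβB hβV
    (deep_box hβl (by rw [hn]; nlinarith)) (fun x hx => bx_mono (by rw [hn]; nlinarith) (nb_bx hx))
    (bx_mono (by omega)) (fun x hx => bx_mono (by omega) (hZt x hx)) (fun x hx => hs (hZs x hx))
    (fun x hx => (ha x hx).1) (c := c) (D := D) (q := q) hc hη.le ?_ ?_ ?_ hDq
  · -- the box is in the free region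
    intro x hx
    obtain ⟨z, hz, hzx⟩ := mem_thk_sd hx
    have h1 := mem_bx_iff.1 hz
    have h2 := sd_tri w z x
    have h3 := sd_tri x₀ w x
    have h4 := sd_tri x₀ x w
    rw [sd_comm x w] at h4
    rw [hN1] at h1
    refine hA ⟨mem_bx_iff.2 (by linarith), fun h => ?_⟩
    have h5 := mem_bx_iff.1 h
    linarith
  · exact hDD l (by omega) w β hβl
  · exact hsm s hss₂ t (by omega) (by omega) w w (mem_bx_iff.2 (by rw [sd_self]; omega)) B0 β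
      (bx_finite _ _) hβB (fun x hx => hlB (bx_mono (by omega) hx)) (hcrs Ma hMa1 hMt') Z a
      (fun x hx => ⟨hZt x hx, fun h => hβs x h (hZs x hx)⟩) ha ha1
  · refine le_trans (Pr_mono ?_) (hslit t (by omega) w β B0 (bx_finite _ _) hβB hlB
      (hcrs M hM1 le_rfl))
    intro h _ hh hc
    exact hh (CF0_anti (fun x hx => hZt x (by simpa using hx)) hc)

end Vale.Agent.P153.R2.RD
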