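import Vale.Agent.P153.R2.RDEC.CaseA

/-!
# P153-R2, block RDEC: the general case (annulus around the frozen data)
-/

namespace Vale.Agent.P153.R2.RD

open Set Relation
open Vale.Agent.P153 Vale.Agent.P153.R2
open Vale.Agent.P153.Topo (Conn)
open scoped Classical

/-- Escape of the cluster: monotone in the domain. -/
theorem esc_mono' {V1 V2 : Set Pt} (hV2 : V2.Finite) (h12 : V1 ⊆ V2) (T M : Set Pt) :
    Pr (Cfg V1 (frd V1 0)) {h | ∃ y ∈ CluL 0 T h, y ∈ M} ≤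
      Pr (Cfg V2 (frd V2 0)) {h | ∃ y ∈ CluL 0 T h, y ∈ M} := by
  have hA : IsUpperSet {a : Hg | ∃ y ∈ CluM T a, y ∈ M} := fun a b hab ⟨y, hy, hyM⟩ =>
    ⟨y, CluM_mono T hab hy, hyM⟩
  have key := mono_dom hV2 h12 hA
  have e1 : ∀ V : Set Pt, Pr (Cfg V (frd V 0)) {g | md 0 g ∈ {a : Hg | ∃ y ∈ CluM T a, y ∈ M}} =
      Pr (Cfg V (frd V 0)) {h | ∃ y ∈ CluL 0 T h, y ∈ M} := fun V => by
    refine Pr_congr fun g hg => ?_
    simp only [Set.mem_ofPred_eq, CluM_md Even.zero T hg.1]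
  rw [e1, e1] at key
  exact key

/-- The last step for annuli. -/
theorem core_B {j : ℕ} (hα : S_alpha j) {M : ℕ} (hM : 1 ≤ M) {c D q η : ℝ} (hc : 0 < c)
    (hη : 0 < η) (hDq : D * q ≤ (η * c) ^ 2) {s₁ : ℤ} (hslit : Slit M s₁ (q / 2))
    {V A : Set Pt} {I : Pt → Set ℤ} (hJ : LAND.LJ V A I j) {x₀ w : Pt} {r ρ R s l' : ℤ}
    (hA : bx x₀ R \ bx x₀ r ⊆ A) (hw : w ∈ PLAN.Ring x₀ ρ) (hs : bx w s ⊆ V)
    (hs1 : 1 ≤ s) (hsρ : s ≤ ρ) (hl'1 : 1 ≤ l') (hl'r : r + 2 * j + 10 ≤ l') (hl's : s₁ ≤ l')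
    (hsmall : 8 * M * ((4 * (j + 2) + 10) * l' + 1) ≤ ρ)
    (hbig : (4 * (j + 2) + 10) * (8 * M * ρ + 1) + 2 * j + 10 ≤ R)
    {β βt : Set Pt} (hββ : β ⊆ βt) (hβV : ∀ x ∈ βt, x ∉ V)
    (hβb : βt ⊆ bx x₀ (8 * M * ρ + 1) \ bx x₀ ((4 * (j + 2) + 10) * l'))
    (hβ : Crs β x₀ ((4 * (j + 2) + 10) * l' + 1) (8 * M * ρ))
    {Z : Finset Pt} {a : Pt → ℝ} (hZ : ∀ x, x ∈ Z ↔ x ∈ bx w (s / 4))
    (ha : ∀ x ∈ Z, 0 ≤ a x ∧ a x ≤ 16 / (s : ℝ) ^ 2)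
    (hDD : c ≤ Pr (nu (bx x₀ ((4 * ((j + 2 : ℕ) : ℤ) + 10) * (8 * M * ρ + 1)) \ bx x₀ l') βt)
        (DD (2 * ((j + 2 : ℕ) : ℤ))
          (bx x₀ ((4 * ((j + 2 : ℕ) : ℤ) + 10) * (8 * M * ρ + 1)) \ bx x₀ l')
          (bx x₀ ((2 * ((j + 2 : ℕ) : ℤ) + 5) * (8 * M * ρ + 1)) \
            bx x₀ ((2 * ((j + 2 : ℕ) : ℤ) + 6) * l'))))
    (hD : Ex (nu (bx x₀ ((4 * ((j + 2 : ℕ) : ℤ) + 10) * (8 * M * ρ + 1)) \ bx x₀ l') βt)
        (fun h => lin Z a h ^ 2) ≤ D) :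
    -η ≤ Ex (Cfg V I) (lin Z a) := by
  have hM1 : (1 : ℤ) ≤ M := by exact_mod_cast hM
  have hj : (0 : ℤ) ≤ j := Int.natCast_nonneg j
  have hn : ((j + 2 : ℕ) : ℤ) = j + 2 := by push_cast; ring
  rw [hn] at hDD hD
  set N : ℤ := 4 * ((j : ℤ) + 2) + 10 with hN
  set a₀ : ℤ := N * l' with ha₀
  set b : ℤ := 8 * M * ρ + 1 with hb
  set B0 : Set Pt := bx x₀ (N * b) \ bx x₀ l' with hB0
  set B1 : Set Pt := bx x₀ (N * b) with hB1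
  have hN18 : 18 ≤ N := by omega
  have ha₀18 : 18 * l' ≤ a₀ := by nlinarith
  have hρ8 : 8 * (a₀ + 1) ≤ ρ := by nlinarith
  have hρ0 : 1 ≤ ρ := by omega
  have hMρ : 8 * ρ ≤ 8 * M * ρ := by nlinarith
  have hbN : b ≤ N * b := by nlinarith
  have hwρ := sd_ring hw
  have hB0f : B0.Finite := (bx_finite _ _).subset Set.sdiff_subset
  have hB01 : B0 ⊆ B1 := Set.sdiff_subset
  -- the positions of the points of `Z`
  have hZsd : ∀ x ∈ Z, sd w x ≤ s / 4 := fun x hx => mem_bx_iff.1 ((hZ x).1 hx)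
  have hZ1 : ∀ x ∈ Z, sd x₀ x ≤ 2 * ρ := fun x hx => by
    have h1 := hZsd x hx
    have h2 := sd_tri x₀ w x
    omega
  have hZ2 : ∀ x ∈ Z, 4 * M * (a₀ + 1) < sd x₀ x := fun x hx => by
    have h1 := hZsd x hx
    have h2 := sd_tri x₀ x w
    rw [sd_comm x w, hwρ] at h2
    have h3 : 8 * M * (a₀ + 1) ≤ ρ := hsmall
    have h4 : 8 * M * (a₀ + 1) = 2 * (4 * M * (a₀ + 1)) := by ring
    omega
  have haM : a₀ + 1 ≤ 4 * M * (a₀ + 1) := by nlinarith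
  have hZV : ∀ x ∈ Z, x ∈ V := fun x hx => hs (bx_mono (by omega) ((hZ x).1 hx))
  have hMset : ∀ x ∈ Z, x ∈ bx x₀ (8 * M * ρ) \ bx x₀ (a₀ + 1) := fun x hx =>
    ⟨mem_bx_iff.2 (by have := hZ1 x hx; omega), fun h => by
      have h1 := mem_bx_iff.1 h
      have h2 := hZ2 x hx
      omega⟩
  have hβB1 : β ⊆ B1 := fun x hx => bx_mono hbN (hβb (hββ hx)).1
  have hβB0 : βt ⊆ B0 := fun x hx => ⟨bx_mono hbN (hβb hx).1, fun h => by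
    have h1 := mem_bx_iff.1 h
    exact (hβb hx).2 (mem_bx_iff.2 (by omega))⟩
  have e2 : (2 * ((j : ℤ) + 2) + 5) * b = (2 * ((j : ℤ) + 2)) * b + 5 * b := by ring
  have e3 : 0 ≤ (2 * ((j : ℤ) + 2)) * b := by positivity
  have e4 : a₀ = (2 * ((j : ℤ) + 2) + 6) * l' + (2 * ((j : ℤ) + 2) + 4) * l' := by
    rw [ha₀, hN]; ring
  have e5 : 8 * 1 ≤ (2 * ((j : ℤ) + 2) + 4) * l' := mul_le_mul (by omega) hl'1 (by omega) (by omega)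
  refine fin_step hα hJ (B0 := B0) (β := βt) (M := bx x₀ (8 * M * ρ) \ bx x₀ (a₀ + 1))
    (M4 := bx x₀ ((2 * ((j : ℤ) + 2) + 5) * b) \ bx x₀ ((2 * ((j : ℤ) + 2) + 6) * l')) hB0f ?_
    hβB0 hβV (deep_ann hβb (by omega) (by omega)) (nb_ann (by omega) (by omega)) ?_ hMset hZV
    (fun x hx => (ha x hx).1) (c := c) (D := D) (q := q) hc hη.le (by rw [hn]; exact hDD) hD ?_ hDq
  · -- the annulus is in the free region
    intro x hx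
    obtain ⟨z, hz, hzx⟩ := mem_thk_sd hx
    have h1 := mem_bx_iff.1 hz.1
    have h1' : ¬ sd x₀ z ≤ l' := fun h => hz.2 (mem_bx_iff.2 h)
    have h2 := sd_tri x₀ z x
    have h3 := sd_tri x₀ x z
    rw [sd_comm x z] at h3
    refine hA ⟨mem_bx_iff.2 (by linarith), fun h => ?_⟩
    have h5 := mem_bx_iff.1 h
    omega
  · rintro x ⟨hx1, hx2⟩
    refine ⟨bx_mono (by omega) hx1, fun h => hx2 (bx_mono (by omega) h)⟩
  · -- the slit estimates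
    have hT : (CF0 (Z : Set Pt) (bx x₀ (8 * M * ρ) \ bx x₀ (a₀ + 1)))ᶜ =
        {h | ∃ y ∈ CluL 0 (Z : Set Pt) h, y ∈ (bx x₀ (8 * M * ρ) \ bx x₀ (a₀ + 1))ᶜ} := by
      ext h
      simp only [CF0, Set.mem_compl_iff, Set.mem_ofPred_eq, Set.not_subset]
    rw [hT]
    have h1 := esc_mono' (V1 := B0 \ βt) (V2 := B1 \ β) ((bx_finite _ _).subset Set.sdiff_subset)
      (fun x hx => ⟨hB01 hx.1, fun h => hx.2 (hββ h)⟩) (Z : Set Pt)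
      (bx x₀ (8 * M * ρ) \ bx x₀ (a₀ + 1))ᶜ
    have e6 : 4 * (M : ℤ) * (2 * ρ) = 8 * M * ρ := by ring
    obtain ⟨hβc, ⟨u, hu, hu'⟩, v, hv, hv'⟩ := hβ
    have h2 := hslit (2 * ρ) (by omega) x₀ β B1 (bx_finite _ _) hβB1
      (by rw [e6]; exact bx_mono hbN)
      ⟨hβc, ⟨u, hu, bx_mono (by omega) hu'⟩, v, hv, by rw [e6]; exact hv'⟩
    have h3 := hslit (a₀ + 1) (by omega) x₀ β B1 (bx_finite _ _) hβB1
      (bx_mono (by
        have : 8 * M * (a₀ + 1) = 2 * (4 * M * (a₀ + 1)) := by ring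
        omega))
      ⟨hβc, ⟨u, hu, hu'⟩, v, hv, fun h => hv' (bx_mono (by
        have : 8 * M * (a₀ + 1) = 2 * (4 * M * (a₀ + 1)) := by ring
        omega) h)⟩
    rw [e6] at h2
    refine h1.trans (le_trans (Pr_mono ?_) ((Pr_union_le _ _ _).trans (add_le_add h2 h3) |>.trans
      (le_of_eq (by ring))))
    rintro h - ⟨y, ⟨z, hz, hzy⟩, hy⟩
    have hzZ : z ∈ Z := by simpa using hz
    by_cases hy1 : y ∈ bx x₀ (8 * M * ρ)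
    · have hy2 : y ∈ bx x₀ (a₀ + 1) := by
        by_contra hc
        exact hy ⟨hy1, hc⟩
      refine Or.inr fun hc => ?_
      have h4 := mem_CF0_iff.1 hc y hy2
      refine h4 ⟨z, fun h5 => ?_, hzy⟩
      have := mem_bx_iff.1 h5
      have := hZ2 z hzZ
      omega
    · exact Or.inl fun hc => hy1 (hc ⟨z, mem_bx_iff.2 (hZ1 z hzZ), hzy⟩)

end Vale.Agent.P153.R2.RD
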