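import Vale.Agent.P153.R2.RDEC.Lay

/-!
# P153-R2, block RDEC: the probability of `DD` in boxes and annuli
-/

namespace Vale.Agent.P153.R2.RD

open Set Relation
open Vale.Agent.P153 Vale.Agent.P153.R2
open Vale.Agent.P153.Topo (Conn)
open Vale.Agent.P153.R2.F2 (OneS)
open scoped Classical

variable {m : ℤ}

/-- Open edges in terms of the modulus. -/
def OpM (a : Hg) (x y : Pt) : Prop := Adj x y ∧ ¬ (a x ≤ 1 ∧ a y ≤ 1)

/-- The open cluster in terms of the modulus. -/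
def CluM (S : Set Pt) (a : Hg) : Set Pt := {y | ∃ x ∈ S, ReflTransGen (OpM a) x y}

theorem CluM_mono (S : Set Pt) {a b : Hg} (hab : a ≤ b) : CluM S a ⊆ CluM S b := by
  rintro y ⟨x, hx, hxy⟩
  refine ⟨x, hx, ?_⟩
  induction hxy with
  | refl => exact ReflTransGen.refl
  | tail _ h1 ih => exact ih.tail ⟨h1.1, fun hc => h1.2 ⟨(hab _).trans hc.1, (hab _).trans hc.2⟩⟩

theorem CluM_md (hm : Even m) (S : Set Pt) {h : Hg} (hh : ∀ x, Odd (h x)) :
    CluM S (md m h) = CluL m S h := by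
  have key : ∀ x, |h x - m| ≤ 1 ↔ |h x - m| = 1 := fun x => by
    have h1 : Odd (h x - m) := (hh x).sub_even hm
    have h2 : h x - m ≠ 0 := fun h0 => by rw [h0] at h1; exact absurd h1 (by decide)
    have := abs_pos.2 h2
    omega
  have e : OpM (md m h) = OpL m h := by
    funext x y
    unfold OpM OpL md
    rw [key, key]
  unfold CluM CluL
  rw [e]

theorem lower_disj (S L : Set Pt) : IsLowerSet {a : Hg | Disjoint (CluM S a) L} :=
  fun _ _ hba ha => Set.disjoint_of_subset_left (CluM_mono S hba) ha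

theorem frd_Lv {V : Set Pt} (hV : V.Finite) (hm : Even m) (hm2 : 2 ≤ m) :
    Lv V (frd V 0) (-m) 1 where
  dI := frd_dat hV
  ne := frd_nonempty V
  even := hm.neg
  sg := Or.inl rfl
  sd := fun x => by
    by_cases hx : x ∈ V
    · rw [frd_in hx]; exact Or.inl (Sd_univ _ _)
    · by_cases hx2 : x ∈ ebd V
      · rw [frd_bd hx2]
        refine Or.inl (Or.inl fun a ha _ => ?_)
        rcases ha with ha | ha
        · rw [ha]; omega
        · have : a = 1 := ha
          rw [this]; omega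
      · refine Or.inr ⟨fun h => h.elim hx hx2, ?_⟩
        rw [frd_far hx hx2]
        exact Set.subsingleton_singleton

/-- Association of disjointness events. -/
theorem disj_mul {V : Set Pt} (hV : V.Finite) (hm : Even m) (hm2 : 2 ≤ m) (S S' L L' : Set Pt) :
    Pr (Cfg V (frd V 0)) {h | Disjoint (CluL (-m) S h) L} *
      Pr (Cfg V (frd V 0)) {h | Disjoint (CluL (-m) S' h) L'} ≤
      Pr (Cfg V (frd V 0)) {h | Disjoint (CluL (-m) S h) L ∧ Disjoint (CluL (-m) S' h) L'} := by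
  have key := md_Pr_mul_anti (frd_Lv hV hm hm2) (lower_disj S L) (lower_disj S' L')
  have e1 : ∀ S L : Set Pt, Pr (Cfg V (frd V 0)) {g | md (-m) g ∈ {a | Disjoint (CluM S a) L}} =
      Pr (Cfg V (frd V 0)) {h | Disjoint (CluL (-m) S h) L} := by
    intro S L
    refine Pr_congr fun g hg => ?_
    simp only [Set.mem_ofPred_eq, CluM_md hm.neg S hg.1]
  rw [e1, e1] at key
  refine key.trans (le_of_eq (Pr_congr fun g hg => ?_))
  simp only [Set.mem_ofPred_eq, Set.mem_inter_iff, CluM_md hm.neg _ hg.1]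

/-- **Boxes.** -/
theorem DD_box {R s₀ : ℤ} {c : ℝ} (hR : 1 ≤ R) (hs₀ : 1 ≤ s₀) (hc : 0 < c) (h1 : OneS R s₀ c)
    (n : ℕ) : ∃ c' : ℝ, 0 < c' ∧ ∀ l, 2 * (2 * R + 7) * s₀ ≤ l → ∀ (p : Pt) (β : Set Pt),
      β ⊆ bx p l → c' ≤ Pr (nu (bx p ((4 * n + 10) * l)) β)
        (DD (2 * n) (bx p ((4 * n + 10) * l)) (bx p ((2 * n + 5) * l))) := by
  obtain ⟨c', hc', h2⟩ := layer_ge hR hs₀ hc h1 n
  refine ⟨c', hc', fun l hl p β hβ => ?_⟩
  have hl0 : 0 < l := lt_of_lt_of_le (by positivity) hl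
  have hn0 : (0 : ℤ) ≤ n := Int.natCast_nonneg n
  refine (h2 l hl p (bx p ((4 * n + 10) * l) \ β) ((bx_finite _ _).subset Set.sdiff_subset)
    (fun x hx hx' => ⟨mem_bx_iff.2 hx', fun h => ?_⟩)).trans (Pr_mono fun h _ hh => ?_)
  · exact absurd (mem_bx_iff.1 (hβ h)) (by omega)
  · intro x hx hc
    have hh' : Disjoint (CluL (-(2 * n)) (bx p ((4 * n + 10) * l) \ β)ᶜ h)
        {x | (2 * n + 5) * l < sd p x ∧ sd p x ≤ (2 * n + 6) * l} := hh
    have := out_of_layer (p := p) (h := h) (l := -(2 * n)) (S := (bx p ((4 * n + 10) * l))ᶜ)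
      (a := (2 * n + 5) * l) (b := (2 * n + 6) * l) (by nlinarith) (fun y hy => ?_)
      (fun y hy h3 => ?_) x hc
    · have h4 := mem_bx_iff.1 hx
      nlinarith
    · have h5 : ¬ sd p y ≤ (4 * n + 10) * l := fun h => hy (mem_bx_iff.2 h)
      push Not at h5
      nlinarith
    · exact Set.disjoint_left.1 hh' (CluL_mono (Set.compl_subset_compl.2 Set.sdiff_subset) h hy) h3

/-- **Annuli.** -/
theorem DD_ann {R s₀ : ℤ} {c : ℝ} (hR : 1 ≤ R) (hs₀ : 1 ≤ s₀) (hc : 0 < c) (h1 : OneS R s₀ c)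
    (n : ℕ) (hn : 1 ≤ n) : ∃ c' : ℝ, 0 < c' ∧ ∀ l l', 2 * (2 * R + 7) * s₀ ≤ l' →
      (4 * n + 10) * l' ≤ l → ∀ (p : Pt) (β : Set Pt),
      β ⊆ bx p l \ bx p ((4 * n + 10) * l') →
      c' ≤ Pr (nu (bx p ((4 * n + 10) * l) \ bx p l') β)
        (DD (2 * n) (bx p ((4 * n + 10) * l) \ bx p l')
          (bx p ((2 * n + 5) * l) \ bx p ((2 * n + 6) * l'))) := by
  obtain ⟨c', hc', h2⟩ := layer_ge hR hs₀ hc h1 n
  refine ⟨c' * c', by positivity, fun l l' hl' hll p β hβ => ?_⟩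
  have hl'0 : 0 < l' := lt_of_lt_of_le (by positivity) hl'
  have hn0 : (0 : ℤ) ≤ n := Int.natCast_nonneg n
  have hl : 2 * (2 * R + 7) * s₀ ≤ l := by nlinarith
  have hl0 : 0 < l := by nlinarith
  set B0 : Set Pt := bx p ((4 * n + 10) * l) \ bx p l' with hB0
  have hVf : (B0 \ β).Finite := ((bx_finite _ _).subset Set.sdiff_subset).subset Set.sdiff_subset
  have e1 := h2 l hl p (B0 \ β) hVf (fun x hx hx' => ⟨⟨mem_bx_iff.2 hx', fun h => ?_⟩, fun h => ?_⟩)
  · have e2 := h2 l' hl' p (B0 \ β) hVf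
      (fun x hx hx' => ⟨⟨mem_bx_iff.2 ?_, fun h => ?_⟩, fun h => ?_⟩)
    · have e3 := disj_mul hVf (m := 2 * n) (even_two_mul _) (by omega) (B0 \ β)ᶜ (B0 \ β)ᶜ
        {x | (2 * n + 5) * l < sd p x ∧ sd p x ≤ (2 * n + 6) * l}
        {x | (2 * n + 5) * l' < sd p x ∧ sd p x ≤ (2 * n + 6) * l'}
      refine (mul_le_mul e1 e2 hc'.le (Pr_nonneg _ _)).trans (e3.trans (Pr_mono fun h _ hh => ?_))
      obtain ⟨hh1, hh2⟩ := hh
      have hsub : B0ᶜ ⊆ (B0 \ β)ᶜ := Set.compl_subset_compl.2 Set.sdiff_subset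
      rintro x ⟨hx1, hx2⟩ ⟨z, hz, hzx⟩
      have hz' : z ∉ bx p ((4 * n + 10) * l) ∨ z ∈ bx p l' := by
        by_contra hc
        push Not at hc
        exact hz ⟨hc.1, hc.2⟩
      rw [mem_bx_iff] at hx1 hx2
      rcases hz' with hz' | hz'
      · have h3 := out_of_layer (p := p) (h := h) (l := -(2 * n)) (S := (bx p ((4 * n + 10) * l))ᶜ)
          (a := (2 * n + 5) * l) (b := (2 * n + 6) * l) (by nlinarith) (fun y hy => ?_)
          (fun y hy h3 => ?_) x ⟨z, hz', hzx⟩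
        · nlinarith
        · have h5 : ¬ sd p y ≤ (4 * n + 10) * l := fun h => hy (mem_bx_iff.2 h)
          push Not at h5
          nlinarith
        · refine Set.disjoint_left.1 hh1 (CluL_mono ?_ h hy) h3
          exact fun y hy hc => hy hc.1.1
      · have h3 := in_of_layer (p := p) (h := h) (l := -(2 * n)) (S := bx p l')
          (a := (2 * n + 5) * l') (b := (2 * n + 6) * l') (by nlinarith) (fun y hy => ?_)
          (fun y hy h3 => ?_) x ⟨z, hz', hzx⟩
        · nlinarith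
        · rw [mem_bx_iff] at hy
          nlinarith
        · refine Set.disjoint_left.1 hh2 (CluL_mono ?_ h hy) h3
          exact fun y hy hc => hc.1.2 hy
    · nlinarith
    · rw [mem_bx_iff] at h; omega
    · exact (hβ h).2 (mem_bx_iff.2 hx')
  · rw [mem_bx_iff] at h; nlinarith
  · have := mem_bx_iff.1 (hβ h).1; omega

end Vale.Agent.P153.R2.RD
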