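import Vale.Agent.P153.Bd5.B18
import Vale.Agent.P153.R2.Base.Basic

/-!
# P153-R2, block RDEC: the free ensembles of Bd5 and of Base
-/

namespace Vale.Agent.P153.R2.RD

open Set Relation
open Vale.Agent.P153 Vale.Agent.P153.R2
open Vale.Agent.P153.Topo (Conn)

theorem Lip_iff {h : Hg} : Lip h ↔ (∀ x, Odd (h x)) ∧ ∀ x y, Adj x y → |h x - h y| ≤ 2 := Iff.rfl

/-- The free ensemble at level `0`. -/
theorem coe_FreeF (F : Finset Pt) :
    ((FreeF F (clo F) : Finset Hg) : Set Hg) = Cfg (F : Set Pt) (frd (F : Set Pt) 0) := by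
  classical
  ext h
  rw [Finset.mem_coe, mem_FreeF]
  have hebd : ∀ x, x ∉ F → x ∉ ebd (F : Set Pt) → x ∉ clo F := by
    intro x hx hxe hc
    rw [clo, Finset.mem_union, Finset.mem_biUnion] at hc
    rcases hc with hc | ⟨y, hy, hyx⟩
    · exact hx hc
    · refine hxe ⟨by simpa using hx, y, by simpa using hy, ?_⟩
      rw [Topo.adj_iff]
      simp only [Finset.mem_insert, Finset.mem_singleton, Prod.ext_iff] at hyx
      omega
  constructor
  · rintro ⟨hL, h1, h2⟩
    refine ⟨hL.1, fun x => ?_, fun x _ y hxy => hL.2 x y hxy⟩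
    unfold frd
    by_cases hx : x ∈ (F : Set Pt)
    · rw [if_pos hx]; exact Set.mem_univ _
    · rw [if_neg hx]
      have hx' : x ∉ F := by simpa using hx
      by_cases hxe : x ∈ ebd (F : Set Pt)
      · rw [if_pos hxe]
        have h3 := h1 x hx'
        rcases abs_cases (h x) with ⟨h4, _⟩ | ⟨h4, _⟩
        · right; show h x = 0 + 1; omega
        · left; show h x = 0 - 1; omega
      · rw [if_neg hxe]
        show h x = 0 + 1
        rw [h2 x (hebd x hx' hxe)]
        rfl
  · intro hh
    have hoff : ∀ x, x ∉ F → |h x| = 1 := by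
      intro x hx
      have h3 := hh.2.1 x
      unfold frd at h3
      have hx' : x ∉ (F : Set Pt) := by simpa using hx
      rw [if_neg hx'] at h3
      split_ifs at h3
      · rcases h3 with h3 | h3
        · rw [h3]; rfl
        · have h4 : h x = 0 + 1 := h3
          rw [h4]; rfl
      · have h4 : h x = 0 + 1 := h3
        rw [h4]; rfl
    refine ⟨⟨hh.1, fun x y hxy => ?_⟩, hoff, fun x hx => ?_⟩
    · by_cases hx : x ∈ (F : Set Pt)
      · exact hh.2.2 x hx y hxy
      · by_cases hy : y ∈ (F : Set Pt)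
        · rw [abs_sub_comm]
          exact hh.2.2 y hy x (Topo.adj_symm hxy)
        · have h4 := hoff x (by simpa using hx)
          have h5 := hoff y (by simpa using hy)
          rw [abs_le]
          rcases abs_cases (h x) with ⟨h6, _⟩ | ⟨h6, _⟩ <;>
            rcases abs_cases (h y) with ⟨h7, _⟩ | ⟨h7, _⟩ <;> omega
    · have hxF : x ∉ (F : Set Pt) := fun h => hx (sub_clo F x (by simpa using h))
      have hxe : x ∉ ebd (F : Set Pt) := fun h => by
        obtain ⟨-, y, hy, hyx⟩ := h
        exact hx (adj_clo F y (by simpa using hy) x hyx)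
      have h3 := hh.2.1 x
      unfold frd at h3
      rw [if_neg hxF, if_neg hxe] at h3
      have h4 : h x = 0 + 1 := h3
      rw [h4]; rfl

/-- Averages in the free ensemble. -/
theorem ev_FreeF (F : Finset Pt) (G : Hg → ℝ) :
    ev (FreeF F (clo F)) G = Ex (Cfg (F : Set Pt) (frd (F : Set Pt) 0)) G := by
  rw [← coe_FreeF, Ex_eq_ev']

end Vale.Agent.P153.R2.RD
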