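import Vale.Agent.P153.R2.RDEC.P5
import Vale.Agent.P153.R2.RDEC.Avg
import Vale.Agent.P153.R2.RDEC.Link
import Vale.Agent.P153.R2.GAPS.Circ
import Vale.Agent.P153.R2.F2A.LcB

/-!
P153, block RDEC-P (helper435), part 6: `slit_fin`. The finite volume version of `slit`: in the free
law (level `0`) of `B0 \ β`, with probability close to one the open cluster of the inner box stays in
the outer box.
-/

namespace Vale.Agent.P153.R2.RDEC

open MeasureTheory Filter Topology Relation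
open Vale.Agent.P153 Vale.Agent.P153.F Vale.Agent.P153.F.X Vale.Agent.P153.F.RSW
open Vale.Agent.P153.F.X.PosT
open Vale.Agent.P153.GFF (Plane SpecOut RowCLT)
open Vale.Agent.P153.A (Sp IsQ tau rc cd)
open Vale.Agent.P153.F (Pt)
open Vale.Agent.P153.Topo (Conn)

variable {Q : Measure A.Om}

theorem tE_fin (F : Finset Pt) : (tE (F : Set Pt)).Finite := by
  classical
  refine Set.Finite.subset (F.biUnion fun x =>
    ((Finset.Icc (x.1 - 1) (x.1 + 1)) ×ˢ (Finset.Icc (x.2 - 1) (x.2 + 1))).image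
      fun y => x + y).finite_toSet ?_
  rintro w ⟨x, hx, y, hxy, rfl⟩
  rw [Finset.mem_coe, Finset.mem_biUnion]
  refine ⟨x, hx, Finset.mem_image.2 ⟨y, ?_, rfl⟩⟩
  rw [Topo.adj_iff] at hxy
  rw [Finset.mem_product, Finset.mem_Icc, Finset.mem_Icc]
  omega

theorem iE_fin {β : Set Pt} (hβ : β.Finite) : (iE β).Finite := by
  classical
  refine (tE_fin hβ.toFinset).subset ?_
  rintro w ⟨x, hx, y, _, hxy, rfl⟩
  exact ⟨x, by simpa using hx, y, hxy, rfl⟩

/-- A connected set with two points: level `0` at the vertices and closed edges. -/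
theorem MB_iff {β : Finset Pt} (hβ : ∀ x ∈ β, ∀ y ∈ β, Conn (β : Set Pt) x y) {a b : Pt}
    (ha : a ∈ β) (hb : b ∈ β) (hab : a ≠ b) (h : Hg) :
    h ∈ MB β ↔ iE (β : Set Pt) ⊆ bl h := by
  constructor
  · rintro hh w ⟨x, hx, y, hy, hxy, rfl⟩
    exact ⟨x, y, hxy, rfl, hh x hx, hh y hy⟩
  · intro hh x hx
    obtain ⟨c, hc, hxc⟩ : ∃ c ∈ β, x ≠ c := by
      by_cases hxa : x = a
      · exact ⟨b, hb, hxa ▸ hab⟩
      · exact ⟨a, ha, hxa⟩
    obtain ⟨y, hy, hxy⟩ : ∃ y ∈ β, Adj x y := by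
      by_contra hcon
      push Not at hcon
      refine hxc ?_
      have h1 := Conn.ind (S := (β : Set Pt)) (x := x) (fun z => z = x) rfl
        (fun u v _ huv hv hu => by
          subst hu
          exact absurd huv (hcon v (by exact_mod_cast hv))) (hβ x hx c hc)
      exact h1.symm
    exact ((F2A.mem_bl' hxy).1 (hh ⟨x, by exact_mod_cast hx, y, by exact_mod_cast hy, hxy, rfl⟩)).1

/-- **SLIT in finite volume.** -/
theorem slit_fin {κ : ℝ} (hQ : IsQ Q) (hP : Plane (Q.map rc)) (hS : SpecOut (Q.map rc) κ)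
    (hC : RowCLT (Q.map rc) κ) (hκ : 0 < κ) (hR : S_rsw (Q.map rc)) {ε : ℝ} (hε : 0 < ε) :
    ∃ M₁ : ℕ, 1 ≤ M₁ ∧ ∀ M : ℕ, M₁ ≤ M → ∃ s₀ : ℤ, 1 ≤ s₀ ∧ ∀ s : ℤ, s₀ ≤ s → ∀ (p : Pt)
      (β B0 : Set Pt), B0.Finite → β ⊆ B0 → R2.bx p (4 * M * s + 1) ⊆ B0 →
      (∀ x ∈ β, ∀ y ∈ β, Conn β x y) → (∃ x ∈ β, x ∈ R2.bx p s) →
      (∃ y ∈ β, y ∉ R2.bx p (4 * M * s)) →
      Pr (RD.nu B0 β) (RD.CF0 (R2.bx p s) (R2.bx p (4 * M * s)))ᶜ ≤ ε := by
  classical
  obtain ⟨M₁, hM₁, hM⟩ := slit hQ hP hS hC hκ hε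
  refine ⟨M₁, hM₁, fun M hMM => ?_⟩
  obtain ⟨s₀, hs₀, hs⟩ := hM M hMM
  refine ⟨s₀, hs₀, fun s hss p β B0 hB0 hβ0 hbx hβc hβ1 hβ2 => ?_⟩
  set R : ℤ := 4 * M * s with hRd
  have hs1 : 1 ≤ s := hs₀.trans hss
  have hM1 : (1 : ℤ) ≤ M := by exact_mod_cast hM₁.trans hMM
  have hsR : s ≤ R := by rw [hRd]; nlinarith
  obtain ⟨b, rfl⟩ : ∃ b : Finset Pt, (b : Set Pt) = β :=
    ⟨(hB0.subset hβ0).toFinset, (hB0.subset hβ0).coe_toFinset⟩
  obtain ⟨F, hF⟩ : ∃ F : Finset Pt, (F : Set Pt) = B0 \ (b : Set Pt) :=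
    ⟨(hB0.subset Set.sdiff_subset).toFinset, Set.Finite.coe_toFinset _⟩
  obtain ⟨a₁, ha₁, ha₁'⟩ := hβ1
  obtain ⟨a₂, ha₂, ha₂'⟩ := hβ2
  have hne : a₁ ≠ a₂ := by
    rintro rfl
    exact ha₂' ⟨ha₁'.1.trans hsR, ha₁'.2.trans hsR⟩
  have hMB := fun h => MB_iff (β := b) (fun x hx y hy => hβc x (by exact_mod_cast hx) y
    (by exact_mod_cast hy)) (by exact_mod_cast ha₁) (by exact_mod_cast ha₂) hne h
  -- the functions of the closed edges
  set Θ : Set Pt → ℝ := fun B => if iE (b : Set Pt) ⊆ B then 1 else 0 with hΘd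
  set g : Set Pt → ℝ := fun B =>
    if X.Conf (B ∪ iE (b : Set Pt)) (X.bx p s) (X.bx p R) then 0 else 1 with hgd
  have hiF : ∀ w ∈ iE (b : Set Pt), w ∉ tE (F : Set Pt) := by
    rintro w ⟨x, hx, y, hy, hxy, rfl⟩ ⟨x', hx', y', hxy', he⟩
    rw [hF] at hx'
    rcases LE.edge_eq hxy hxy' he with ⟨rfl, -⟩ | ⟨rfl, -⟩
    · exact hx'.2 hx
    · exact hx'.2 hy
  have hΘ : Fn (tE (F : Set Pt))ᶜ Θ := by
    refine ⟨fun B => ?_, ⟨(iE_fin b.finite_toSet).toFinset, fun w hw => ?_, fun B B' h => ?_⟩, ?_⟩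
    · simp only [hΘd]; split_ifs <;> norm_num
    · exact hiF w (by simpa using hw)
    · have : iE (b : Set Pt) ⊆ B ↔ iE (b : Set Pt) ⊆ B' :=
        forall₂_congr fun w hw => h w (by simpa using hw)
      simp only [hΘd, this]
    · have : ¬ iE (b : Set Pt) ⊆ ∅ := by
        intro h0
        have h1 := (hMB (fun _ => 3)).2 (h0.trans (Set.empty_subset _))
        have h2 := h1 a₁ (by exact_mod_cast ha₁)
        norm_num at h2
      simp only [hΘd, if_neg this]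
  have hg0 : ∀ B, 0 ≤ g B := fun B => by simp only [hgd]; split_ifs <;> norm_num
  have hga : Antitone g := by
    intro B B' hBB
    simp only [hgd]
    by_cases h : X.Conf (B ∪ iE (b : Set Pt)) (X.bx p s) (X.bx p R)
    · rw [if_pos h, if_pos (conf_local (fun w _ hw => Set.union_subset_union_left _ hBB hw) h)]
    · rw [if_neg h]; split_ifs <;> norm_num
  have hgl : LocS (tE (F : Set Pt)) g := by
    refine ⟨(tE_fin F).toFinset, fun w hw => by simpa using hw, fun B B' h => ?_⟩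
    have key : ∀ w ∈ tE (X.bx p R), (w ∈ B ∪ iE (b : Set Pt) ↔ w ∈ B' ∪ iE (b : Set Pt)) := by
      rintro w ⟨x, hx, y, hxy, rfl⟩
      by_cases hw : x + y ∈ iE (b : Set Pt)
      · exact ⟨fun _ => Or.inr hw, fun _ => Or.inr hw⟩
      · have hwF : x + y ∈ tE (F : Set Pt) := by
          rw [hF]
          have hx0 : x ∈ B0 := hbx ⟨hx.1.trans (by omega), hx.2.trans (by omega)⟩
          have hy0 : y ∈ B0 := hbx (by
            rw [Topo.adj_iff] at hxy
            obtain ⟨h1, h2⟩ := hx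
            rw [abs_le] at h1 h2
            refine ⟨?_, ?_⟩ <;> rw [abs_le] <;> omega)
          by_cases hxb : x ∈ (b : Set Pt)
          · by_cases hyb : y ∈ (b : Set Pt)
            · exact absurd ⟨x, hxb, y, hyb, hxy, rfl⟩ hw
            · exact ⟨y, ⟨hy0, hyb⟩, x, hxy.symm, add_comm _ _⟩
          · exact ⟨x, ⟨hx0, hxb⟩, y, hxy, rfl⟩
        have h1 := h (x + y) (by simpa using hwF)
        constructor
        · rintro (h2 | h2)
          · exact Or.inl (h1.1 h2)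
          · exact Or.inr h2
        · rintro (h2 | h2)
          · exact Or.inl (h1.2 h2)
          · exact Or.inr h2
    have : X.Conf (B ∪ iE (b : Set Pt)) (X.bx p s) (X.bx p R) ↔
        X.Conf (B' ∪ iE (b : Set Pt)) (X.bx p s) (X.bx p R) :=
      ⟨conf_local fun w hw => (key w hw).1, conf_local fun w hw => (key w hw).2⟩
    simp only [hgd, this]
  have key := LE.low_gen hP F hΘ hg0 hga hgl (v := []) (by simp)
  have hnil : ∀ h : Hg, LE.pv [] h = 1 := fun _ => rfl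
  simp only [hnil, mul_one] at key
  rw [RD.ev_FreeF, hF] at key
  -- the integrals
  have i1 : ∫ h, Θ (bl h) ∂(muT (Q.map rc)) = (muT (Q.map rc)).real (MB b) := by
    have : (fun h => Θ (bl h)) = (MB b).indicator fun _ => (1 : ℝ) := by
      funext h
      by_cases hh : h ∈ MB b
      · rw [Set.indicator_of_mem hh]; exact if_pos ((hMB h).1 hh)
      · rw [Set.indicator_of_notMem hh]; exact if_neg fun h' => hh ((hMB h).2 h')
    rw [this, integral_indicator (meas_MB b), setIntegral_const, smul_eq_mul, mul_one]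
  have i2 : ∫ h, Θ (bl h) * g (bl h) ∂(muT (Q.map rc)) =
      (muT (Q.map rc)).real (MB b ∩ NC p s R) := by
    have : (fun h => Θ (bl h) * g (bl h)) = (MB b ∩ NC p s R).indicator fun _ => (1 : ℝ) := by
      funext h
      by_cases hh : h ∈ MB b
      · have h1 := (hMB h).1 hh
        have h2 : bl h ∪ iE (b : Set Pt) = bl h := Set.union_eq_left.2 h1
        have h3 : Θ (bl h) = 1 := if_pos h1
        rw [h3, one_mul]
        by_cases hc : X.Conf (bl h) (X.bx p s) (X.bx p R)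
        · rw [Set.indicator_of_notMem fun h' => h'.2 hc]
          simp only [hgd, h2, if_pos hc]
        · rw [Set.indicator_of_mem (show h ∈ MB b ∩ NC p s R from ⟨hh, hc⟩)]
          simp only [hgd, h2, if_neg hc]
      · rw [Set.indicator_of_notMem fun h' => hh h'.1]
        have h3 : Θ (bl h) = 0 := if_neg fun h' => hh ((hMB h).2 h')
        rw [h3, zero_mul]
    rw [this, integral_indicator ((meas_MB b).inter (meas_NC p s R)), setIntegral_const,
      smul_eq_mul, mul_one]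
  rw [i1, i2] at key
  -- the mass of `MB`
  have hfin : muT (Q.map rc) (MB b) ≠ ⊤ := by
    have hGb := gb_of_plane hP
    have h1 : MB b ⊆ Cyl {a₁} (fun _ => 1) ∪ Cyl {a₁} (fun _ => -1) := by
      intro h hh
      have h2 := hh a₁ (by exact_mod_cast ha₁)
      rw [abs_eq (by norm_num)] at h2
      rcases h2 with h2 | h2
      · exact Or.inl fun x hx => by rw [Finset.mem_singleton.1 hx]; exact h2
      · exact Or.inr fun x hx => by rw [Finset.mem_singleton.1 hx]; exact h2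
    refine ne_top_of_le_ne_top ?_ ((measure_mono h1).trans (measure_union_le _ _))
    exact ENNReal.add_ne_top.2 ⟨hGb.fin _ _ (Finset.singleton_nonempty _),
      hGb.fin _ _ (Finset.singleton_nonempty _)⟩
  have hpos : 0 < (muT (Q.map rc)).real (MB b) := by
    refine ENNReal.toReal_pos (ne_of_gt ?_) hfin
    refine lt_of_lt_of_le (Gp.cyl_one_pos hP hR s_conf b) (measure_mono fun h hh x hx => ?_)
    rw [hh x hx]; rfl
  have h3 := hs s hss p b (fun x hx y hy => hβc x (by exact_mod_cast hx) y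
    (by exact_mod_cast hy)) ⟨a₁, by exact_mod_cast ha₁, ha₁'⟩ ⟨a₂, by exact_mod_cast ha₂, ha₂'⟩
  have h4 : (muT (Q.map rc)).real (MB b ∩ NC p s R) ≤ ε * (muT (Q.map rc)).real (MB b) := by
    have h5 := ENNReal.toReal_mono (ENNReal.mul_ne_top ENNReal.ofReal_ne_top hfin) h3
    rw [ENNReal.toReal_mul, ENNReal.toReal_ofReal hε.le] at h5
    exact h5
  have h6 : Ex (Cfg (B0 \ (b : Set Pt)) (frd (B0 \ (b : Set Pt)) 0)) (fun h => g (bl h)) ≤ ε :=
    le_of_mul_le_mul_right (key.trans h4) hpos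
  rw [Pr_eq_Ex (Cfg_finite (RD.frd_dat (hB0.subset Set.sdiff_subset)))]
  refine le_trans (le_of_eq (Ex_congr fun h hh => ?_)) h6
  have h7 : iE (b : Set Pt) ⊆ bl h := by
    rintro w ⟨x, hx, y, hy, hxy, rfl⟩
    exact ⟨x, y, hxy, rfl, RD.frd_abs (fun h' => h'.2 hx) (hh.2.1 x),
      RD.frd_abs (fun h' => h'.2 hy) (hh.2.1 y)⟩
  have h8 : bl h ∪ iE (b : Set Pt) = bl h := Set.union_eq_left.2 h7
  have h9 : h ∈ RD.CF0 (R2.bx p s) (R2.bx p R) ↔ X.Conf (bl h) (X.bx p s) (X.bx p R) := by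
    constructor
    · intro h1 x hx y hy
      exact h1 ⟨x, hx, ReflTransGen.mono (fun _ _ h2 => F2A.opL_iff.2 h2) _ _ hy⟩
    · rintro h1 y ⟨x, hx, hy⟩
      exact h1 x hx y (ReflTransGen.mono (fun _ _ h2 => F2A.opL_iff.1 h2) _ _ hy)
  unfold R2.ind
  by_cases hc : X.Conf (bl h) (X.bx p s) (X.bx p R)
  · rw [if_neg (show ¬ h ∈ (RD.CF0 (R2.bx p s) (R2.bx p R))ᶜ from fun h' => h' (h9.2 hc))]
    simp only [hgd, h8, if_pos hc]
  · rw [if_pos (show h ∈ (RD.CF0 (R2.bx p s) (R2.bx p R))ᶜ from fun h' => hc (h9.1 h'))]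
    simp only [hgd, h8, if_neg hc]

/-- **SLIT in finite volume**, the open cluster of the outside. -/
theorem slit_fin' {κ : ℝ} (hQ : IsQ Q) (hP : Plane (Q.map rc)) (hS : SpecOut (Q.map rc) κ)
    (hC : RowCLT (Q.map rc) κ) (hκ : 0 < κ) (hR : S_rsw (Q.map rc)) {ε : ℝ} (hε : 0 < ε) :
    ∃ M₁ : ℕ, 1 ≤ M₁ ∧ ∀ M : ℕ, M₁ ≤ M → ∃ s₀ : ℤ, 1 ≤ s₀ ∧ ∀ s : ℤ, s₀ ≤ s → ∀ (p : Pt)
      (β B0 : Set Pt), B0.Finite → β ⊆ B0 → R2.bx p (4 * M * s + 1) ⊆ B0 →
      (∀ x ∈ β, ∀ y ∈ β, Conn β x y) → (∃ x ∈ β, x ∈ R2.bx p s) →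
      (∃ y ∈ β, y ∉ R2.bx p (4 * M * s)) →
      Pr (RD.nu B0 β) {h | ∃ x, x ∈ R2.bx p s ∧ x ∈ CluL 0 (R2.bx p (4 * M * s))ᶜ h} ≤ ε := by
  obtain ⟨M₁, hM₁, hM⟩ := slit_fin hQ hP hS hC hκ hR hε
  refine ⟨M₁, hM₁, fun M hMM => ?_⟩
  obtain ⟨s₀, hs₀, hs⟩ := hM M hMM
  refine ⟨s₀, hs₀, fun s hss p β B0 hB0 hβ0 hbx hβc hβ1 hβ2 => ?_⟩
  refine le_trans (le_of_eq ?_) (hs s hss p β B0 hB0 hβ0 hbx hβc hβ1 hβ2)
  congr 1
  ext h
  simp only [Set.mem_ofPred_eq, Set.mem_compl_iff, RD.CF0, Set.not_subset]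
  constructor
  · rintro ⟨x, hx, y, hy, hyx⟩
    exact ⟨y, ⟨x, hx, F2A.rtg_symm hyx⟩, hy⟩
  · rintro ⟨y, ⟨x, hx, hxy⟩, hy⟩
    exact ⟨x, hx, y, hy, F2A.rtg_symm hxy⟩

end Vale.Agent.P153.R2.RDEC
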