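import Vale.Agent.P153.R2.RDEC.DDb
import Vale.Agent.P153.R2.RDEC.P6

/-!
# P153-R2, block RDEC: monotonicity in the domain; the slit in annuli
-/

namespace Vale.Agent.P153.R2.RD

open Set Relation
open Vale.Agent.P153 Vale.Agent.P153.R2
open Vale.Agent.P153.Topo (Conn)
open scoped Classical

/-- The free laws increase with the domain. -/
theorem mono_dom {V1 V2 : Set Pt} (hV2 : V2.Finite) (h12 : V1 ⊆ V2) {A : Set Hg}
    (hA : IsUpperSet A) : Pr (Cfg V1 (frd V1 0)) {g | md 0 g ∈ A} ≤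
      Pr (Cfg V2 (frd V2 0)) {g | md 0 g ∈ A} := by
  have hV1 : V1.Finite := hV2.subset h12
  have hL : Lv V2 (frd V2 0) 0 1 :=
    { dI := frd_dat hV2
      ne := frd_nonempty V2
      even := Even.zero
      sg := Or.inl rfl
      sd := fun x => by
        by_cases hx : x ∈ V2
        · rw [frd_in hx]; exact Or.inl (Sd_univ _ _)
        · by_cases hx2 : x ∈ ebd V2
          · rw [frd_bd hx2]
            left
            have := Sd_free 0 1
            norm_num at this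
            exact this
          · refine Or.inr ⟨fun h => h.elim hx hx2, ?_⟩
            rw [frd_far hx hx2]
            exact Set.subsingleton_singleton }
  have hN : V2 \ (V2 \ V1) = V1 := by
    ext x
    constructor
    · rintro ⟨h3, h4⟩
      by_contra h5
      exact h4 ⟨h3, h5⟩
    · intro h3
      exact ⟨h12 h3, fun h4 => h4.2 h3⟩
  set I : Pt → Set ℤ := rpl (frd V2 0) (V2 \ V1) fun _ => {0 - 1, 0 + 1} with hI
  have hIabs : ∀ x, x ∉ V1 → ∀ n ∈ I x, |n| = 1 := by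
    intro x hx n hn
    by_cases h2 : x ∈ V2
    · rw [hI, rpl_in (show x ∈ V2 \ V1 from ⟨h2, hx⟩)] at hn
      rcases hn with hn | hn
      · rw [hn]; rfl
      · rw [Set.mem_singleton_iff.1 hn]; rfl
    · rw [hI, rpl_out (fun h => h2 h.1)] at hn
      exact frd_abs h2 hn
  have hne : (Cfg (V2 \ (V2 \ V1)) I).Nonempty := by
    refine ⟨fun _ => 1, fun _ => odd_one, fun x => ?_, fun x _ y _ => by simp⟩
    by_cases h1 : x ∈ V2 \ V1
    · rw [hI, rpl_in h1]; simp
    · rw [hI, rpl_out h1]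
      by_cases h : x ∈ V2
      · rw [frd_in h]; exact Set.mem_univ _
      · by_cases h2 : x ∈ ebd V2
        · rw [frd_bd h2]; simp
        · rw [frd_far h h2]; simp
  obtain ⟨e1, hcmp⟩ := Cmp_cut hL (N := V2 \ V1) (fun x hx => hx.1) (fun x hx y hy hxy => by
    rw [frd_bd ⟨hy, x, hx.1, hxy⟩]; norm_num) hne (fun x hx => by
    rw [frd_in hx.1]; exact Sd_univ _ _)
  refine le_trans (le_of_eq ?_) (md_Pr_mono0 hcmp hA)
  rw [e1, hN]
  have hIV : ∀ x ∈ nb V1, frd V1 0 x = I x := by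
    intro x hx
    by_cases h1 : x ∈ V1
    · rw [frd_in h1, hI, rpl_out (fun h => h.2 h1), frd_in (h12 h1)]
    · have hxe : x ∈ ebd V1 := hx.resolve_left h1
      rw [frd_bd hxe]
      by_cases h2 : x ∈ V2
      · rw [hI, rpl_in (show x ∈ V2 \ V1 from ⟨h2, h1⟩)]; norm_num
      · rw [hI, rpl_out (fun h => h2 h.1)]
        obtain ⟨-, y, hy, hyx⟩ := hxe
        rw [frd_bd ⟨h2, y, h12 hy, hyx⟩]
  have dI1 : Dat V1 I := by
    refine ⟨hV1, fun x hx => ?_, hcmp.dI.cof⟩
    by_cases h2 : x ∈ V2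
    · rw [hI, rpl_in (show x ∈ V2 \ V1 from ⟨h2, hx⟩)]; exact Set.toFinite _
    · exact hcmp.dI.bdd x h2
  -- the truncated modulus
  set tr : Hg → Hg := fun h x => if x ∈ V1 then |h x| else 1 with htr
  have key : ∀ (I' : Pt → Set ℤ), (∀ x, x ∉ V1 → ∀ n ∈ I' x, |n| = 1) → Dat V1 I' →
      Pr (Cfg V1 I') {g | md 0 g ∈ A} = Ex (Cfg V1 I') (fun h => ind A (tr h)) := by
    intro I' hI' dI'
    rw [Pr_eq_Ex (Cfg_finite dI')]
    refine Ex_congr fun g hg => ?_
    have : md 0 g = tr g := by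
      funext x
      rw [htr]
      unfold md
      simp only [sub_zero]
      split_ifs with h
      · rfl
      · exact hI' x h _ (hg.2.1 x)
    show ind A (md 0 g) = _
    rw [this]
  rw [hN] at hne
  rw [key _ (fun x hx n hn => frd_abs hx hn) (frd_dat hV1), key I hIabs dI1]
  refine Ex_off (frd_dat hV1) dI1 hIV (frd_nonempty V1) hne fun a b hab => ?_
  have : tr a = tr b := by
    funext x
    rw [htr]
    simp only
    split_ifs with h
    · rw [hab x (Or.inl h)]
    · rfl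
  simp only [this]

/-- Escape of the cluster: monotone in the domain. -/
theorem esc_mono {B0 B1 β : Set Pt} (hB1 : B1.Finite) (h01 : B0 ⊆ B1) (T M : Set Pt) :
    Pr (nu B0 β) {h | ∃ y ∈ CluL 0 T h, y ∈ M} ≤ Pr (nu B1 β) {h | ∃ y ∈ CluL 0 T h, y ∈ M} := by
  have hA : IsUpperSet {a : Hg | ∃ y ∈ CluM T a, y ∈ M} := fun a b hab ⟨y, hy, hyM⟩ =>
    ⟨y, CluM_mono T hab hy, hyM⟩
  have key := mono_dom (V1 := B0 \ β) (V2 := B1 \ β) (hB1.subset Set.sdiff_subset)
    (fun x hx => ⟨h01 hx.1, hx.2⟩) hA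
  have e1 : ∀ B : Set Pt, Pr (nu B β) {g | md 0 g ∈ {a : Hg | ∃ y ∈ CluM T a, y ∈ M}} =
      Pr (nu B β) {h | ∃ y ∈ CluL 0 T h, y ∈ M} := fun B => by
    refine Pr_congr fun g hg => ?_
    simp only [Set.mem_ofPred_eq, CluM_md Even.zero T hg.1]
  rw [e1, e1] at key
  exact key

end Vale.Agent.P153.R2.RD
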