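import Vale.Agent.P153.R2.RDEC.Comb
import Vale.Agent.P153.R2.F2.Lev

/-!
# P153-R2, block RDEC: the outer cluster misses the middle with positive probability
-/

namespace Vale.Agent.P153.R2.RD

open Set Relation
open Vale.Agent.P153 Vale.Agent.P153.R2
open Vale.Agent.P153.Topo (Conn)
open Vale.Agent.P153.R2.F2 (Cx OneS Bdd thk lay)
open scoped Classical

variable {m : ℤ}

/-! ### Separation by a layer -/

/-- Sup-distance from `p`. -/
def sd (p x : Pt) : ℤ := max |x.1 - p.1| |x.2 - p.2|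

theorem mem_bx_iff {p x : Pt} {r : ℤ} : x ∈ bx p r ↔ sd p x ≤ r := by
  unfold sd
  rw [max_le_iff]
  exact Iff.rfl

theorem sd_adj {p x y : Pt} (h : Adj x y) : sd p y ≤ sd p x + 1 := by
  have h1 := Topo.adj_iff.1 h
  unfold sd
  have a1 : |y.1 - p.1| ≤ |x.1 - p.1| + 1 := by
    rcases abs_cases (y.1 - p.1) with ⟨h2, _⟩ | ⟨h2, _⟩ <;>
      rcases abs_cases (x.1 - p.1) with ⟨h3, _⟩ | ⟨h3, _⟩ <;> omega
  have a2 : |y.2 - p.2| ≤ |x.2 - p.2| + 1 := by
    rcases abs_cases (y.2 - p.2) with ⟨h2, _⟩ | ⟨h2, _⟩ <;>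
      rcases abs_cases (x.2 - p.2) with ⟨h3, _⟩ | ⟨h3, _⟩ <;> omega
  have b1 := le_max_left |x.1 - p.1| |x.2 - p.2|
  have b2 := le_max_right |x.1 - p.1| |x.2 - p.2|
  exact max_le (by linarith) (by linarith)

theorem sd_adj' {p x y : Pt} (h : Adj x y) : |sd p x - sd p y| ≤ 1 := by
  have h1 := sd_adj (p := p) h
  have h2 := sd_adj (p := p) (Topo.adj_symm h)
  rw [abs_le]
  omega

theorem nb_bx {p : Pt} {r : ℤ} {x : Pt} (hx : x ∈ nb (bx p r)) : x ∈ bx p (r + 1) := by
  rcases hx with hx | ⟨-, y, hy, hyx⟩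
  · rw [mem_bx_iff] at hx ⊢; omega
  · rw [mem_bx_iff] at hy ⊢
    have := sd_adj (p := p) hyx
    omega

theorem bx_finite (p : Pt) (r : ℤ) : (bx p r).Finite := by
  refine ((Set.finite_Icc (p.1 - r) (p.1 + r)).prod (Set.finite_Icc (p.2 - r) (p.2 + r))).subset ?_
  rintro x ⟨h1, h2⟩
  rw [abs_le] at h1 h2
  simp only [Set.mem_prod, Set.mem_Icc]
  omega

theorem bx_mono {p : Pt} {r r' : ℤ} (h : r ≤ r') : bx p r ⊆ bx p r' := fun x hx => by
  rw [mem_bx_iff] at hx ⊢; omega

theorem thk_bx {p : Pt} {r a : ℤ} (hr : 0 ≤ r) (ha : 0 ≤ a) : thk (bx p r) a = bx p (r + a) := by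
  ext x
  constructor
  · rintro ⟨y, ⟨h1, h2⟩, h3, h4⟩
    rw [abs_le] at h1 h2 h3 h4
    constructor <;> rw [abs_le] <;> omega
  · rintro ⟨h1, h2⟩
    rw [abs_le] at h1 h2
    refine ⟨(max (p.1 - r) (min x.1 (p.1 + r)), max (p.2 - r) (min x.2 (p.2 + r))), ⟨?_, ?_⟩,
      ?_, ?_⟩ <;> simp only [abs_le] <;> omega

/-- A set which is closed under steps and misses a layer stays outside. -/
theorem out_of_layer {p : Pt} {h : Hg} {l : ℤ} {S : Set Pt} {a b : ℤ} (hab : a < b)
    (hS : ∀ x ∈ S, b < sd p x) (hl : ∀ x ∈ CluL l S h, ¬ (a < sd p x ∧ sd p x ≤ b)) :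
    ∀ x ∈ CluL l S h, b < sd p x := by
  rintro x ⟨z, hz, hzx⟩
  induction hzx with
  | refl => exact hS z hz
  | @tail u v hu h1 ih =>
    have h2 := sd_adj' (p := p) h1.1
    rw [abs_le] at h2
    have h3 := hl v ⟨z, hz, hu.tail h1⟩
    by_contra hc
    push Not at hc
    exact h3 ⟨by omega, hc⟩

theorem in_of_layer {p : Pt} {h : Hg} {l : ℤ} {S : Set Pt} {a b : ℤ} (hab : a < b)
    (hS : ∀ x ∈ S, sd p x ≤ a) (hl : ∀ x ∈ CluL l S h, ¬ (a < sd p x ∧ sd p x ≤ b)) :
    ∀ x ∈ CluL l S h, sd p x ≤ a := by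
  rintro x ⟨z, hz, hzx⟩
  induction hzx with
  | refl => exact hS z hz
  | @tail u v hu h1 ih =>
    have h2 := sd_adj' (p := p) h1.1
    rw [abs_le] at h2
    have h3 := hl v ⟨z, hz, hu.tail h1⟩
    by_contra hc
    push Not at hc
    exact h3 ⟨hc, by omega⟩

/-! ### Shift of the level -/

theorem CluL_shift (m : ℤ) (S : Set Pt) (h : Hg) :
    CluL (-m) S h = CluL 0 S (fun x => h x + m) := by
  have e : OpL (-m) h = OpL 0 (fun x => h x + m) := by
    funext x y
    unfold OpL
    simp only [sub_neg_eq_add, sub_zero]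
  unfold CluL
  rw [e]

/-- From exact bounded data to the free law, at the level `-m`. -/
theorem Pr_free_ge {V : Set Pt} (hV : V.Finite) (hm : Even m) {n : ℕ} (hmn : m = 2 * n)
    {L : Set Pt} {c : ℝ}
    (h : ∀ η : Hg, (Cx V η).Nonempty → Bdd V η (-(2 * n + 1)) (2 * n + 1) →
      c ≤ Pr (Cx V η) {h | Disjoint (CluL 0 Vᶜ h) L}) :
    c ≤ Pr (Cfg V (frd V 0)) {h | Disjoint (CluL (-m) Vᶜ h) L} := by
  have hd := frd_dat hV
  have hS := Cfg_finite hd
  have key := Pr_ge_of_fiber (c := c) hS (fun (h : Hg) => fun x => if x ∈ V then 0 else h x)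
    {h | Disjoint (CluL (-m) Vᶜ h) L} univ (fun _ _ _ _ _ => Iff.rfl) (fun a ha _ => by
    have e1 : Cfg V (frd V 0) ∩ {b | (fun x => if x ∈ V then 0 else b x) =
        fun x => if x ∈ V then 0 else a x} = Cfg V (exa V a) := by
      have e2 : {b : Hg | (fun x => if x ∈ V then (0 : ℤ) else b x) =
          fun x => if x ∈ V then 0 else a x} = {g | ∀ x, x ∉ V → g x = a x} := by
        ext g
        simp only [Set.mem_ofPred_eq]
        constructor
        · intro hg x hx
          have := congrFun hg x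
          simpa [hx] using this
        · intro hg
          funext x
          by_cases hx : x ∈ V
          · simp [hx]
          · simp [hx, hg x hx]
      rw [e2, Cfg_agree ha le_rfl]
      congr 1
      funext x
      unfold exa
      by_cases hx : x ∈ V
      · simp only [hx, if_true]; exact frd_in hx
      · simp only [hx, if_false]
    rw [e1]
    -- shift
    have hb : BijOn (fun (h : Hg) (x : Pt) => h x + m) (Cfg V (exa V a))
        (Cx V (fun x => a x + m)) := by
      refine ⟨fun g hg => ⟨fun x => (hg.1 x).add_even hm, fun x => ?_, fun x hx y hxy => ?_⟩,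
        fun g _ g' _ e => ?_, fun g hg => ⟨fun x => g x - m, ⟨fun x => (hg.1 x).sub_even hm,
          fun x => ?_, fun x hx y hxy => ?_⟩, ?_⟩⟩
      · have h1 := hg.2.1 x
        unfold exa at h1 ⊢
        by_cases hx : x ∈ V
        · simp [hx]
        · rw [if_neg hx] at h1 ⊢
          have h2 : g x = a x := h1
          show g x + m = a x + m
          rw [h2]
      · have := hg.2.2 x hx y hxy
        simpa using this
      · funext x
        have := congrFun e x
        simp only at this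
        omega
      · have h1 := hg.2.1 x
        unfold exa at h1 ⊢
        by_cases hx : x ∈ V
        · simp [hx]
        · rw [if_neg hx] at h1 ⊢
          have h2 : g x = a x + m := h1
          show g x - m = a x
          rw [h2]; ring
      · have := hg.2.2 x hx y hxy
        simpa using this
      · funext x
        simp
    have hda : Dat V (exa V a) := by
      refine ⟨hV, fun x hx => ?_, hV.subset fun x hx => ?_⟩
      · unfold exa; rw [if_neg hx]; exact Set.finite_singleton _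
      · by_contra hc
        apply hx
        unfold exa
        rw [if_neg hc]
        exact Set.subsingleton_singleton
    have hda' : Dat V (exa V (fun x => a x + m)) := by
      refine ⟨hV, fun x hx => ?_, hV.subset fun x hx => ?_⟩
      · unfold exa; rw [if_neg hx]; exact Set.finite_singleton _
      · by_contra hc
        apply hx
        unfold exa
        rw [if_neg hc]
        exact Set.subsingleton_singleton
    have hmem : a ∈ Cfg V (exa V a) := by
      refine ⟨ha.1, fun x => ?_, ha.2.2⟩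
      unfold exa
      split_ifs <;> simp
    have h3 := h (fun x => a x + m) ⟨_, hb.mapsTo hmem⟩ (fun x hx => by
      have h4 := ha.2.1 x
      rw [frd_bd hx] at h4
      simp only [Set.mem_insert_iff, Set.mem_singleton_iff] at h4
      have h5 : (fun x => a x + m) x = a x + m := rfl
      rw [h5]
      constructor <;> rcases h4 with h4 | h4 <;> omega)
    refine h3.trans (le_of_eq ?_)
    rw [Pr_eq_Ex (Cfg_finite hda), Pr_eq_Ex (Cfg_finite hda'), Ex_bij _ hb]
    refine Ex_congr fun g _ => ?_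
    unfold ind
    simp only [Set.mem_ofPred_eq, CluL_shift m])
  rw [Pr_univ hS (frd_nonempty V), univ_inter, mul_one] at key
  exact key

/-- Increasing in the cluster: smaller starting sets. -/
theorem lay_bx {p : Pt} {r a b : ℤ} (hr : 0 ≤ r) (ha : 0 ≤ a) (hb : 0 ≤ b) {x : Pt} :
    x ∈ lay (bx p r) a b ↔ r + a < sd p x ∧ sd p x ≤ r + b := by
  unfold lay
  rw [thk_bx hr ha, thk_bx hr hb, Set.mem_sdiff, mem_bx_iff, mem_bx_iff]
  constructor
  · rintro ⟨h1, h2⟩
    exact ⟨by omega, h1⟩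
  · rintro ⟨h1, h2⟩
    exact ⟨h2, by omega⟩

/-- The basic estimate: a layer of width `l` around `bx p l`, free of walls, is missed. -/
theorem layer_ge {R s₀ : ℤ} {c : ℝ} (hR : 1 ≤ R) (hs₀ : 1 ≤ s₀) (hc : 0 < c) (h1 : OneS R s₀ c)
    (n : ℕ) : ∃ c' : ℝ, 0 < c' ∧ ∀ l, 2 * (2 * R + 7) * s₀ ≤ l → ∀ (p : Pt) (V : Set Pt),
      V.Finite → (∀ x, l < sd p x → sd p x ≤ (4 * n + 10) * l → x ∈ V) →
      c' ≤ Pr (Cfg V (frd V 0)) {h | Disjoint (CluL (-(2 * n)) Vᶜ h)
        {x | (2 * n + 5) * l < sd p x ∧ sd p x ≤ (2 * n + 6) * l}} := by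
  obtain ⟨c', hc', h2⟩ := F2.r0_aux hR hs₀ hc h1 (2 * (2 * R + 7) * (4 * n + 10)) n
  refine ⟨c', hc', fun l hl p V hV hlay => ?_⟩
  have hD : 1 ≤ 2 * R + 7 := by omega
  set D := 2 * R + 7 with hDdef
  set s := l / D with hs
  have hmod := Int.emod_add_mul_ediv l D
  have hmod1 := Int.emod_nonneg l (show D ≠ 0 by omega)
  have hmod2 := Int.emod_lt_of_pos l (show 0 < D by omega)
  rw [← hs] at hmod
  have hs1 : D * s ≤ l := by linarith
  have hs2 : l < D * s + D := by linarith
  have hss : s₀ ≤ s := by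
    rw [hs, Int.le_ediv_iff_mul_le (by omega)]
    nlinarith
  have hl1 : l ≤ 2 * D * s := by nlinarith
  have hl0 : 0 ≤ l := by nlinarith
  have hn0 : (0 : ℤ) ≤ n := Int.natCast_nonneg n
  refine Pr_free_ge hV (even_two_mul _) rfl (fun η hη hb => ?_)
  have key := h2 s hss p (bx p l) V η 0 ((4 * n + 9) * l) l (fun x hx => ?_) le_rfl ?_ ?_ ?_ hV ?_
    hη hb
  · refine key.trans (Pr_mono fun g _ hg => ?_)
    have hg' : Disjoint (CluL 0 Vᶜ g) (lay (bx p l) (0 + (2 * n + 4) * l)
      ((4 * n + 9) * l - (2 * n + 4) * l)) := hg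
    refine hg'.mono_right fun x hx => ?_
    rw [lay_bx hl0 (by positivity) (by nlinarith)]
    obtain ⟨h3, h4⟩ := hx
    constructor
    · calc l + (0 + (2 * n + 4) * l) = (2 * n + 5) * l := by ring
        _ < _ := h3
    · calc sd p x ≤ (2 * n + 6) * l := h4
        _ = l + ((4 * n + 9) * l - (2 * n + 4) * l) := by ring
  · rw [mem_bx_iff] at hx ⊢
    nlinarith
  · exact hs1
  · nlinarith
  · nlinarith
  · intro x hx
    rw [lay_bx hl0 le_rfl (by positivity)] at hx
    refine hlay x (by linarith [hx.1]) ?_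
    calc sd p x ≤ l + (4 * n + 9) * l := hx.2
      _ = (4 * n + 10) * l := by ring

end Vale.Agent.P153.R2.RD
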