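import Vale.Agent.P153.R2.RDEC.Avg
import Vale.Agent.P153.Bd5.B10

/-!
# P153-R2, block RDEC: fourth moments of linear functionals in the free laws
-/

namespace Vale.Agent.P153.R2.RD

open Set Relation
open Vale.Agent.P153 Vale.Agent.P153.R2
open Vale.Agent.P153.Topo (Conn)
open Vale.Agent.P153.F.PL (fl ce card_mid tail_iter Ck pow_le_layers ck_nonneg summable_ck)
open scoped Classical

variable {V : Set Pt}

/-- Doubling. -/
def dbl (u : Hg) : Hg := fun x => 2 * u x + 1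

theorem dbl_inj : Function.Injective dbl := by
  intro u v h
  funext x
  have := congrFun h x
  unfold dbl at this
  omega

theorem dbl_near {V : Set Pt} {u v w : Hg} (hw : w = fl u v ∨ w = ce u v)
    (hu : dbl u ∈ Cfg V (frd V 0)) (hv : dbl v ∈ Cfg V (frd V 0)) : dbl w ∈ Cfg V (frd V 0) := by
  have hwx : ∀ x, w x = (u x + v x) / 2 ∨ w x = (u x + v x + 1) / 2 := by
    intro x
    rcases hw with rfl | rfl
    · exact Or.inl rfl
    · exact Or.inr rfl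
  refine ⟨fun x => ⟨w x, rfl⟩, fun x => ?_, fun x hx y hxy => ?_⟩
  · have h1 := hu.2.1 x
    have h2 := hv.2.1 x
    by_cases hx : x ∈ V
    · rw [frd_in hx]; exact Set.mem_univ _
    · by_cases hx2 : x ∈ ebd V
      · rw [frd_bd hx2] at h1 h2 ⊢
        have h1' : dbl u x = -1 ∨ dbl u x = 1 := h1
        have h2' : dbl v x = -1 ∨ dbl v x = 1 := h2
        show dbl w x = -1 ∨ dbl w x = 1
        unfold dbl at h1' h2' ⊢
        rcases hwx x with h3 | h3 <;> omega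
      · rw [frd_far hx hx2] at h1 h2 ⊢
        have h1' : dbl u x = 1 := h1
        have h2' : dbl v x = 1 := h2
        show dbl w x = 1
        unfold dbl at h1' h2' ⊢
        rcases hwx x with h3 | h3 <;> omega
  · have h1 := hu.2.2 x hx y hxy
    have h2 := hv.2.2 x hx y hxy
    unfold dbl at h1 h2 ⊢
    rw [abs_le] at h1 h2 ⊢
    rcases hw with rfl | rfl
    · unfold fl
      omega
    · unfold ce
      omega

theorem lin_near {Z : Finset Pt} {a : Pt → ℝ} {u v w : Hg} (hw : w = fl u v ∨ w = ce u v) :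
    (lin Z a (dbl u) + lin Z a (dbl v)) / 2 - ∑ x ∈ Z, |a x| ≤ lin Z a (dbl w) := by
  have hwx : ∀ x, w x = (u x + v x) / 2 ∨ w x = (u x + v x + 1) / 2 := by
    intro x
    rcases hw with rfl | rfl
    · exact Or.inl rfl
    · exact Or.inr rfl
  unfold lin
  rw [← Finset.sum_add_distrib, Finset.sum_div, ← Finset.sum_sub_distrib]
  refine Finset.sum_le_sum fun x _ => ?_
  have h1 : |2 * dbl w x - (dbl u x + dbl v x)| ≤ 2 := by
    unfold dbl
    rw [abs_le]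
    rcases hwx x with h3 | h3 <;> omega
  have h2 : |2 * (dbl w x : ℝ) - ((dbl u x : ℝ) + dbl v x)| ≤ 2 := by exact_mod_cast h1
  have h3 : |a x * (2 * (dbl w x : ℝ) - ((dbl u x : ℝ) + dbl v x))| ≤ |a x| * 2 := by
    rw [abs_mul]
    exact mul_le_mul_of_nonneg_left h2 (abs_nonneg _)
  have h4 := (abs_le.1 h3).1
  nlinarith

theorem ncard_dbl {S : Set Hg} (hS : ∀ h ∈ S, ∀ x, Odd (h x)) :
    ({u | dbl u ∈ S} : Set Hg).ncard = S.ncard := by
  rw [← Set.ncard_image_of_injective _ dbl_inj]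
  congr 1
  ext h
  constructor
  · rintro ⟨u, hu, rfl⟩
    exact hu
  · intro hh
    have e : dbl (fun x => (h x - 1) / 2) = h := by
      funext x
      obtain ⟨k, hk⟩ := hS h hh x
      show 2 * ((h x - 1) / 2) + 1 = h x
      omega
    exact ⟨fun x => (h x - 1) / 2, by show dbl _ ∈ S; rw [e]; exact hh, e⟩

/-- The midpoint inequality for the tails. -/
theorem tail_mid (hV : V.Finite) (Z : Finset Pt) (a : Pt → ℝ) (t s : ℝ) :
    Pr (Cfg V (frd V 0)) {h | t ≤ lin Z a h} * Pr (Cfg V (frd V 0)) {h | s ≤ lin Z a h} ≤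
      Pr (Cfg V (frd V 0)) {h | (t + s) / 2 - ∑ x ∈ Z, |a x| ≤ lin Z a h} ^ 2 := by
  have hS := Cfg_finite (frd_dat hV)
  set S := Cfg V (frd V 0) with hSd
  unfold Pr
  rw [div_mul_div_comm, div_pow, sq (S.ncard : ℝ)]
  refine div_le_div_of_nonneg_right ?_ (by positivity)
  rw [sq]
  have hodd : ∀ A : Set Hg, ∀ h ∈ S ∩ A, ∀ x, Odd (h x) := fun A h hh => hh.1.1
  rw [← ncard_dbl (hodd _), ← ncard_dbl (hodd _), ← ncard_dbl (hodd _)]
  have hfin : ∀ A : Set Hg, ({u | dbl u ∈ S ∩ A} : Set Hg).Finite := fun A =>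
    (hS.inter_of_left A).preimage dbl_inj.injOn
  refine card_mid (D := (nb_finite hV).toFinset) (hfin _) (hfin _) (hfin _) (hfin _) ?_ ?_ ?_
  · rintro u hu x hx
    have hx' : x ∉ nb V := by simpa using hx
    have h1 : dbl u ∈ S := by
      rcases hu with hu | hu
      · exact hu.1
      · exact hu.1
    have h2 := h1.2.1 x
    rw [frd_far (fun h => hx' (Or.inl h)) (fun h => hx' (Or.inr h))] at h2
    have h3 : dbl u x = 1 := h2
    unfold dbl at h3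
    omega
  · intro u hu v hv
    refine ⟨dbl_near (Or.inl rfl) hu.1 hv.1, ?_⟩
    have h1 : t ≤ lin Z a (dbl u) := hu.2
    have h2 : s ≤ lin Z a (dbl v) := hv.2
    have h3 := lin_near (Z := Z) (a := a) (u := u) (v := v) (w := fl u v) (Or.inl rfl)
    show (t + s) / 2 - ∑ x ∈ Z, |a x| ≤ lin Z a (dbl (fl u v))
    linarith
  · intro u hu v hv
    refine ⟨dbl_near (Or.inr rfl) hu.1 hv.1, ?_⟩
    have h1 : t ≤ lin Z a (dbl u) := hu.2
    have h2 : s ≤ lin Z a (dbl v) := hv.2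
    have h3 := lin_near (Z := Z) (a := a) (u := u) (v := v) (w := ce u v) (Or.inr rfl)
    show (t + s) / 2 - ∑ x ∈ Z, |a x| ≤ lin Z a (dbl (ce u v))
    linarith

/-- Chebyshev. -/
theorem cheb {α : Type*} {S : Set α} (hS : S.Finite) (X : α → ℝ) {t : ℝ} (ht : 0 < t) :
    Pr S {h | t ≤ |X h|} ≤ Ex S (fun h => X h ^ 2) / t ^ 2 := by
  rw [le_div_iff₀ (by positivity), Pr_eq_Ex hS, mul_comm, ← Ex_const_mul]
  refine Ex_mono fun h _ => ?_
  unfold ind
  split_ifs with h1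
  · rw [mul_one, ← sq_abs (X h)]
    exact pow_le_pow_left₀ ht.le h1 2
  · rw [mul_zero]; positivity

/-- The tails. -/
theorem tail_one (hV : V.Finite) (Z : Finset Pt) (a : Pt → ℝ) {t₀ : ℝ} (ht : 0 < t₀)
    (h2 : 16 * Ex (Cfg V (frd V 0)) (fun h => lin Z a h ^ 2) ≤ t₀ ^ 2) (j : ℕ) :
    Pr (Cfg V (frd V 0)) {h | 2 ^ j * (2 * t₀ + 2 * ∑ x ∈ Z, |a x|) ≤ lin Z a h} ≤
      (1 / 15 : ℝ) ^ 2 ^ j := by
  have hS := Cfg_finite (frd_dat hV)
  set S := Cfg V (frd V 0) with hSd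
  have hn : S.Nonempty := frd_nonempty V
  have hc := cheb hS (lin Z a) ht
  have hc' : Pr S {h | t₀ ≤ |lin Z a h|} ≤ 1 / 16 := by
    refine hc.trans ?_
    rw [div_le_iff₀ (by positivity)]
    linarith
  refine tail_iter (F := fun t => Pr S {h | t ≤ lin Z a h}) (c := ∑ x ∈ Z, |a x|) (t₀ := t₀)
    (fun t => Pr_nonneg _ _) (fun t s hts => Pr_mono fun h _ hh => ?_) 
    (Finset.sum_nonneg fun _ _ => abs_nonneg _) ht.le (fun t s => tail_mid hV Z a t s)
    ((Pr_mono fun h _ hh => ?_).trans hc') ?_ j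
  · exact le_trans hts hh
  · have h1 : t₀ ≤ lin Z a h := hh
    exact h1.trans (le_abs_self _)
  · have h1 := Pr_add_compl hS hn {h | t₀ ≤ |lin Z a h|}
    have h3 : Pr S {h | t₀ ≤ |lin Z a h|}ᶜ ≤ Pr S {h | -t₀ ≤ lin Z a h} := Pr_mono fun h _ hh => by
      have h4 : ¬ t₀ ≤ |lin Z a h| := hh
      push Not at h4
      exact (abs_lt.1 h4).1.le
    show 15 / 16 ≤ Pr S {h | -t₀ ≤ lin Z a h}
    linarith

theorem lin_neg (Z : Finset Pt) (a : Pt → ℝ) (h : Hg) : lin Z (fun x => -a x) h = -lin Z a h := by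
  unfold lin
  rw [← Finset.sum_neg_distrib]
  exact Finset.sum_congr rfl fun x _ => by ring

/-- **Moments** from the second moment. -/
theorem mom_all (hV : V.Finite) (Z : Finset Pt) (a : Pt → ℝ) {t₀ : ℝ} (ht : 0 < t₀)
    (h2 : 16 * Ex (Cfg V (frd V 0)) (fun h => lin Z a h ^ 2) ≤ t₀ ^ 2) (k : ℕ) :
    Ex (Cfg V (frd V 0)) (fun h => lin Z a h ^ (2 * k)) ≤
      (2 * t₀ + 2 * ∑ x ∈ Z, |a x|) ^ (2 * k) * Ck k := by
  have hS := Cfg_finite (frd_dat hV)
  set S := Cfg V (frd V 0) with hSd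
  have hn : S.Nonempty := frd_nonempty V
  set b := 2 * t₀ + 2 * ∑ x ∈ Z, |a x| with hb
  have hs0 : 0 ≤ ∑ x ∈ Z, |a x| := Finset.sum_nonneg fun _ _ => abs_nonneg _
  have hb0 : 0 < b := by rw [hb]; linarith
  have tail : ∀ j : ℕ, Pr S {h | 2 ^ j * b ≤ |lin Z a h|} ≤ 2 * (1 / 15 : ℝ) ^ 2 ^ j := by
    intro j
    have t1 := tail_one hV Z a ht h2 j
    have t2 := tail_one hV Z (fun x => -a x) ht (by
      refine le_trans (le_of_eq ?_) h2
      congr 1
      exact Ex_congr fun h _ => by rw [lin_neg]; ring) j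
    simp only [abs_neg, lin_neg] at t2
    have h3 : Pr S {h | 2 ^ j * b ≤ |lin Z a h|} ≤
        Pr S ({h | 2 ^ j * b ≤ lin Z a h} ∪ {h | 2 ^ j * b ≤ -lin Z a h}) :=
      Pr_mono fun h _ hh => by
        have h4 : 2 ^ j * b ≤ |lin Z a h| := hh
        exact le_abs.1 h4
    have := h3.trans (Pr_union_le _ _ _)
    linarith
  -- the largest scale
  obtain ⟨M, hM⟩ : ∃ M : ℝ, ∀ h ∈ S, |lin Z a h| ≤ M := by
    have : ((fun h => |lin Z a h|) '' S).Finite := hS.image _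
    obtain ⟨M, hM⟩ := this.bddAbove
    exact ⟨M, fun h hh => hM ⟨h, hh, rfl⟩⟩
  obtain ⟨J, hJ⟩ : ∃ J : ℕ, M < 2 ^ J * b := by
    obtain ⟨J, hJ⟩ := pow_unbounded_of_one_lt (M / b) (one_lt_two (α := ℝ))
    exact ⟨J, by rwa [div_lt_iff₀ hb0] at hJ⟩
  have h1 : Ex S (fun h => lin Z a h ^ (2 * k)) ≤ Ex S (fun h => b ^ (2 * k) *
      (1 + ∑ j ∈ Finset.range J, (2 * (2 : ℝ) ^ j) ^ (2 * k) *
        ind {h | 2 ^ j * b ≤ |lin Z a h|} h)) := by
    refine Ex_mono fun h hh => ?_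
    have h3 := pow_le_layers (abs_nonneg (lin Z a h)) hb0 k J (lt_of_le_of_lt (hM h hh) hJ)
    rw [pow_mul, sq_abs, ← pow_mul] at h3
    refine h3.trans (le_of_eq ?_)
    unfold ind
    simp only [Set.mem_ofPred_eq]
  refine h1.trans ?_
  rw [Ex_const_mul, Ex_add, Ex_const hS hn, Ex_sum]
  refine mul_le_mul_of_nonneg_left ?_ (by positivity)
  unfold Ck
  refine add_le_add le_rfl ?_
  refine le_trans (Finset.sum_le_sum fun j _ => ?_) (Summable.sum_le_tsum (Finset.range J)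
    (fun j _ => by positivity) (summable_ck k))
  rw [Ex_const_mul, ← Pr_eq_Ex hS]
  exact mul_le_mul_of_nonneg_left (tail j) (by positivity)

/-- **Fourth moments.** -/
theorem mom4 : ∃ C : ℝ, 0 ≤ C ∧ ∀ (V : Set Pt), V.Finite → ∀ (Z : Finset Pt) (a : Pt → ℝ),
    Ex (Cfg V (frd V 0)) (fun h => lin Z a h ^ 4) ≤
      C * (Ex (Cfg V (frd V 0)) (fun h => lin Z a h ^ 2) + (∑ x ∈ Z, |a x|) ^ 2 + 1) ^ 2 := by
  refine ⟨10 ^ 4 * Ck 2, by have := ck_nonneg 2; positivity, fun V hV Z a => ?_⟩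
  set E2 := Ex (Cfg V (frd V 0)) (fun h => lin Z a h ^ 2) with hE
  set s := ∑ x ∈ Z, |a x| with hs
  have hE0 : 0 ≤ E2 := Ex_nonneg fun h _ => sq_nonneg _
  have hs0 : 0 ≤ s := Finset.sum_nonneg fun _ _ => abs_nonneg _
  set Y := E2 + s ^ 2 + 1 with hY
  have hY1 : 1 ≤ Y := by rw [hY]; nlinarith [sq_nonneg s]
  have hsq : √Y ^ 2 = Y := Real.sq_sqrt (by linarith)
  have hsY : s ≤ √Y := by
    rw [show s = √(s ^ 2) from (Real.sqrt_sq hs0).symm]
    exact Real.sqrt_le_sqrt (by rw [hY]; linarith)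
  have hY0 : 0 < √Y := Real.sqrt_pos.2 (by linarith)
  have key := mom_all hV Z a (t₀ := 4 * √Y) (by linarith) (by rw [mul_pow, hsq, ← hE]; nlinarith [sq_nonneg s]) 2
  refine key.trans ?_
  have h1 : (2 * (4 * √Y) + 2 * s) ^ (2 * 2) ≤ (10 * √Y) ^ (2 * 2) :=
    pow_le_pow_left₀ (by linarith) (by linarith) _
  have h2 : (10 * √Y) ^ (2 * 2) = 10 ^ 4 * Y ^ 2 := by
    rw [mul_pow, show (2 * 2 : ℕ) = 4 from rfl, show √Y ^ 4 = (√Y ^ 2) ^ 2 by ring, hsq]
  rw [h2] at h1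
  calc (2 * (4 * √Y) + 2 * s) ^ (2 * 2) * Ck 2 ≤ 10 ^ 4 * Y ^ 2 * Ck 2 :=
        mul_le_mul_of_nonneg_right h1 (ck_nonneg 2)
    _ = 10 ^ 4 * Ck 2 * Y ^ 2 := by ring

end Vale.Agent.P153.R2.RD
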