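import Vale.Agent.P153.Bd5.B28

/-!
P153, block RDEC-P (helper435), part 1: the four spins of the plane measure `Q` (`tau`, `- sigma`,
`- tau`, `sigma`) are positively associated, and all dominate `- tau`.
-/

namespace Vale.Agent.P153.R2.RDEC

open MeasureTheory Filter Topology Finset
open Vale.Agent.P153 Vale.Agent.P153.F.RSW
open Vale.Agent.P153.A (Pt Sp Om IsQ tau E2 bx)

/-- The free spin is positively associated. -/
theorem EN_assoc (R : ℕ) {f g : Sp → ℝ} (hf : Monotone f) (hg : Monotone g) :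
    EN R f * EN R g ≤ EN R fun τ => f τ * g τ := by
  classical
  set T := (fr_finite R).toFinset with hT
  have hmem : ∀ {a}, a ∈ T ↔ a ∈ Fr R := by
    intro a
    rw [hT, Set.Finite.mem_toFinset]
  have hZ : 0 < ∑ τ ∈ T, (A.w (bx R) τ : ℝ) := by
    refine Finset.sum_pos (fun τ _ => by exact_mod_cast w_pos _ τ) ⟨fun _ => true, ?_⟩
    rw [hT, Set.Finite.mem_toFinset]
    exact fun _ _ => rfl
  have key := fkg_gen' T (fun τ => (A.w (bx R) τ : ℝ)) (fun _ => Nat.cast_nonneg _)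
    (fun a ha b hb => hmem.2 fun x hx => by
      rw [Pi.sup_apply, hmem.1 ha x hx]
      rfl)
    (fun a ha b hb => hmem.2 fun x hx => by
      rw [Pi.inf_apply, hmem.1 ha x hx, hmem.1 hb x hx]
      rfl)
    (fun a _ b _ => by exact_mod_cast w_super R a b) f g hf hg
  unfold EN
  rw [div_mul_div_comm, div_le_div_iff₀ (mul_pos hZ hZ) hZ]
  nlinarith [mul_le_mul_of_nonneg_left key hZ.le]

variable {Q : Measure Om}

/-- Positive association of `σ` in the plane. -/
theorem assoc_sigma (hQ : IsQ Q) {B : Finset Pt} {f g : Sp → ℝ} (hf : Monotone f)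
    (hg : Monotone g) (hfB : A.Loc B f) (hgB : A.Loc B g) :
    (∫ ω, f (fun x => (ω x).2) ∂Q) * ∫ ω, g (fun x => (ω x).2) ∂Q ≤
      ∫ ω, f (fun x => (ω x).2) * g (fun x => (ω x).2) ∂Q := by
  have l : ∀ u : Sp → ℝ, A.Loc B u → A.Loc B (fun ω : Om => u fun x => (ω x).2) :=
    fun u hu ω ω' h => hu _ _ fun x hx => by rw [h x hx]
  have hfg : A.Loc B fun t : Sp => f t * g t := fun t t' h => by
    show f t * g t = f t' * g t'
    rw [hfB t t' h, hgB t t' h]
  have h1 := (hQ.lim _ _ (l f hfB)).comp tendsto_bx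
  have h2 := (hQ.lim _ _ (l g hgB)).comp tendsto_bx
  have h3 := (hQ.lim _ _ (l _ hfg)).comp tendsto_bx
  refine le_of_tendsto_of_tendsto (h1.mul h2) h3 ?_
  obtain ⟨M, hM⟩ := L1.exists_box B
  filter_upwards [eventually_ge_atTop M.toNat] with R hR'
  have hBR : B ⊆ bx (R + 1) := fun x hx => by
    have h3 := hM x hx
    rw [mem_bx]
    push_cast
    omega
  simp only [Function.comp_apply]
  rw [E2_eq_EN hBR hfB, E2_eq_EN hBR hgB, E2_eq_EN hBR hfg]
  exact EN_assoc R hf hg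

/-- Association passes to the opposite spin. -/
theorem assoc_not {B : Finset Pt} {u : Om → Sp}
    (h : ∀ f g : Sp → ℝ, Monotone f → Monotone g → A.Loc B f → A.Loc B g →
      (∫ ω, f (u ω) ∂Q) * ∫ ω, g (u ω) ∂Q ≤ ∫ ω, f (u ω) * g (u ω) ∂Q)
    {f g : Sp → ℝ} (hf : Monotone f) (hg : Monotone g) (hfB : A.Loc B f) (hgB : A.Loc B g) :
    (∫ ω, f (fun x => !(u ω x)) ∂Q) * ∫ ω, g (fun x => !(u ω x)) ∂Q ≤
      ∫ ω, f (fun x => !(u ω x)) * g (fun x => !(u ω x)) ∂Q := by
  have hm : ∀ f : Sp → ℝ, Monotone f → Monotone fun t : Sp => -f fun x => !(t x) := by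
    intro f hf a b hab
    refine neg_le_neg (hf fun x => ?_)
    have h1 : a x ≤ b x := hab x
    have h3 : ∀ u v : Bool, u ≤ v → (!v) ≤ !u := by decide
    exact h3 _ _ h1
  have hl : ∀ f : Sp → ℝ, A.Loc B f → A.Loc B fun t : Sp => -f fun x => !(t x) :=
    fun f hB ω ω' h => by
      dsimp only
      rw [hB _ _ fun x hx => by rw [h x hx]]
  have key := h _ _ (hm f hf) (hm g hg) (hl f hfB) (hl g hgB)
  simp only [integral_neg, neg_mul_neg] at key
  exact key

/-- The four spins. -/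
def col (r : Fin 4) (ω : Om) : Sp := fun x =>
  match r with
  | 0 => (ω x).1
  | 1 => !(ω x).2
  | 2 => !(ω x).1
  | 3 => (ω x).2

theorem col_loc (r : Fin 4) (B : Finset Pt) (ω ω' : Om) (h : ∀ x ∈ B, ω x = ω' x) :
    ∀ x ∈ B, col r ω x = col r ω' x := fun x hx => by
  unfold col
  rw [h x hx]

/-- **Association of the four spins.** -/
theorem assoc_col (hQ : IsQ Q) (r : Fin 4) {B : Finset Pt} {f g : Sp → ℝ} (hf : Monotone f)
    (hg : Monotone g) (hfB : A.Loc B f) (hgB : A.Loc B g) :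
    (∫ ω, f (col r ω) ∂Q) * ∫ ω, g (col r ω) ∂Q ≤ ∫ ω, f (col r ω) * g (col r ω) ∂Q := by
  fin_cases r
  · exact assoc_tau hQ hf hg hfB hgB
  · exact assoc_not (B := B) (fun f g hf hg hfB hgB => assoc_sigma hQ hf hg hfB hgB) hf hg hfB hgB
  · exact assoc_not (B := B) (fun f g hf hg hfB hgB => assoc_tau hQ hf hg hfB hgB) hf hg hfB hgB
  · exact assoc_sigma hQ hf hg hfB hgB

/-- **All the spins dominate `- tau`.** -/
theorem dom_col (hQ : IsQ Q) (r : Fin 4) {B : Finset Pt} {f : Sp → ℝ} (hf : Monotone f)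
    (hfB : A.Loc B f) : ∫ ω, f (col 2 ω) ∂Q ≤ ∫ ω, f (col r ω) ∂Q := by
  have hm : Monotone fun t : Sp => -f fun x => !(t x) := by
    intro a b hab
    refine neg_le_neg (hf fun x => ?_)
    have h1 : a x ≤ b x := hab x
    have h3 : ∀ u v : Bool, u ≤ v → (!v) ≤ !u := by decide
    exact h3 _ _ h1
  have hl : A.Loc B fun t : Sp => -f fun x => !(t x) := fun ω ω' h => by
    dsimp only
    rw [hfB _ _ fun x hx => by rw [h x hx]]
  have h1 : ∫ ω, f (fun x => !(tau ω x)) ∂Q ≤ ∫ ω, f (fun x => !(ω x).2) ∂Q := by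
    have h2 := dom_sigma hQ hm hl
    rw [integral_neg, integral_neg, neg_le_neg_iff] at h2
    exact h2
  have h2 : ∫ ω, f (fun x => !((fun x => (ω x).2) x)) ∂Q = ∫ ω, f (fun x => (ω x).2) ∂Q := by
    conv_rhs => rw [← (A.s_sym Q hQ).2.1]
    rw [integral_map]
    · rfl
    · exact (measurable_neg').aemeasurable
    · exact (loc_meas hfB).aestronglyMeasurable
  fin_cases r
  · exact dom_neg A.s_sym hQ hf hfB
  · exact h1
  · exact le_rfl
  · exact h1.trans (le_of_eq h2)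

end Vale.Agent.P153.R2.RDEC
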