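import Vale.Agent.P153.Bd5.B29
import Vale.Agent.P153.R2.RDEC.P1
import Vale.Agent.P153.R2.RDEC.P2

/-!
P153, block RDEC-P (helper435), part 3: under the plane measure, with probability close to one the
closed edges of each of the four spins confine a box in a box of large relative size.
-/

namespace Vale.Agent.P153.R2.RDEC

open MeasureTheory Filter Topology Relation
open Vale.Agent.P153 Vale.Agent.P153.F Vale.Agent.P153.F.X Vale.Agent.P153.F.RSW
open Vale.Agent.P153.F.X.PosT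
open Vale.Agent.P153.GFF (Plane SpecOut RowCLT)
open Vale.Agent.P153.A (Sp IsQ tau rc cd)
open Vale.Agent.P153.F (Pt)

/-! ### Confinement as a local increasing event -/

/-- Locality of confinement. -/
theorem conf_local {B B' S : Set Pt} {p : Pt} {R : ℤ}
    (h : ∀ w ∈ tE (X.bx p R), w ∈ B → w ∈ B') (hB : X.Conf B S (X.bx p R)) :
    X.Conf B' S (X.bx p R) := by
  intro x hx y hy
  have key : y ∈ X.bx p R ∧ ReflTransGen (stp B) x y := by
    induction hy with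
    | refl => exact ⟨hB x hx x ReflTransGen.refl, ReflTransGen.refl⟩
    | @tail u v _ huv ih =>
      have h1 : stp B u v := ⟨huv.1, fun h2 => huv.2 (h _ ⟨u, ih.1, v, huv.1, rfl⟩ h2)⟩
      exact ⟨hB x hx v (ih.2.tail h1), ih.2.tail h1⟩
  exact key.1

theorem IL_Conf (p : Pt) (s R : ℤ) : IL (fun S => X.Conf S (X.bx p s) (X.bx p R)) := by
  refine ⟨fun S T hST hS => conf_local (fun w _ hw => hST hw) hS, 2 * (|p.1| + |p.2| + |R|) + 2, fun S T hST hS =>
    conf_local (fun w hw => ?_) hS⟩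
  obtain ⟨x, ⟨hx1, hx2⟩, y, hxy, rfl⟩ := hw
  rw [Topo.adj_iff] at hxy
  refine (hST _ ?_ ?_).1
  · rw [Prod.fst_add, abs_le]
    rw [abs_le] at hx1
    have h1 := abs_le.1 (le_refl |p.1|)
    have h2 := abs_nonneg p.2
    have h3 := le_abs_self R
    omega
  · rw [Prod.snd_add, abs_le]
    rw [abs_le] at hx2
    have h1 := abs_le.1 (le_refl |p.2|)
    have h2 := abs_nonneg p.1
    have h3 := le_abs_self R
    omega

/-- If some path avoids `C` and goes where `B` does not let go, then it uses an edge of `B`. -/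
theorem uses {C B : Set Pt} {x y : Pt} (h : ReflTransGen (stp C) x y)
    (h' : ¬ ReflTransGen (stp B) x y) :
    ∃ u v, ReflTransGen (stp C) x u ∧ stp C u v ∧ u + v ∈ B := by
  induction h with
  | refl => exact absurd ReflTransGen.refl h'
  | @tail u v hu huv ih =>
    by_cases h1 : ReflTransGen (stp B) x u
    · by_cases h2 : u + v ∈ B
      · exact ⟨u, v, hu, huv, h2⟩
      · exact absurd (h1.tail ⟨huv.1, h2⟩) h'
    · exact ih h1

/-! ### Levels -/

/-- The edge with midpoint `u + v`. -/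
theorem v_of {u v : Pt} (h : Adj u v) : u + v ∈ Mid ∧
    ((v1 (u + v) = u ∧ v2 (u + v) = v) ∨ (v1 (u + v) = v ∧ v2 (u + v) = u)) := by
  obtain ⟨a, b⟩ := u
  obtain ⟨c, d⟩ := v
  rw [Topo.adj_iff] at h
  have h0 : ((a, b) : Pt) + (c, d) ∈ Mid := by
    show Odd _ ∨ Odd _
    rw [Int.odd_iff, Int.odd_iff]
    simp only [Prod.mk_add_mk] at h ⊢
    omega
  refine ⟨h0, ?_⟩
  simp only [v1, v2, Prod.mk_add_mk, Prod.mk.injEq] at h ⊢
  omega

theorem mem_Wp {t : Sp} {u v : Pt} (h : Adj u v) : u + v ∈ Wp t ↔ t u = true ∧ t v = true := by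
  obtain ⟨h0, h1 | h1⟩ := v_of h
  · unfold Wp
    simp only [Set.mem_ofPred_eq, h1.1, h1.2, h0, true_and]
  · unfold Wp
    simp only [Set.mem_ofPred_eq, h1.1, h1.2, h0, true_and]
    exact and_comm

theorem fh_tau {ω : A.Om} (h : A.Comp ω) (x : Pt) :
    tau ω x = true ↔ (fh ω x % 4 = 0 ∨ fh ω x % 4 = 1) := by
  have h1 := A.s_rc.2.1 ω h x
  have h2 : (tau ω x = true → cd (ω x) = 0 ∨ cd (ω x) = 1) ∧
      (tau ω x = false → cd (ω x) = 2 ∨ cd (ω x) = 3) := by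
    unfold tau cd
    cases (ω x).1 <;> cases (ω x).2 <;> simp
  unfold fh
  cases h3 : tau ω x
  · have := h2.2 h3
    simp only [Bool.false_eq_true, false_iff]
    omega
  · have := h2.1 h3
    simp only [true_iff]
    omega

/-- The level seen along a path which avoids the edges between two minus spins. -/
theorem gl_step {ω : A.Om} (h : A.Comp ω) {u v : Pt}
    (huv : stp (Wp fun x => !(tau ω x)) u v) : (fh ω u + 1) / 4 = (fh ω v + 1) / 4 := by
  have h1 := abs_le.1 (fh_adj h huv.1)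
  have h2 : ¬ ((!(tau ω u)) = true ∧ (!(tau ω v)) = true) := fun h3 =>
    huv.2 ((mem_Wp huv.1).2 h3)
  have h3 := fh_tau h u
  have h4 := fh_tau h v
  have h5 : tau ω u = true ∨ tau ω v = true := by
    cases h6 : tau ω u
    · cases h7 : tau ω v
      · rw [h6, h7] at h2
        simp at h2
      · exact Or.inr rfl
    · exact Or.inl rfl
  rcases h5 with h5 | h5
  · have := h3.1 h5
    omega
  · have := h4.1 h5
    omega

theorem gl_path {ω : A.Om} (h : A.Comp ω) {x y : Pt}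
    (hxy : ReflTransGen (stp (Wp fun x => !(tau ω x))) x y) :
    (fh ω x + 1) / 4 = (fh ω y + 1) / 4 := by
  induction hxy with
  | refl => rfl
  | tail _ h1 ih => exact ih.trans (gl_step h h1)

/-- A path of the other kind crosses a circuit of level `l`. -/
theorem level_of {ω : A.Om} (h : A.Comp ω) {p : Pt} {r l : ℤ} (hr : 1 ≤ r)
    (hZ : Ann p.1 p.2 r (Wp (tau ω) ∩ {z | lv ω z = l})) {x y : Pt} (hx : x ∈ X.bx p r)
    (hy : y ∉ X.bx p (2 * r)) (hxy : ReflTransGen (stp (Wp fun x => !(tau ω x))) x y) :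
    (fh ω x + 1) / 4 = l := by
  set B : Set Pt := Wp (tau ω) ∩ {z | lv ω z = l} with hB
  have hBM : B ∩ Mid = B := Set.inter_eq_left.2 fun z hz => hz.1.1
  have hZ' : Zr p r B := by
    unfold Zr
    rw [hBM]
    exact hZ
  have hc := s_conf p r B hr hZ'
  obtain ⟨u, v, h1, h2, h3⟩ := uses hxy fun h4 => hy (hc x hx y h4)
  rw [gl_path h h1]
  have h5 := (mem_Wp h2.1).1 h3.1
  have h6 : lv ω (u + v) = l := h3.2
  have h7 := (fh_tau h u).1 h5.1
  have h8 := (fh_tau h v).1 h5.2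
  have h9 := abs_le.1 (fh_adj h h2.1)
  unfold PosT.lv at h6
  rcases (v_of h2.1).2 with ⟨e1, -⟩ | ⟨e1, -⟩
  · rw [e1] at h6
    omega
  · rw [e1] at h6
    omega

/-- Two circuits of plus edges crossed by a path avoiding the minus edges. -/
theorem two_circuits {ω : A.Om} (h : A.Comp ω) {p : Pt} {s R : ℤ} (hs : 1 ≤ s) (hR : s ≤ R)
    (h1 : Ann p.1 p.2 s (Wp (tau ω))) (h2 : Ann p.1 p.2 R (Wp (tau ω)))
    (h3 : ¬ X.Conf (Wp fun x => !(tau ω x)) (X.bx p s) (X.bx p (2 * R))) :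
    ∃ k : ℤ, odd k (rc ω) ∈ ZE p s ∩ ZE p R := by
  obtain ⟨l1, hl1⟩ := Ann.lev (lev_Wp h) (by omega) h1
  obtain ⟨l2, hl2⟩ := Ann.lev (lev_Wp h) (by omega) h2
  unfold X.Conf at h3
  push Not at h3
  obtain ⟨x, hx, y, hxy, hy⟩ := h3
  have e1 := level_of h hs hl1 hx (fun h4 => hy ⟨h4.1.trans (by omega), h4.2.trans (by omega)⟩) hxy
  have e2 := level_of h (by omega) hl2 ⟨hx.1.trans hR, hx.2.trans hR⟩ hy hxy
  obtain rfl : l1 = l2 := e1.symm.trans e2
  exact ⟨cd (ω 0) - 4 * l1, (IL_Ann _ _ _).1 _ _ (sub_bl h l1) hl1,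
    (IL_Ann _ _ _).1 _ _ (sub_bl h l1) hl2⟩

/-! ### Probabilities -/

variable {Q : Measure A.Om}

theorem meas_ev {E : Set (ℤ × ℤ) → Prop} (hE : RSW.Loc E) (r : Fin 4) :
    MeasurableSet {ω : A.Om | E (Wp (col r ω))} := by
  classical
  obtain ⟨B, hB⟩ := iw_loc hE
  have hl : A.Loc B (fun ω => iw E (col r ω)) := fun ω ω' h => hB _ _ (col_loc r B ω ω' h)
  have hm := loc_meas' hl
  have : {ω | E (Wp (col r ω))} = (fun ω => iw E (col r ω)) ⁻¹' {1} := by
    ext ω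
    simp only [Set.mem_ofPred_eq, Set.mem_preimage, Set.mem_singleton_iff, iw]
    by_cases h : E (Wp (col r ω)) <;> simp [h]
  rw [this]
  exact hm (measurableSet_singleton 1)

theorem real_col {E : Set (ℤ × ℤ) → Prop} (hE : RSW.Loc E) (r : Fin 4) :
    Q.real {ω | E (Wp (col r ω))} = ∫ ω, iw E (col r ω) ∂Q :=
  real_eq hE (col r) (fun B ω ω' h => col_loc r B ω ω' h)

/-- Union bound over the levels. -/
theorem exists_le (hrc : Measurable rc) {M : Set Hg} (hM : MeasurableSet M) :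
    Q {ω | ∃ k : ℤ, odd k (rc ω) ∈ M} ≤ muT (Q.map rc) M := by
  rw [muT_apply _ hM]
  have h1 : ∀ k : ℤ, (Q.map rc) (odd k ⁻¹' M) = Q {ω | odd k (rc ω) ∈ M} := fun k => by
    rw [Measure.map_apply hrc (measurable_odd k hM)]
    rfl
  simp only [h1]
  have h2 : {ω : A.Om | ∃ k : ℤ, odd k (rc ω) ∈ M} = ⋃ k : ℤ, {ω | odd k (rc ω) ∈ M} := by
    ext ω; simp
  rw [h2]
  exact measure_iUnion_le _

/-- **No circuit of minus edges in a wide annulus: small probability.** -/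
theorem minus_small {κ : ℝ} (hQ : IsQ Q) (hP : Plane (Q.map rc)) (hS : SpecOut (Q.map rc) κ)
    (hC : RowCLT (Q.map rc) κ) (hκ : 0 < κ) {ε : ℝ} (hε : 0 < ε) :
    ∃ M₁ : ℕ, 1 ≤ M₁ ∧ ∀ M : ℕ, M₁ ≤ M → ∃ s₀ : ℤ, 1 ≤ s₀ ∧ ∀ s : ℤ, s₀ ≤ s → ∀ p : Pt,
      Q.real {ω | ¬ X.Conf (Wp (col 2 ω)) (X.bx p s) (X.bx p (2 * (2 * M * s)))} ≤ ε := by
  have hprob := hQ.prob
  have hrc : Measurable rc := A.s_rc.2.2.2.2.2.1
  obtain ⟨c, hc, r0, hr⟩ := r1_ann hQ (AC.acT hP hS hC hκ)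
  obtain ⟨M₁, hM₁, hM⟩ := two_scale hP hS hC hκ (ε := ε * (c * c)) (by positivity)
  refine ⟨M₁, hM₁, fun M hMM => ?_⟩
  obtain ⟨s₀, hs₀, hs⟩ := hM M hMM
  refine ⟨max s₀ (max r0 1), by omega, fun s hss p => ?_⟩
  have hs1 : 1 ≤ s := by omega
  have hM1 : (1 : ℤ) ≤ M := by exact_mod_cast hM₁.trans hMM
  have hsR : s ≤ 2 * M * s := by nlinarith
  set R : ℤ := 2 * M * s with hRdef
  -- the three events
  set EN : Set (ℤ × ℤ) → Prop := fun S => X.Conf S (X.bx p s) (X.bx p (2 * R)) with hEN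
  have hIL : IL EN := IL_Conf p s (2 * R)
  set E2 : Set (ℤ × ℤ) → Prop := fun S => Ann p.1 p.2 s S ∧ Ann p.1 p.2 R S with hE2
  have hIL2 : IL E2 := (IL_Ann _ _ _).and (IL_Ann _ _ _)
  obtain ⟨B1, hB1⟩ := iw_loc hIL.2
  obtain ⟨B2, hB2⟩ := iw_loc (IL_Ann p.1 p.2 s).2
  obtain ⟨B3, hB3⟩ := iw_loc (IL_Ann p.1 p.2 R).2
  set f : Sp → ℝ := fun t => 1 - iw EN (fun x => !(t x)) with hf
  have hfm : Monotone f := by
    intro a b hab
    refine sub_le_sub_left (iw_mono hIL.1 fun x => ?_) _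
    have h1 : a x ≤ b x := hab x
    have h3 : ∀ u v : Bool, u ≤ v → (!v) ≤ !u := by decide
    exact h3 _ _ h1
  have hfB : A.Loc B1 f := fun t t' h => by
    show 1 - iw EN _ = 1 - iw EN _
    rw [hB1 _ _ fun x hx => by rw [h x hx]]
  have hup : ∀ {B B' : Finset Pt} {g : Sp → ℝ}, B ⊆ B' → A.Loc B g → A.Loc B' g :=
    fun hBB hg t t' h => hg _ _ fun x hx => h x (hBB hx)
  have hiwm : ∀ {E : Set (ℤ × ℤ) → Prop}, RSW.Loc E → Measurable fun ω : A.Om => iw E (tau ω) := by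
    intro E hE
    obtain ⟨B, hB⟩ := iw_loc hE
    exact loc_meas' (B := B) fun ω ω' h => hB _ _ fun x hx => by unfold tau; rw [h x hx]
  have hiw01 : ∀ (E : Set (ℤ × ℤ) → Prop) (t : Sp), 0 ≤ iw E t ∧ iw E t ≤ 1 := by
    intro E t
    unfold iw
    split_ifs <;> norm_num
  -- association of the two circuits
  have a1 : c * c ≤ ∫ ω, iw (Ann p.1 p.2 s) (tau ω) * iw (Ann p.1 p.2 R) (tau ω) ∂Q := by
    have h1 := assoc_tau hQ (B := B2 ∪ B3) (iw_mono (IL_Ann p.1 p.2 s).1)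
      (iw_mono (IL_Ann p.1 p.2 R).1) (hup Finset.subset_union_left hB2)
      (hup Finset.subset_union_right hB3)
    have h2 : ∀ r : ℤ, r0 ≤ r → c ≤ ∫ ω, iw (Ann p.1 p.2 r) (tau ω) ∂Q := by
      intro r hr'
      have h3 := hr r hr' p.1 p.2
      have h4 := real_eq (Q := Q) (IL_Ann p.1 p.2 r).2 tau (fun B ω ω' h x hx => by
        unfold tau; rw [h x hx])
      unfold pW at h3
      rwa [h4] at h3
    exact (mul_le_mul (h2 s (by omega)) (h2 R (by omega)) hc.le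
      (hc.le.trans (h2 s (by omega)))).trans h1
  have e12 : ∀ t : Sp, iw (Ann p.1 p.2 s) t * iw (Ann p.1 p.2 R) t = iw E2 t := by
    intro t
    unfold iw
    by_cases h1 : Ann p.1 p.2 s (Wp t) <;> by_cases h2 : Ann p.1 p.2 R (Wp t) <;>
      simp [h1, h2, hE2]
  simp only [e12] at a1
  obtain ⟨B4, hB4⟩ := iw_loc hIL2.2
  have a2 := assoc_tau hQ (B := B1 ∪ B4) hfm (iw_mono hIL2.1)
    (hup Finset.subset_union_left hfB) (hup Finset.subset_union_right hB4)
  -- the product event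
  have a3 : ∫ ω, f (tau ω) * iw E2 (tau ω) ∂Q ≤ ε * (c * c) := by
    have hM' : MeasurableSet (ZE p s ∩ ZE p R) := (meas_ZE _ hs1).inter (meas_ZE _ (by omega))
    have h1 := (exists_le (Q := Q) hrc hM').trans (hs s (by omega) p)
    have h2 : Q.real {ω | ∃ k : ℤ, odd k (rc ω) ∈ ZE p s ∩ ZE p R} ≤ ε * (c * c) :=
      ENNReal.toReal_le_of_le_ofReal (by positivity) h1
    refine le_trans ?_ h2
    have hmE : MeasurableSet {ω : A.Om | ∃ k : ℤ, odd k (rc ω) ∈ ZE p s ∩ ZE p R} := by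
      have h2 : {ω : A.Om | ∃ k : ℤ, odd k (rc ω) ∈ ZE p s ∩ ZE p R} =
          ⋃ k : ℤ, {ω | odd k (rc ω) ∈ ZE p s ∩ ZE p R} := by
        ext ω; simp
      rw [h2]
      exact MeasurableSet.iUnion fun k => hrc (measurable_odd k hM')
    have h3 : ∫ ω, {ω : A.Om | ∃ k : ℤ, odd k (rc ω) ∈ ZE p s ∩ ZE p R}.indicator
        (fun _ => (1 : ℝ)) ω ∂Q = Q.real {ω | ∃ k : ℤ, odd k (rc ω) ∈ ZE p s ∩ ZE p R} := by
      rw [integral_indicator hmE, setIntegral_const, smul_eq_mul, mul_one]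
    rw [← h3]
    have hf1 : Measurable fun ω : A.Om => f (tau ω) :=
      loc_meas' (B := B1) fun ω ω' h => hfB _ _ fun x hx => by unfold tau; rw [h x hx]
    refine integral_mono_ae ?_ ?_ ?_
    · refine Integrable.mono' (integrable_const (1 : ℝ))
        (hf1.mul (hiwm hIL2.2)).aestronglyMeasurable (Eventually.of_forall fun ω => ?_)
      obtain ⟨b1, b2⟩ := hiw01 EN (fun x => !(tau ω x))
      obtain ⟨b3, b4⟩ := hiw01 E2 (tau ω)
      rw [Real.norm_eq_abs, abs_le]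
      simp only [hf]
      constructor <;> nlinarith
    · exact (integrable_const (1 : ℝ)).indicator hmE
    · filter_upwards [(A.s_sym Q hQ).2.2] with ω hω
      obtain ⟨b1, b2⟩ := hiw01 EN (fun x => !(tau ω x))
      by_cases h4 : E2 (Wp (tau ω))
      · by_cases h5 : EN (Wp fun x => !(tau ω x))
        · have : f (tau ω) = 0 := by
            simp only [hf, iw, h5, if_true, sub_self]
          rw [this, zero_mul]
          exact Set.indicator_nonneg (fun _ _ => zero_le_one) _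
        · obtain ⟨k, hk⟩ := two_circuits hω hs1 hsR h4.1 h4.2 h5
          rw [Set.indicator_of_mem (show ω ∈ {ω : A.Om | ∃ k : ℤ, odd k (rc ω) ∈
            ZE p s ∩ ZE p R} from ⟨k, hk⟩)]
          obtain ⟨b3, b4⟩ := hiw01 E2 (tau ω)
          simp only [hf]
          nlinarith
      · have : iw E2 (tau ω) = 0 := if_neg h4
        rw [this, mul_zero]
        exact Set.indicator_nonneg (fun _ _ => zero_le_one) _
  -- conclusion
  have a4 : Q.real {ω | ¬ X.Conf (Wp (col 2 ω)) (X.bx p s) (X.bx p (2 * R))} =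
      ∫ ω, f (tau ω) ∂Q := by
    have hms := meas_ev hIL.2 2
    have e1 : {ω : A.Om | ¬ X.Conf (Wp (col 2 ω)) (X.bx p s) (X.bx p (2 * R))} =
        {ω | EN (Wp (col 2 ω))}ᶜ := rfl
    rw [e1, measureReal_compl hms, real_col hIL.2 2, probReal_univ]
    have hi : Integrable (fun ω => iw EN (col 2 ω)) Q := by
      obtain ⟨B, hB⟩ := iw_loc hIL.2
      have hm : Measurable fun ω : A.Om => iw EN (col 2 ω) :=
        loc_meas' (B := B) fun ω ω' h => hB _ _ (col_loc 2 B ω ω' h)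
      refine Integrable.mono' (integrable_const (1 : ℝ)) hm.aestronglyMeasurable
        (Eventually.of_forall fun ω => ?_)
      obtain ⟨b1, b2⟩ := hiw01 EN (col 2 ω)
      rw [Real.norm_eq_abs, abs_of_nonneg b1]
      exact b2
    have h5 : ∫ ω, f (tau ω) ∂Q = ∫ ω, (1 - iw EN (col 2 ω)) ∂Q := rfl
    rw [h5, integral_sub (integrable_const _) hi]
    simp
  rw [a4]
  have hf0 : 0 ≤ ∫ ω, f (tau ω) ∂Q := integral_nonneg fun ω => by
    have := (hiw01 EN (fun x => !(tau ω x))).2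
    show (0 : ℝ) ≤ 1 - iw EN (fun x => !(tau ω x))
    linarith
  have h6 : (∫ ω, f (tau ω) ∂Q) * (c * c) ≤ ε * (c * c) :=
    (mul_le_mul_of_nonneg_left a1 hf0).trans (a2.trans a3)
  exact le_of_mul_le_mul_right h6 (by positivity)

/-- **The same for the four spins.** -/
theorem col_small {κ : ℝ} (hQ : IsQ Q) (hP : Plane (Q.map rc)) (hS : SpecOut (Q.map rc) κ)
    (hC : RowCLT (Q.map rc) κ) (hκ : 0 < κ) {ε : ℝ} (hε : 0 < ε) :
    ∃ M₁ : ℕ, 1 ≤ M₁ ∧ ∀ M : ℕ, M₁ ≤ M → ∃ s₀ : ℤ, 1 ≤ s₀ ∧ ∀ s : ℤ, s₀ ≤ s → ∀ (p : Pt)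
      (r : Fin 4),
      Q.real {ω | ¬ X.Conf (Wp (col r ω)) (X.bx p s) (X.bx p (2 * (2 * M * s)))} ≤ ε := by
  have hprob := hQ.prob
  obtain ⟨M₁, hM₁, hM⟩ := minus_small hQ hP hS hC hκ hε
  refine ⟨M₁, hM₁, fun M hMM => ?_⟩
  obtain ⟨s₀, hs₀, hs⟩ := hM M hMM
  refine ⟨s₀, hs₀, fun s hss p r => le_trans ?_ (hs s hss p)⟩
  have hIL := IL_Conf p s (2 * (2 * M * s))
  obtain ⟨B, hB⟩ := iw_loc hIL.2
  have h1 := dom_col hQ r (iw_mono hIL.1) hB
  have e : ∀ r : Fin 4, {ω : A.Om | ¬ X.Conf (Wp (col r ω)) (X.bx p s)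
      (X.bx p (2 * (2 * M * s)))} = {ω | (fun S => X.Conf S (X.bx p s)
      (X.bx p (2 * (2 * M * s)))) (Wp (col r ω))}ᶜ := fun r => rfl
  rw [e, e, measureReal_compl (meas_ev hIL.2 r), measureReal_compl (meas_ev hIL.2 2),
    real_col hIL.2, real_col hIL.2]
  linarith

end Vale.Agent.P153.R2.RDEC
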