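import Vale.Agent.P153.Bd5.B9
import Vale.Agent.P153.R2.PLAN.Cob

/-!
P153, block RDEC-P (helper435), part 4 (deterministic): if the closed edges of all levels confine a
box, and a connected set of vertices at level `0` crosses, then the closed edges of level `0`
confine the box.
-/

namespace Vale.Agent.P153.R2.RDEC

open Relation
open Vale.Agent.P153 Vale.Agent.P153.F Vale.Agent.P153.F.X
open Vale.Agent.P153.Topo (Conn)
open Vale.Agent.P153.F (Pt)

theorem bx_conn {p : Pt} {s : ℤ} {x y : Pt} (hx : x ∈ X.bx p s) (hy : y ∈ X.bx p s) :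
    Conn (X.bx p s) x y := by
  obtain ⟨a, b⟩ := x
  obtain ⟨c, d⟩ := y
  obtain ⟨h1, h2⟩ := hx
  obtain ⟨h3, h4⟩ := hy
  simp only [abs_le] at h1 h2 h3 h4
  refine (Topo.conn_row (t := c) fun i hi hi' => ?_).trans
    (Topo.conn_col (s := b) (t := d) fun j hj hj' => ?_)
  · refine ⟨?_, ?_⟩ <;> simp only [abs_le] <;> omega
  · refine ⟨?_, ?_⟩ <;> simp only [abs_le] <;> omega

theorem bxc_conn_aux {p : Pt} {R : ℤ} {x : Pt} (hx : x ∉ X.bx p R) :
    Conn (X.bx p R)ᶜ x (p.1 + R + 1, p.2) := by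
  obtain ⟨a, b⟩ := x
  obtain ⟨p1, p2⟩ := p
  have hm : ∀ i j : ℤ, (i, j) ∈ (X.bx (p1, p2) R)ᶜ ↔
      (i < p1 - R ∨ p1 + R < i ∨ j < p2 - R ∨ p2 + R < j) := by
    intro i j
    show ¬ (|i - p1| ≤ R ∧ |j - p2| ≤ R) ↔ _
    rw [abs_le, abs_le]
    omega
  have hx' := (hm a b).1 hx
  have key : (p1 + R < a ∨ b < p2 - R ∨ p2 + R < b) →
      Conn (X.bx (p1, p2) R)ᶜ (a, b) (p1 + R + 1, p2) := by
    rintro (h | h)
    · refine (Topo.conn_col (t := p2) fun j _ _ => (hm _ _).2 ?_).trans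
        (Topo.conn_row (s := a) (t := p1 + R + 1) fun i hi hi' => (hm _ _).2 ?_)
      · omega
      · omega
    · refine (Topo.conn_row (t := p1 + R + 1) fun j _ _ => (hm _ _).2 ?_).trans
        (Topo.conn_col (s := b) (t := p2) fun i hi hi' => (hm _ _).2 ?_)
      · omega
      · omega
  rcases hx' with h | h
  · refine (Topo.conn_col (t := p2 + |R| + 1) fun j _ _ => (hm _ _).2 (by omega)).trans ?_
    have hR := le_abs_self R
    refine (Topo.conn_row (s := a) (t := p1 + R + 1) fun i hi hi' => (hm _ _).2 (by omega)).trans ?_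
    exact Topo.conn_col (s := p2 + |R| + 1) (t := p2) fun i hi hi' => (hm _ _).2 (by omega)
  · exact key h

theorem bxc_conn {p : Pt} {R : ℤ} {x y : Pt} (hx : x ∉ X.bx p R) (hy : y ∉ X.bx p R) :
    Conn (X.bx p R)ᶜ x y :=
  (bxc_conn_aux hx).trans (bxc_conn_aux hy).symm

/-- The closed edges (of all the levels) of `g`. -/
def Sg (g : Pt → ℤ) : Set Pt :=
  {w | ∃ x y, Adj x y ∧ w = x + y ∧ (g x % 4 = 0 ∨ g x % 4 = 1) ∧ (g y % 4 = 0 ∨ g y % 4 = 1)}

/-- The closed edges of level `0` of `g`. -/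
def Sg0 (g : Pt → ℤ) : Set Pt :=
  {w | ∃ x y, Adj x y ∧ w = x + y ∧ (g x = 0 ∨ g x = 1) ∧ (g y = 0 ∨ g y = 1)}

/-- An edge is determined by its midpoint. -/
theorem adj_mid' {x y x' y' : Pt} (h : Adj x y) (h' : Adj x' y') (e : x + y = x' + y') :
    (x' = x ∧ y' = y) ∨ (x' = y ∧ y' = x) := by
  obtain ⟨a, b⟩ := x
  obtain ⟨c, d⟩ := y
  obtain ⟨a', b'⟩ := x'
  obtain ⟨c', d'⟩ := y'
  rw [Topo.adj_iff] at h h'
  simp only [Prod.mk_add_mk, Prod.mk.injEq] at *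
  omega

theorem mem_Sg {g : Pt → ℤ} {x y : Pt} (h : Adj x y) : x + y ∈ Sg g ↔
    (g x % 4 = 0 ∨ g x % 4 = 1) ∧ (g y % 4 = 0 ∨ g y % 4 = 1) := by
  constructor
  · rintro ⟨x', y', h1, h2, h3, h4⟩
    rcases adj_mid' h h1 h2 with ⟨rfl, rfl⟩ | ⟨rfl, rfl⟩
    · exact ⟨h3, h4⟩
    · exact ⟨h4, h3⟩
  · rintro ⟨h1, h2⟩
    exact ⟨x, y, h, rfl, h1, h2⟩

/-- **Planarity.** -/
theorem conf_level {g : Pt → ℤ} (hg : ∀ x y, Adj x y → |g x - g y| ≤ 1) {p : Pt} {s R : ℤ}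
    {β : Set Pt} (hβ0 : ∀ x ∈ β, g x = 0 ∨ g x = 1) {b b' : Pt} (hbb : Conn β b b')
    (hb : b ∈ X.bx p s) (hb' : b' ∉ X.bx p R) (hc : X.Conf (Sg g) (X.bx p s) (X.bx p R)) :
    X.Conf (Sg0 g) (X.bx p s) (X.bx p R) := by
  set K : Set Pt := {y | ∃ x ∈ X.bx p s, ReflTransGen (stp (Sg g)) x y} with hK
  set W : Set Pt := {y | ∃ z, z ∉ X.bx p R ∧ Conn Kᶜ z y} with hW
  have hKR : ∀ y ∈ K, y ∈ X.bx p R := fun y ⟨x, hx, h⟩ => hc x hx y h
  have hsK : ∀ x ∈ X.bx p s, x ∈ K := fun x hx => ⟨x, hx, ReflTransGen.refl⟩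
  have hRW : ∀ x, x ∉ X.bx p R → x ∈ W := fun x hx => ⟨x, hx, Conn.refl fun h => hx (hKR x h)⟩
  have hWK : ∀ x ∈ W, x ∉ K := fun x ⟨z, _, h⟩ => h.right_mem
  have hKW : Disjoint K W := Set.disjoint_left.2 fun x h1 h2 => hWK x h2 h1
  -- `K` is connected
  have hK1 : ∀ x ∈ X.bx p s, ∀ y, ReflTransGen (stp (Sg g)) x y → Conn K x y := by
    intro x hx y hxy
    have : ∀ z, ReflTransGen (stp (Sg g)) x z → Conn K x z := by
      intro z hz
      induction hz with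
      | refl => exact Conn.refl (hsK x hx)
      | @tail u v hu huv ih => exact ih.tail huv.1 ⟨x, hx, hu.tail huv⟩
    exact this y hxy
  have hKc : ∀ x ∈ K, ∀ y ∈ K, Conn K x y := by
    rintro x ⟨x', hx', h1⟩ y ⟨y', hy', h2⟩
    refine (hK1 x' hx' x h1).symm.trans (Conn.trans ?_ (hK1 y' hy' y h2))
    exact (bx_conn hx' hy').mono fun z hz => hsK z hz
  -- `W` is connected
  have hW1 : ∀ z, z ∉ X.bx p R → ∀ y, Conn Kᶜ z y → Conn W z y := by
    intro z hz y hy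
    refine Conn.ind (S := Kᶜ) (fun y => Conn W z y) (Conn.refl (hRW z hz)) ?_ hy
    intro u v hu huv hv ih
    exact ih.tail huv ⟨z, hz, hu.tail huv hv⟩
  have hWc : ∀ x ∈ W, ∀ y ∈ W, Conn W x y := by
    rintro x ⟨x', hx', h1⟩ y ⟨y', hy', h2⟩
    refine (hW1 x' hx' x h1).symm.trans (Conn.trans ?_ (hW1 y' hy' y h2))
    exact (bxc_conn hx' hy').mono fun z hz => hRW z hz
  have hcl : ∀ x ∈ W, ∀ y, Adj x y → y ∉ K → y ∈ W := by
    rintro x ⟨z, hz, h⟩ y hxy hy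
    exact ⟨z, hz, h.tail hxy hy⟩
  -- the crossing edge of `β`
  have hcross : ∃ u v, u ∈ K ∧ v ∈ W ∧ Adj u v ∧ u ∈ β ∧ v ∈ β := by
    by_contra hno
    push Not at hno
    have : b' ∉ W := by
      refine Conn.ind (S := β) (fun y => y ∉ W) (fun h => hWK b h (hsK b hb)) ?_ hbb
      intro u v hu huv hv ih hvW
      have huK : u ∈ K := by
        by_contra h
        exact ih (hcl v hvW u (Topo.adj_symm huv) h)
      exact hno u v huK hvW huv hu.right_mem hv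
    exact this (hRW b' hb')
  obtain ⟨k0, w0, hk0, hw0, ha0, hkβ, hwβ⟩ := hcross
  -- the edges between `K` and `W` are closed
  have hclosed : ∀ k ∈ K, ∀ w ∈ W, Adj k w →
      (g k % 4 = 0 ∨ g k % 4 = 1) ∧ (g w % 4 = 0 ∨ g w % 4 = 1) := by
    rintro k ⟨x, hx, hk⟩ w hw hkw
    by_contra hno
    refine hWK w hw ⟨x, hx, hk.tail ⟨hkw, fun h => hno ((mem_Sg hkw).1 h)⟩⟩
  have hlev : ∀ k ∈ K, ∀ w ∈ W, Adj k w → g k / 4 = 0 ∧ g w / 4 = 0 := by
    intro k hk w hw hkw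
    have h1 := PLAN.interface_connected hKW hKc hWc hcl hk0 hw0 ha0 hk hw hkw
    have key : ∀ e : (ℤ × ℤ) × (ℤ × ℤ), ReflTransGen (PLAN.Turn K W) (k0, w0) e →
        e.1 ∈ K ∧ e.2 ∈ W ∧ Adj e.1 e.2 ∧ g e.1 / 4 = 0 ∧ g e.2 / 4 = 0 := by
      intro e he
      induction he with
      | refl =>
        refine ⟨hk0, hw0, ha0, ?_, ?_⟩
        · show g k0 / 4 = 0
          rcases hβ0 k0 hkβ with h | h <;> rw [h] <;> norm_num
        · show g w0 / 4 = 0
          rcases hβ0 w0 hwβ with h | h <;> rw [h] <;> norm_num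
      | @tail e f _ hef ih =>
        obtain ⟨⟨f1, f2, f3⟩, f4⟩ := hef
        obtain ⟨i1, i2, i3, i4, i5⟩ := ih
        have c1 := hclosed _ f1 _ f2 f3
        have c2 := abs_le.1 (hg _ _ f3)
        refine ⟨f1, f2, f3, ?_⟩
        rcases f4 with ⟨f4, -⟩ | ⟨f4, -⟩
        · rw [f4] at i4
          omega
        · rw [f4] at i5
          omega
    have h2 := key _ h1
    exact ⟨h2.2.2.2.1, h2.2.2.2.2⟩
  -- confinement
  intro x hx y hxy
  have h1 : ∀ z, ReflTransGen (stp (Sg0 g)) x z → z ∉ W := by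
    intro z hz
    induction hz with
    | refl => exact fun h => hWK x h (hsK x hx)
    | @tail a c _ hac iha =>
      intro hcW
      have haK : a ∈ K := by
        by_contra h
        exact iha (hcl c hcW a (Topo.adj_symm hac.1) h)
      have h2 := hclosed a haK c hcW hac.1
      have h3 := hlev a haK c hcW hac.1
      exact hac.2 ⟨a, c, hac.1, rfl, by omega, by omega⟩
  by_contra hy
  exact h1 y hxy (hRW y hy)

end Vale.Agent.P153.R2.RDEC
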