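import Vale.Agent.P153.R2.RDEC.P3
import Vale.Agent.P153.R2.RDEC.P4

/-!
P153, block RDEC-P (helper435), part 5: `slit`. Given that a connected set of vertices which
crosses a wide annulus is at level `0` (`|h| = 1`), with probability close to one the closed edges
of level `0` confine the inner box.
-/

namespace Vale.Agent.P153.R2.RDEC

open MeasureTheory Filter Topology Relation
open Vale.Agent.P153 Vale.Agent.P153.F Vale.Agent.P153.F.X Vale.Agent.P153.F.RSW
open Vale.Agent.P153.F.X.PosT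
open Vale.Agent.P153.GFF (Plane SpecOut RowCLT)
open Vale.Agent.P153.A (Sp IsQ tau rc cd)
open Vale.Agent.P153.F (Pt)
open Vale.Agent.P153.Topo (Conn)

variable {Q : Measure A.Om}

/-! ### The four spins and the absolute heights -/

theorem col_iff {ω : A.Om} (h : A.Comp ω) (r : Fin 4) (x : Pt) :
    col r ω x = true ↔ ((fh ω x + (r : ℕ)) % 4 = 0 ∨ (fh ω x + (r : ℕ)) % 4 = 1) := by
  have h1 := A.s_rc.2.1 ω h x
  have h2 : fh ω x % 4 = cd (ω x) % 4 := by unfold fh; omega
  have h3 : ∀ p : Bool × Bool, ∀ r : Fin 4, (match r with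
      | 0 => p.1
      | 1 => !p.2
      | 2 => !p.1
      | 3 => p.2) = true ↔ ((cd p + (r : ℕ)) % 4 = 0 ∨ (cd p + (r : ℕ)) % 4 = 1) := by
    decide
  have h4 := h3 (ω x) r
  refine Iff.trans (show col r ω x = true ↔ _ from h4) ?_
  omega

/-- The shift of residue class `r` for which the height at `b` is in `{-1, 1, 3, 5}`. -/
noncomputable def kr (b : Pt) (r : Fin 4) (ω : A.Om) : ℤ :=
  cd (ω 0) + (r : ℕ) - 4 * ((fh ω b + (r : ℕ)) / 4)

theorem odd_kr (b : Pt) (r : Fin 4) (ω : A.Om) (x : Pt) :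
    odd (kr b r ω) (rc ω) x =
      2 * (fh ω x + (r : ℕ) - 4 * ((fh ω b + (r : ℕ)) / 4)) - 1 := by
  unfold odd kr fh
  ring

theorem measurable_kr (b : Pt) (r : Fin 4) : Measurable (kr b r) := by
  have h0 : Measurable fun ω : A.Om => cd (ω 0) :=
    (Measurable.of_discrete (f := cd)).comp (measurable_pi_apply _)
  have h1 : Measurable fun ω : A.Om => fh ω b := by
    unfold fh
    exact ((measurable_pi_apply b).comp A.s_rc.2.2.2.2.2.1).add h0
  unfold kr
  refine (h0.add measurable_const).sub ?_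
  have h2 : Measurable fun z : ℤ => 4 * ((z + (r : ℕ)) / 4) := Measurable.of_discrete
  exact h2.comp h1

theorem meas_kr {M : Set Hg} (hM : MeasurableSet M) (b : Pt) (r : Fin 4) :
    MeasurableSet {ω | odd (kr b r ω) (rc ω) ∈ M} := by
  have h1 : {ω : A.Om | odd (kr b r ω) (rc ω) ∈ M} =
      ⋃ k : ℤ, (kr b r ⁻¹' {k}) ∩ {ω | odd k (rc ω) ∈ M} := by
    ext ω
    simp only [Set.mem_ofPred_eq, Set.mem_iUnion, Set.mem_inter_iff, Set.mem_preimage,
      Set.mem_singleton_iff]
    constructor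
    · intro h
      exact ⟨_, rfl, h⟩
    · rintro ⟨k, rfl, h⟩
      exact h
  rw [h1]
  exact MeasurableSet.iUnion fun k => (measurable_kr b r (measurableSet_singleton k)).inter
    (A.s_rc.2.2.2.2.2.1 (measurable_odd k hM))

/-- The measure of an event at level `0` is a sum over the four spins. -/
theorem muT_four {M : Set Hg} (hM : MeasurableSet M) {b : Pt} (hb : ∀ h ∈ M, |h b| = 1) :
    muT (Q.map rc) M = ∑ r : Fin 4, Q {ω | odd (kr b r ω) (rc ω) ∈ M} := by
  have hrc : Measurable rc := A.s_rc.2.2.2.2.2.1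
  rw [← lintegral_indicator_one hM, lintegral_muT (measurable_one.indicator hM)]
  have hmap := lintegral_map (μ := Q)
    (f := fun φ : Pt → ℤ => ∑' k : ℤ, M.indicator (1 : Hg → ENNReal) (odd k φ))
    (Measurable.tsum fun k => (measurable_one.indicator hM).comp (measurable_odd k)) hrc
  rw [hmap]
  have key : ∀ ω : A.Om, ∑' k : ℤ, M.indicator (1 : Hg → ENNReal) (odd k (rc ω)) =
      ∑ r : Fin 4, M.indicator (1 : Hg → ENNReal) (odd (kr b r ω) (rc ω)) := by
    intro ω
    have hinj : Function.Injective fun r : Fin 4 => kr b r ω := by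
      intro r r' h
      simp only [kr] at h
      apply Fin.ext
      have h1 := r.isLt
      have h2 := r'.isLt
      omega
    have h1 := hinj.tsum_eq (f := fun k : ℤ => M.indicator (1 : Hg → ENNReal) (odd k (rc ω))) (by
      intro k hk
      have hk' : odd k (rc ω) ∈ M := by
        by_contra h
        exact hk (Set.indicator_of_notMem h _)
      have h2 := hb _ hk'
      rw [abs_eq (by norm_num)] at h2
      unfold odd at h2
      refine ⟨⟨((k - cd (ω 0)) % 4).toNat, by omega⟩, ?_⟩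
      simp only [kr, fh]
      omega)
    rw [← h1, tsum_fintype]
  simp only [key]
  rw [lintegral_finsetSum]
  · refine Finset.sum_congr rfl fun r _ => ?_
    have h2 : (fun ω : A.Om => M.indicator (1 : Hg → ENNReal) (odd (kr b r ω) (rc ω))) =
        {ω : A.Om | odd (kr b r ω) (rc ω) ∈ M}.indicator 1 := by
      funext ω
      by_cases h : odd (kr b r ω) (rc ω) ∈ M
      · rw [Set.indicator_of_mem h, Set.indicator_of_mem (show ω ∈
          {ω : A.Om | odd (kr b r ω) (rc ω) ∈ M} from h)]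
        rfl
      · rw [Set.indicator_of_notMem h, Set.indicator_of_notMem (show ω ∉
          {ω : A.Om | odd (kr b r ω) (rc ω) ∈ M} from h)]
    rw [h2, lintegral_indicator_one (meas_kr hM b r)]
  · intro r _
    have h2 : (fun ω : A.Om => M.indicator (1 : Hg → ENNReal) (odd (kr b r ω) (rc ω))) =
        {ω : A.Om | odd (kr b r ω) (rc ω) ∈ M}.indicator 1 := by
      funext ω
      by_cases h : odd (kr b r ω) (rc ω) ∈ M
      · rw [Set.indicator_of_mem h, Set.indicator_of_mem (show ω ∈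
          {ω : A.Om | odd (kr b r ω) (rc ω) ∈ M} from h)]
        rfl
      · rw [Set.indicator_of_notMem h, Set.indicator_of_notMem (show ω ∉
          {ω : A.Om | odd (kr b r ω) (rc ω) ∈ M} from h)]
    rw [h2]
    exact measurable_one.indicator (meas_kr hM b r)

/-- The closed edges of the spin `col r` are the closed edges of all levels of the heights. -/
theorem Wp_col {ω : A.Om} (h : A.Comp ω) (r : Fin 4) (m : ℤ) :
    Wp (col r ω) = Sg fun x => fh ω x + (r : ℕ) - 4 * m := by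
  ext w
  constructor
  · rintro ⟨h1, h2, h3⟩
    have h4 := (col_iff h r _).1 h2
    have h5 := (col_iff h r _).1 h3
    exact ⟨v1 w, v2 w, mid_adj h1, v_add w, by dsimp only; omega, by dsimp only; omega⟩
  · rintro ⟨x, y, hxy, rfl, h2, h3⟩
    dsimp only at h2 h3
    exact (mem_Wp hxy).2 ⟨(col_iff h r x).2 (by omega), (col_iff h r y).2 (by omega)⟩

theorem bl_eq {h : Hg} {g : Pt → ℤ} (hg : ∀ x, h x = 2 * g x - 1) : bl h = Sg0 g := by
  ext w
  constructor
  · rintro ⟨x, y, h1, h2, h3, h4⟩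
    rw [hg, abs_eq (by norm_num)] at h3 h4
    exact ⟨x, y, h1, h2, by omega, by omega⟩
  · rintro ⟨x, y, h1, h2, h3, h4⟩
    refine ⟨x, y, h1, h2, ?_, ?_⟩
    · rw [hg, abs_eq (by norm_num)]
      omega
    · rw [hg, abs_eq (by norm_num)]
      omega

/-- The vertices of `β` are at level `0`. -/
def MB (β : Finset Pt) : Set Hg := {h | ∀ x ∈ β, |h x| = 1}

theorem meas_MB (β : Finset Pt) : MeasurableSet (MB β) := by
  have : MB β = ⋂ x ∈ β, {h : Hg | |h x| = 1} := by
    ext h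
    simp [MB]
  rw [this]
  refine Finset.measurableSet_biInter _ fun x _ => ?_
  have h2 : MeasurableSet {n : ℤ | |n| = 1} := trivial
  exact (measurable_pi_apply (X := fun _ : Pt => ℤ) x) h2

/-- There is no confinement by the closed edges of level `0`. -/
def NC (p : Pt) (s R : ℤ) : Set Hg := {h | ¬ X.Conf (bl h) (X.bx p s) (X.bx p R)}

theorem meas_NC (p : Pt) (s R : ℤ) : MeasurableSet (NC p s R) := by
  obtain ⟨N, hN⟩ := (IL_Conf p s R).2
  have h1 : MeasurableSet {h : Hg | X.Conf (bl h) (X.bx p s) (X.bx p R)} := by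
    refine meas_bl (Q := fun B => X.Conf B (X.bx p s) (X.bx p R))
      (Λ := Finset.Icc (-N) N ×ˢ Finset.Icc (-N) N) fun B B' hB hE => hN _ _ (fun z h1 h2 => ?_) hE
    exact hB z (by
      rw [abs_le] at h1 h2
      rw [Finset.mem_product, Finset.mem_Icc, Finset.mem_Icc]
      exact ⟨h1, h2⟩)
  exact h1.compl

theorem piece_sub {β : Finset Pt} {b b' : Pt} (hbb : Conn (β : Set Pt) b b') {p : Pt} {s R : ℤ}
    (hb : b ∈ X.bx p s) (hb' : b' ∉ X.bx p R) {ω : A.Om} (h : A.Comp ω) (r : Fin 4)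
    (hω : odd (kr b r ω) (rc ω) ∈ MB β ∩ NC p s R) :
    (∀ x ∈ β, col r ω x = true) ∧ ¬ X.Conf (Wp (col r ω)) (X.bx p s) (X.bx p R) := by
  obtain ⟨h1, h2⟩ := hω
  set g : Pt → ℤ := fun x => fh ω x + (r : ℕ) - 4 * ((fh ω b + (r : ℕ)) / 4) with hg
  have hodd : ∀ x, odd (kr b r ω) (rc ω) x = 2 * g x - 1 := fun x => odd_kr b r ω x
  have hβ : ∀ x ∈ (β : Set Pt), g x = 0 ∨ g x = 1 := by
    intro x hx
    have h3 := h1 x hx
    rw [hodd, abs_eq (by norm_num)] at h3
    omega
  refine ⟨fun x hx => (col_iff h r x).2 ?_, fun hc => h2 ?_⟩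
  · have h3 := hβ x hx
    simp only [hg] at h3
    omega
  · rw [bl_eq hodd]
    rw [Wp_col h r ((fh ω b + (r : ℕ)) / 4)] at hc
    refine conf_level (fun x y hxy => ?_) hβ hbb hb hb' hc
    have h3 := fh_adj h hxy
    simp only [hg]
    rw [abs_le] at h3 ⊢
    omega

theorem piece_sup {β : Finset Pt} {b : Pt} (hβ : ∀ x ∈ β, Conn (β : Set Pt) b x)
    {ω : A.Om} (h : A.Comp ω) (r : Fin 4) (hω : ∀ x ∈ β, col r ω x = true) :
    odd (kr b r ω) (rc ω) ∈ MB β := by
  set g : Pt → ℤ := fun x => fh ω x + (r : ℕ) - 4 * ((fh ω b + (r : ℕ)) / 4) with hg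
  have hodd : ∀ x, odd (kr b r ω) (rc ω) x = 2 * g x - 1 := fun x => odd_kr b r ω x
  have h4 : ∀ x ∈ β, g x % 4 = 0 ∨ g x % 4 = 1 := by
    intro x hx
    have := (col_iff h r x).1 (hω x hx)
    simp only [hg]
    omega
  have h5 : ∀ x ∈ β, g x = 0 ∨ g x = 1 := by
    intro x hx
    have h6 := hβ x hx
    refine Conn.ind (S := (β : Set Pt)) (fun x => g x = 0 ∨ g x = 1) ?_ ?_ h6
    · have h7 := h4 b (by exact_mod_cast h6.left_mem)
      simp only [hg] at h7 ⊢
      omega
    · intro u v hu huv hv hgu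
      have h8 := h4 v (by exact_mod_cast hv)
      have h9 := abs_le.1 (fh_adj h huv)
      simp only [hg] at h8 hgu ⊢
      omega
  intro x hx
  rw [hodd, abs_eq (by norm_num)]
  have := h5 x hx
  omega

/-! ### Association -/

open Classical in
/-- Indicator of plus spins on `β`. -/
noncomputable def iB (β : Finset Pt) (t : Sp) : ℝ := if ∀ x ∈ β, t x = true then 1 else 0

theorem iB_mono (β : Finset Pt) : Monotone (iB β) := by
  intro a b hab
  unfold iB
  by_cases h : ∀ x ∈ β, a x = true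
  · rw [if_pos h, if_pos fun x hx => Bool.eq_true_of_true_le (by rw [← h x hx]; exact hab x)]
  · rw [if_neg h]
    split_ifs <;> norm_num

theorem iB_loc (β : Finset Pt) : A.Loc β (iB β) := by
  intro t t' h
  unfold iB
  have : (∀ x ∈ β, t x = true) ↔ ∀ x ∈ β, t' x = true :=
    forall₂_congr fun x hx => by rw [h x hx]
  simp only [this]

theorem meas_B (β : Finset Pt) (r : Fin 4) : MeasurableSet {ω : A.Om | ∀ x ∈ β, col r ω x = true} := by
  classical
  have hm : Measurable fun ω : A.Om => iB β (col r ω) :=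
    loc_meas' (B := β) fun ω ω' h => iB_loc β _ _ (col_loc r β ω ω' h)
  have : {ω : A.Om | ∀ x ∈ β, col r ω x = true} = (fun ω => iB β (col r ω)) ⁻¹' {1} := by
    ext ω
    simp only [Set.mem_ofPred_eq, Set.mem_preimage, Set.mem_singleton_iff, iB]
    by_cases h : ∀ x ∈ β, col r ω x = true
    · rw [if_pos h]; exact ⟨fun _ => rfl, fun _ => h⟩
    · rw [if_neg h]; exact ⟨fun h' => absurd h' h, fun h' => absurd h' (by norm_num)⟩
  rw [this]
  exact hm (measurableSet_singleton 1)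

/-- Plus spins on `β` and absence of an increasing event. -/
theorem assoc_piece (hQ : IsQ Q) (β : Finset Pt) (r : Fin 4) {E : Set (ℤ × ℤ) → Prop}
    (hE : IL E) :
    Q.real {ω | (∀ x ∈ β, col r ω x = true) ∧ ¬ E (Wp (col r ω))} ≤
      Q.real {ω | ∀ x ∈ β, col r ω x = true} * Q.real {ω | ¬ E (Wp (col r ω))} := by
  classical
  have hprob := hQ.prob
  obtain ⟨B, hB⟩ := iw_loc hE.2
  have key := assoc_col hQ r (B := β ∪ B) (iB_mono β) (iw_mono hE.1)
    (fun t t' h => iB_loc β t t' fun x hx => h x (Finset.mem_union_left _ hx))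
    (fun t t' h => hB t t' fun x hx => h x (Finset.mem_union_right _ hx))
  have mB := meas_B β r
  have mE := meas_ev hE.2 r
  have e1 : ∫ ω, iB β (col r ω) ∂Q = Q.real {ω | ∀ x ∈ β, col r ω x = true} := by
    have : (fun ω => iB β (col r ω)) =
        {ω : A.Om | ∀ x ∈ β, col r ω x = true}.indicator fun _ => (1 : ℝ) := by
      funext ω
      by_cases h : ∀ x ∈ β, col r ω x = true
      · rw [Set.indicator_of_mem (show ω ∈ {ω : A.Om | ∀ x ∈ β, col r ω x = true} from h)]
        exact if_pos h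
      · rw [Set.indicator_of_notMem (show ω ∉ {ω : A.Om | ∀ x ∈ β, col r ω x = true} from h)]
        exact if_neg h
    rw [this, integral_indicator mB, setIntegral_const, smul_eq_mul, mul_one]
  have e2 : ∫ ω, iB β (col r ω) * iw E (col r ω) ∂Q =
      Q.real ({ω | ∀ x ∈ β, col r ω x = true} ∩ {ω | E (Wp (col r ω))}) := by
    have : (fun ω => iB β (col r ω) * iw E (col r ω)) =
        ({ω : A.Om | ∀ x ∈ β, col r ω x = true} ∩ {ω | E (Wp (col r ω))}).indicator
          fun _ => (1 : ℝ) := by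
      funext ω
      by_cases h : ∀ x ∈ β, col r ω x = true
      · by_cases h' : E (Wp (col r ω))
        · rw [Set.indicator_of_mem (show ω ∈ {ω : A.Om | ∀ x ∈ β, col r ω x = true} ∩
            {ω | E (Wp (col r ω))} from ⟨h, h'⟩)]
          simp only [iB, iw, if_pos h, if_pos h', mul_one]
        · rw [Set.indicator_of_notMem (show ω ∉ {ω : A.Om | ∀ x ∈ β, col r ω x = true} ∩
            {ω | E (Wp (col r ω))} from fun h2 => h' h2.2)]
          simp only [iw, if_neg h', mul_zero]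
      · rw [Set.indicator_of_notMem (show ω ∉ {ω : A.Om | ∀ x ∈ β, col r ω x = true} ∩
            {ω | E (Wp (col r ω))} from fun h2 => h h2.1)]
        simp only [iB, if_neg h, zero_mul]
    rw [this, integral_indicator (mB.inter mE), setIntegral_const, smul_eq_mul, mul_one]
  rw [e1, e2, ← real_col hE.2 r] at key
  have h3 : Q.real {ω : A.Om | (∀ x ∈ β, col r ω x = true) ∧ ¬ E (Wp (col r ω))} +
      Q.real ({ω | ∀ x ∈ β, col r ω x = true} ∩ {ω | E (Wp (col r ω))}) =
      Q.real {ω | ∀ x ∈ β, col r ω x = true} := by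
    have h4 := measureReal_inter_add_sdiff (μ := Q) (s := {ω : A.Om | ∀ x ∈ β, col r ω x = true})
      (t := {ω | E (Wp (col r ω))}) mE
    have h5 : {ω : A.Om | (∀ x ∈ β, col r ω x = true) ∧ ¬ E (Wp (col r ω))} =
        {ω : A.Om | ∀ x ∈ β, col r ω x = true} \ {ω | E (Wp (col r ω))} := rfl
    rw [h5, add_comm]
    exact h4
  have h6 : Q.real {ω : A.Om | ¬ E (Wp (col r ω))} = 1 - Q.real {ω | E (Wp (col r ω))} := by
    have h7 : {ω : A.Om | ¬ E (Wp (col r ω))} = {ω | E (Wp (col r ω))}ᶜ := rfl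
    rw [h7, measureReal_compl mE, probReal_univ]
  rw [h6]
  linarith

/-- **SLIT.** -/
theorem slit {κ : ℝ} (hQ : IsQ Q) (hP : Plane (Q.map rc)) (hS : SpecOut (Q.map rc) κ)
    (hC : RowCLT (Q.map rc) κ) (hκ : 0 < κ) {ε : ℝ} (hε : 0 < ε) :
    ∃ M₁ : ℕ, 1 ≤ M₁ ∧ ∀ M : ℕ, M₁ ≤ M → ∃ s₀ : ℤ, 1 ≤ s₀ ∧ ∀ s : ℤ, s₀ ≤ s → ∀ (p : Pt)
      (β : Finset Pt), (∀ x ∈ β, ∀ y ∈ β, Conn (β : Set Pt) x y) → (∃ x ∈ β, x ∈ X.bx p s) →
      (∃ x ∈ β, x ∉ X.bx p (4 * M * s)) →
      muT (Q.map rc) (MB β ∩ NC p s (4 * M * s)) ≤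
        ENNReal.ofReal ε * muT (Q.map rc) (MB β) := by
  have hprob := hQ.prob
  obtain ⟨M₁, hM₁, hM⟩ := col_small hQ hP hS hC hκ hε
  refine ⟨M₁, hM₁, fun M hMM => ?_⟩
  obtain ⟨s₀, hs₀, hs⟩ := hM M hMM
  refine ⟨s₀, hs₀, fun s hss p β hβ ⟨b, hbβ, hb⟩ ⟨b', hbβ', hb'⟩ => ?_⟩
  have eR : 4 * (M : ℤ) * s = 2 * (2 * M * s) := by ring
  rw [eR] at hb' ⊢
  set R : ℤ := 2 * (2 * M * s) with hR
  have hcomp := (A.s_sym Q hQ).2.2
  rw [muT_four ((meas_MB β).inter (meas_NC p s R)) (b := b) (fun h hh => hh.1 b hbβ),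
    muT_four (meas_MB β) (b := b) (fun h hh => hh b hbβ), Finset.mul_sum]
  refine Finset.sum_le_sum fun r _ => ?_
  have h1 : Q {ω | odd (kr b r ω) (rc ω) ∈ MB β ∩ NC p s R} ≤
      Q {ω | (∀ x ∈ β, col r ω x = true) ∧
        ¬ (fun S => X.Conf S (X.bx p s) (X.bx p R)) (Wp (col r ω))} := by
    refine measure_mono_ae ?_
    filter_upwards [hcomp] with ω hω h
    exact piece_sub (hβ b hbβ b' hbβ') hb hb' hω r h
  have h2 : Q {ω | ∀ x ∈ β, col r ω x = true} ≤ Q {ω | odd (kr b r ω) (rc ω) ∈ MB β} := by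
    refine measure_mono_ae ?_
    filter_upwards [hcomp] with ω hω h
    exact piece_sup (hβ b hbβ) hω r h
  refine h1.trans (le_trans ?_ (mul_le_mul_right h2 _))
  have h3 := assoc_piece hQ β r (IL_Conf p s R)
  have h4 := hs s hss p r
  rw [← ofReal_measureReal (μ := Q) (s := {ω | (∀ x ∈ β, col r ω x = true) ∧
        ¬ (fun S => X.Conf S (X.bx p s) (X.bx p R)) (Wp (col r ω))}),
    ← ofReal_measureReal (μ := Q) (s := {ω | ∀ x ∈ β, col r ω x = true}),
    ← ENNReal.ofReal_mul hε.le]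
  refine ENNReal.ofReal_le_ofReal (h3.trans ?_)
  rw [mul_comm]
  exact mul_le_mul_of_nonneg_right h4 measureReal_nonneg

end Vale.Agent.P153.R2.RDEC
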