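import Vale.Agent.P153.R2.RDEC.CaseB
import Vale.Agent.P153.R2.F2A.Lc
import Vale.Agent.P153.R2.F2.One
import Vale.Agent.P153.Bd5.B29

/-!
# P153-R2, block RDEC: the lower bound of the mean at the walls
-/

namespace Vale.Agent.P153.R2.RD

open Set Relation MeasureTheory
open Vale.Agent.P153 Vale.Agent.P153.R2
open Vale.Agent.P153.Topo (Conn)
open scoped Classical

theorem num1 {j L r M ρ K₂ : ℤ} (hj : 0 ≤ j) (hL : 0 ≤ L) (hr : 1 ≤ r) (hM : 0 ≤ M)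
    (hK₂ : 0 ≤ K₂) (h : (8 * M * ((4 * (j + 2) + 10) * (2 * j + 11 + L) + 1) + K₂) * r ≤ ρ) :
    8 * M * ((4 * (j + 2) + 10) * (r + 2 * j + 10 + L) + 1) ≤ ρ := by
  set N := 4 * (j + 2) + 10 with hN
  have hN0 : 0 ≤ N := by omega
  have h1 : r + 2 * j + 10 + L ≤ (2 * j + 11 + L) * r := by
    have : 0 ≤ (2 * j + 10 + L) * (r - 1) := mul_nonneg (by omega) (by omega)
    linarith [this, show (2 * j + 10 + L) * (r - 1) = (2 * j + 11 + L) * r - (r + 2 * j + 10 + L) by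
      ring]
  have h2 := mul_le_mul_of_nonneg_left h1 hN0
  have h3 : N * (r + 2 * j + 10 + L) + 1 ≤ (N * (2 * j + 11 + L) + 1) * r := by
    have : N * ((2 * j + 11 + L) * r) + r = (N * (2 * j + 11 + L) + 1) * r := by ring
    linarith
  have h4 := mul_le_mul_of_nonneg_left h3 (show 0 ≤ 8 * M by omega)
  have h5 : 0 ≤ K₂ * r := mul_nonneg hK₂ (by omega)
  have h6 : (8 * M * (N * (2 * j + 11 + L) + 1) + K₂) * r =
      8 * M * ((N * (2 * j + 11 + L) + 1) * r) + K₂ * r := by ring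
  linarith

theorem num2 {j M ρ K₁ R : ℤ} (hj : 0 ≤ j) (hM : 0 ≤ M) (hρ : 1 ≤ ρ) (hK₁ : 0 ≤ K₁)
    (h : (K₁ + ((4 * (j + 2) + 10) * (8 * M + 1) + 2 * j + 10)) * ρ ≤ R) :
    (4 * (j + 2) + 10) * (8 * M * ρ + 1) + 2 * j + 10 ≤ R := by
  set N := 4 * (j + 2) + 10 with hN
  have hN0 : 0 ≤ N := by omega
  have h1 : 0 ≤ (N + 2 * j + 10) * (ρ - 1) := mul_nonneg (by omega) (by omega)
  have h2 : (K₁ + (N * (8 * M + 1) + 2 * j + 10)) * ρ =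
      K₁ * ρ + (N * (8 * M * ρ + 1) + 2 * j + 10) + (N + 2 * j + 10) * (ρ - 1) := by ring
  have h3 : 0 ≤ K₁ * ρ := mul_nonneg hK₁ (by omega)
  linarith

/-- The annulus estimate with the constants `n`, `L`, `c`. -/
def DAnn (n : ℕ) (L : ℤ) (c : ℝ) : Prop := ∀ l l' : ℤ, L ≤ l' → (4 * n + 10) * l' ≤ l →
  ∀ (p : Pt) (β : Set Pt), β ⊆ bx p l \ bx p ((4 * n + 10) * l') →
    c ≤ Pr (nu (bx p ((4 * n + 10) * l) \ bx p l') β)
      (DD (2 * n) (bx p ((4 * n + 10) * l) \ bx p l')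
        (bx p ((2 * n + 5) * l) \ bx p ((2 * n + 6) * l')))

/-- The estimate at one vertex. -/
theorem at_point {j : ℕ} (hα : S_alpha j) {M Ma : ℕ} (hMa : 1 ≤ Ma) (hMM : Ma ≤ M)
    {c D q η : ℝ} (hc : 0 < c) (hη : 0 < η) (hDq : D * q ≤ (η * c) ^ 2) {L s₁ s₂ : ℤ}
    (hann : DAnn (j + 2) L c) (hSlit : Slit M s₁ (q / 2)) (hsm1 : SMom Ma 2 s₂ D)
    (hsm2 : SMom Ma (36 * Ma) s₂ D) {V A : Set Pt} {I : Pt → Set ℤ} (hJ : LAND.LJ V A I j)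
    {x₀ w : Pt} {r ρ R s l' : ℤ} (hx₀ : x₀ ∉ V) (hA : bx x₀ R \ bx x₀ r ⊆ A)
    (hw : w ∈ PLAN.Ring x₀ ρ) (hs2 : s₂ ≤ s) (hs1 : 1 ≤ s) (hsV : bx w s ⊆ V)
    (hsV' : ¬ bx w (s + 1) ⊆ V) (hl'1 : 1 ≤ l') (hl'r : r + 2 * j + 10 ≤ l') (hl's : s₁ ≤ l')
    (hl'L : L ≤ l') (hsmall : 8 * M * ((4 * (j + 2) + 10) * l' + 1) ≤ ρ)
    (hbig : (4 * (j + 2) + 10) * (8 * M * ρ + 1) + 2 * j + 10 ≤ R)
    {Z : Finset Pt} {a : Pt → ℝ} (hZ : ∀ x, x ∈ Z ↔ x ∈ bx w (s / 4))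
    (ha : ∀ x ∈ Z, 0 ≤ a x ∧ a x ≤ 16 / (s : ℝ) ^ 2) (ha1 : ∑ x ∈ Z, a x = 1) :
    -η ≤ Ex (Cfg V I) (lin Z a) := by
  have hM1 : 1 ≤ M := hMa.trans hMM
  have hMa1 : (1 : ℤ) ≤ Ma := by exact_mod_cast hMa
  have hMaM : (Ma : ℤ) ≤ M := by exact_mod_cast hMM
  have hM1' : (1 : ℤ) ≤ M := by exact_mod_cast hM1
  have hj : (0 : ℤ) ≤ j := Int.natCast_nonneg j
  have hn : ((j + 2 : ℕ) : ℤ) = j + 2 := by push_cast; ring
  have hwρ := sd_ring hw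
  have hsρ : s < ρ := by
    by_contra hcon
    push Not at hcon
    exact hx₀ (hsV (mem_bx_iff.2 (by rw [sd_comm, hwρ]; exact hcon)))
  set N : ℤ := 4 * ((j : ℤ) + 2) + 10 with hN
  have hN18 : 18 ≤ N := by omega
  set a₀ : ℤ := N * l' with ha₀
  set b : ℤ := 8 * M * ρ + 1 with hb
  have ha₀18 : 18 * l' ≤ a₀ := mul_le_mul_of_nonneg_right hN18 (by omega)
  have hρ8 : 8 * (a₀ + 1) ≤ ρ := le_trans (mul_le_mul_of_nonneg_right (by linarith)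
    (by omega)) hsmall
  have hρ1 : 1 ≤ ρ := by omega
  have hMρ : 8 * ρ ≤ 8 * M * ρ := mul_le_mul_of_nonneg_right (by linarith) (by omega)
  have hab : a₀ < b := by omega
  have hbN : b ≤ N * b := le_mul_of_one_le_left (by omega) (by omega)
  have hl'a : l' ≤ a₀ := by omega
  -- the crossing of the annulus
  have hfar : ∃ y, y ∉ V ∧ y ∉ bx x₀ b := by
    have hfin : (V ∪ bx x₀ b).Finite := hJ.dat.fin.union (bx_finite _ _)
    obtain ⟨y, hy⟩ := hfin.infinite_compl.nonempty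
    exact ⟨y, fun h => hy (Or.inl h), fun h => hy (Or.inr h)⟩
  obtain ⟨y, hyV, hyb⟩ := hfar
  obtain ⟨β, hβ, hβc, hβ1, hβ2⟩ := cross (V := V) (p := x₀) (x := x₀) (y := y) (a := a₀) (b := b)
    hab (hJ.cc x₀ y hx₀ hyV) (mem_bx_iff.2 (by rw [sd_self]; omega)) hyb
  have hβV : ∀ x ∈ β, x ∉ V := fun x hx => (hβ hx).1
  have hβb : β ⊆ bx x₀ b \ bx x₀ a₀ := fun x hx => (hβ hx).2
  have hcrs : Crs β x₀ (a₀ + 1) (8 * M * ρ) := ⟨hβc, hβ1, by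
    obtain ⟨v, hv, hv'⟩ := hβ2
    exact ⟨v, hv, fun h => hv' (by rw [hb, add_sub_cancel_right]; exact h)⟩⟩
  have hB0f : (bx x₀ (N * b) \ bx x₀ l').Finite := (bx_finite _ _).subset Set.sdiff_subset
  have hZs : ∀ x ∈ Z, x ∈ bx w s := fun x hx => bx_mono (by omega) ((hZ x).1 hx)
  have hZV : ∀ x ∈ Z, x ∈ V := fun x hx => hsV (hZs x hx)
  have hZB : ∀ x ∈ Z, x ∈ bx x₀ (N * b) \ bx x₀ l' := fun x hx => by
    have h1 := mem_bx_iff.1 ((hZ x).1 hx)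
    have h2 := sd_tri x₀ w x
    have h3 := sd_tri x₀ x w
    rw [sd_comm x w] at h3
    exact ⟨mem_bx_iff.2 (by omega), fun h => by
      have := mem_bx_iff.1 h
      omega⟩
  have hDDt : ∀ βt : Set Pt, βt ⊆ bx x₀ b \ bx x₀ a₀ →
      c ≤ Pr (nu (bx x₀ ((4 * ((j + 2 : ℕ) : ℤ) + 10) * (8 * M * ρ + 1)) \ bx x₀ l') βt)
        (DD (2 * ((j + 2 : ℕ) : ℤ))
          (bx x₀ ((4 * ((j + 2 : ℕ) : ℤ) + 10) * (8 * M * ρ + 1)) \ bx x₀ l')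
          (bx x₀ ((2 * ((j + 2 : ℕ) : ℤ) + 5) * (8 * M * ρ + 1)) \
            bx x₀ ((2 * ((j + 2 : ℕ) : ℤ) + 6) * l'))) := fun βt hβt =>
    hann (8 * M * ρ + 1) l' hl'L (by rw [hn]; exact hab.le) x₀ βt (by rw [hn]; exact hβt)
  by_cases hcase : 2 * (4 * Ma * (s + 1) + 1) ≤ ρ
  · -- the second crossing, around `w`
    set b' : ℤ := 4 * Ma * (s + 1) + 1 with hb'
    have hb's : s + 1 < b' := by
      have : 4 * 1 * (s + 1) ≤ 4 * Ma * (s + 1) := mul_le_mul_of_nonneg_right (by omega) (by omega)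
      omega
    obtain ⟨y', hy', hy'V⟩ := Set.not_subset.1 hsV'
    obtain ⟨β', hβ', hβ'c, hβ'1, hβ'2⟩ := cross (V := V) (p := w) (x := y') (y := x₀) (a := s)
      (b := b') (by omega) (hJ.cc y' x₀ hy'V hx₀) hy' (fun h => by
        have := mem_bx_iff.1 h
        rw [sd_comm, hwρ] at this
        omega)
    have hβ'w : ∀ x ∈ β', sd w x ≤ b' := fun x hx => mem_bx_iff.1 (hβ' hx).2.1
    have hβ'b : β' ⊆ bx x₀ b \ bx x₀ a₀ := fun x hx => by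
      have h1 := hβ'w x hx
      have h2 := sd_tri x₀ w x
      have h3 := sd_tri x₀ x w
      rw [sd_comm x w] at h3
      exact ⟨mem_bx_iff.2 (by omega), fun h => by
        have := mem_bx_iff.1 h
        omega⟩
    have hw0 : bx w b' ⊆ bx x₀ (N * b) \ bx x₀ l' := fun x hx => by
      have h1 := mem_bx_iff.1 hx
      have h2 := sd_tri x₀ w x
      have h3 := sd_tri x₀ x w
      rw [sd_comm x w] at h3
      exact ⟨mem_bx_iff.2 (by omega), fun h => by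
        have := mem_bx_iff.1 h
        omega⟩
    have hβt : β ∪ β' ⊆ bx x₀ b \ bx x₀ a₀ := Set.union_subset hβb hβ'b
    refine core_B hα hM1 hc hη hDq hSlit hJ hA hw hsV hs1 hsρ.le hl'1 hl'r hl's hsmall
      hbig (β := β) (βt := β ∪ β') Set.subset_union_left ?_ hβt hcrs hZ ha (hDDt _ hβt) ?_
    · rintro x (hx | hx)
      · exact hβV x hx
      · exact (hβ' hx).1
    · rw [hn]
      have hZβ' : ∀ x ∈ Z, x ∉ β' := fun x hx h => (hβ' h).2.2 (hZs x hx)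
      have hsub : (bx x₀ (N * b) \ bx x₀ l') \ (β ∪ β') ⊆ (bx x₀ (N * b) \ bx x₀ l') \ β' :=
        fun x hx => ⟨hx.1, fun h => hx.2 (Or.inr h)⟩
      have hZt : ∀ x ∈ Z, x ∈ (bx x₀ (N * b) \ bx x₀ l') \ (β ∪ β') := fun x hx =>
        ⟨hZB x hx, fun h => h.elim (fun h => hβV x h (hZV x hx)) (hZβ' x hx)⟩
      refine (mono_mom (hB0f.subset Set.sdiff_subset) hsub hZt (fun x hx => (ha x hx).1)).trans ?_
      · refine hsm1 s hs2 (s + 1) (by omega) (by omega) w w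
          (mem_bx_iff.2 (by rw [sd_self]; omega)) (bx x₀ (N * b) \ bx x₀ l') β' hB0f
          (fun x hx => hw0 (mem_bx_iff.2 (hβ'w x hx))) hw0 ⟨hβ'c, hβ'1, ?_⟩ Z a
          (fun x hx => ⟨bx_mono (by omega) (hZs x hx), hZβ' x hx⟩) ha ha1
        obtain ⟨v, hv, hv'⟩ := hβ'2
        exact ⟨v, hv, fun h => hv' (by rw [hb', add_sub_cancel_right]; exact h)⟩
  · push Not at hcase
    refine core_B hα hM1 hc hη hDq hSlit hJ hA hw hsV hs1 hsρ.le hl'1 hl'r hl's hsmall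
      hbig (β := β) (βt := β) le_rfl hβV hβb hcrs hZ ha (hDDt _ hβb) ?_
    rw [hn]
    have hZβ : ∀ x ∈ Z, x ∉ β := fun x hx h => hβV x h (hZV x hx)
    have hMaρ : 4 * Ma * (2 * ρ) ≤ 8 * M * ρ := by
      have := mul_le_mul_of_nonneg_right hMaM (show 0 ≤ ρ by omega)
      linarith
    have hMas : (s + 1) * Ma ≤ 2 * s * Ma := mul_le_mul_of_nonneg_right (by omega) (by omega)
    have hMas' : 1 * 1 ≤ s * Ma := mul_le_mul hs1 hMa1 (by omega) (by omega)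
    have hsub : (bx x₀ (N * b) \ bx x₀ l') \ β ⊆ bx x₀ (N * b) \ β :=
      fun x hx => ⟨hx.1.1, hx.2⟩
    have hZt : ∀ x ∈ Z, x ∈ (bx x₀ (N * b) \ bx x₀ l') \ β := fun x hx =>
      ⟨hZB x hx, hZβ x hx⟩
    refine (mono_mom ((bx_finite _ _).subset Set.sdiff_subset) hsub hZt
      (fun x hx => (ha x hx).1)).trans ?_
    refine hsm2 s hs2 (2 * ρ) (by omega) (by linarith) x₀ w (mem_bx_iff.2 (by omega))
      (bx x₀ (N * b)) β (bx_finite _ _) (fun x hx => bx_mono hbN (hβb hx).1)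
      (bx_mono (by omega)) ⟨hβc, ?_, ?_⟩ Z a
      (fun x hx => ⟨mem_bx_iff.2 ?_, hZβ x hx⟩) ha ha1
    · obtain ⟨u, hu, hu'⟩ := hβ1
      exact ⟨u, hu, bx_mono (by omega) hu'⟩
    · obtain ⟨v, hv, hv'⟩ := hcrs.2.2
      exact ⟨v, hv, fun h => hv' (bx_mono hMaρ h)⟩
    · have h1 := mem_bx_iff.1 ((hZ x).1 hx)
      have h2 := sd_tri x₀ w x
      omega

/-- **RDEC** from the localisation `S_alpha`. -/
theorem s_rdec_of {Q : Measure A.Om} {κ : ℝ} (hQ : A.IsQ Q) (hP : GFF.Plane (Q.map A.rc))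
    (hS : GFF.SpecOut (Q.map A.rc) κ) (hC : GFF.RowCLT (Q.map A.rc) κ) (hκ : 0 < κ) {j : ℕ}
    (hα : S_alpha j) : LAND.S_rdec j := by
  have lvl := F.lvl_of hQ hP hS hC hκ
  have hE : F.X.S_emom (Q.map A.rc) := F.X.s_emom lvl.ext F.X.s_conf F.X.s_loc
  obtain ⟨R₁, t₁, hR₁, ht₁, hone⟩ := F2.s_one (F2A.s_lc hQ hP hS hC hκ)
  intro η hη
  obtain ⟨c, hc, hann⟩ := DD_ann hR₁ ht₁ (by norm_num : (0 : ℝ) < 1 / 4) hone (j + 2) (by omega)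
  obtain ⟨Ma, hMa, hsm⟩ := RDEC.sm hQ hP hS hC hκ lvl.rsw lvl.mom hE
  have hMa1 : (1 : ℤ) ≤ Ma := by exact_mod_cast hMa
  obtain ⟨D₁, hD₁, s₂, hs₂, hsm1⟩ := hsm 2 (by norm_num)
  obtain ⟨D₂, hD₂, s₃, hs₃, hsm2⟩ := hsm (36 * Ma) (by linarith)
  set D := max D₁ D₂ with hD
  have hD0 : 0 ≤ D := hD₁.trans (le_max_left _ _)
  set q : ℝ := (η * c) ^ 2 / (D + 1) with hq
  have hq0 : 0 < q := by positivity
  have hDq : D * q ≤ (η * c) ^ 2 := by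
    rw [hq, mul_div_assoc', div_le_iff₀ (by linarith)]
    nlinarith [sq_nonneg (η * c)]
  obtain ⟨M₁, hM₁, hslit⟩ := RDEC.slit_fin hQ hP hS hC hκ lvl.rsw (half_pos hq0)
  set M := max Ma M₁ with hM
  have hM1' : (1 : ℤ) ≤ M := by exact_mod_cast hMa.trans (le_max_left Ma M₁)
  obtain ⟨s₁, hs₁, hsl⟩ := hslit M (le_max_right _ _)
  have hSlit : Slit M s₁ (q / 2) := fun t ht p β B0 h1 h2 h3 h4 =>
    hsl t ht p β B0 h1 h2 h3 h4.1 h4.2.1 h4.2.2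
  have hj : (0 : ℤ) ≤ j := Int.natCast_nonneg j
  set L : ℤ := max (2 * (2 * R₁ + 7) * t₁) s₁ with hL
  have hL2 : s₁ ≤ L := le_max_right _ _
  have hL0 : 1 ≤ L := hs₁.trans hL2
  have hK₁0 : 0 ≤ 8 * (M : ℤ) * ((4 * (j + 2) + 10) * (2 * j + 11 + L) + 1) := by positivity
  have hK₂0 : 1 ≤ (4 * ((j : ℤ) + 2) + 10) * (8 * M + 1) + 2 * j + 10 := by
    have : 0 ≤ (4 * ((j : ℤ) + 2) + 10) * (8 * M + 1) := by positivity
    omega
  refine ⟨8 * (M : ℤ) * ((4 * (j + 2) + 10) * (2 * j + 11 + L) + 1) +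
    ((4 * ((j : ℤ) + 2) + 10) * (8 * M + 1) + 2 * j + 10), max s₂ s₃, by omega,
    le_max_of_le_left hs₂, ?_⟩
  intro V A I hJ x₀ r ρ R hx₀ hr hKr hKρ hA w hwV hw s hs hsV hsV'
  have hs2 : s₂ ≤ s := (le_max_left _ _).trans hs
  have hs1 : 1 ≤ s := hs₂.trans hs2
  have hρ0 : 0 ≤ ρ := by
    have := sd_ring hw
    rw [← this]
    exact le_trans (abs_nonneg _) (le_max_left _ _)
  have hρ1 : 1 ≤ ρ := by
    by_contra hcon
    have h0 : ρ = 0 := by omega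
    rw [h0] at hKr
    have : 1 * 1 ≤ (8 * (M : ℤ) * ((4 * (j + 2) + 10) * (2 * j + 11 + L) + 1) +
      ((4 * ((j : ℤ) + 2) + 10) * (8 * M + 1) + 2 * j + 10)) * r :=
      mul_le_mul (by omega) hr (by omega) (by omega)
    omega
  obtain ⟨Z, a, hZ, ha, ha1⟩ := unif w hs1
  refine ⟨Z, a, fun x hx => (hZ x).1 hx, fun x hx => (ha x hx).1, ha1, ?_⟩
  show -η ≤ Ex (Cfg V I) (lin Z a)
  refine at_point hα hMa (le_max_left Ma M₁) hc hη hDq (L := L) (s₁ := s₁) (s₂ := max s₂ s₃)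
    (fun l l' h1 h2 p β h3 => hann l l' ((le_max_left _ _).trans h1) h2 p β h3) hSlit
    (fun s h1 t h2 h3 p w h4 B1 β h5 h6 h7 h8 Z a h9 h10 h11 =>
      (hsm1 s ((le_max_left _ _).trans h1) t h2 h3 p w h4 B1 β h5 h6 h7 h8.1 h8.2.1 h8.2.2 Z a
        h9 h10 h11).trans (le_max_left _ _))
    (fun s h1 t h2 h3 p w h4 B1 β h5 h6 h7 h8 Z a h9 h10 h11 =>
      (hsm2 s ((le_max_right _ _).trans h1) t h2 h3 p w h4 B1 β h5 h6 h7 h8.1 h8.2.1 h8.2.2 Z a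
        h9 h10 h11).trans (le_max_right _ _))
    hJ hx₀ hA hw hs hs1 hsV hsV' (l' := r + 2 * j + 10 + L) (by omega) (by omega) (by omega)
    (by omega) (num1 hj (by omega) hr (by omega) (by omega) hKr)
    (num2 hj (by omega) hρ1 hK₁0 hKρ) hZ ha ha1

end Vale.Agent.P153.R2.RD
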