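import Vale.Agent.P153.R2.RDEC.P6
import Vale.Agent.P153.R2.RDEC.Lay
import Vale.Agent.P153.R2.GAPS.Mom
import Vale.Agent.P153.R2.PLAN.Box

/-!
P153, block RDEC: second moments in the free laws are bounded.
-/

namespace Vale.Agent.P153.R2.RDEC

open MeasureTheory Filter Topology Relation
open Vale.Agent.P153 Vale.Agent.P153.F Vale.Agent.P153.F.X Vale.Agent.P153.F.RSW
open Vale.Agent.P153.F.X.PosT
open Vale.Agent.P153.F (Pt)
open Vale.Agent.P153.Topo (Conn)

variable {P : Measure (Pt → ℤ)}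

/-- The second moment of a linear functional in the free law of a bounded region. -/
theorem sec_mom (hP : GFF.Plane P) (hMom : S_mom P) (hE : S_emom P) (hR : S_rsw P) (N : ℤ)
    (hN : 1 ≤ N) (K : ℝ) (hK : 0 < K) : ∃ C : ℝ, 0 ≤ C ∧ ∃ s₀ : ℤ, 1 ≤ s₀ ∧ ∀ s : ℤ, s₀ ≤ s →
      ∀ (w : Pt) (B0 β : Set Pt), B0.Finite → B0 ⊆ R2.bx w (N * s) → ∀ (Z : Finset Pt)
      (a : Pt → ℝ), (∀ x ∈ Z, x ∈ B0 \ β) → (∀ x ∈ Z, 0 ≤ a x ∧ a x ≤ K / (s : ℝ) ^ 2) →
      Ex (RD.nu B0 β) (fun h => RD.lin Z a h ^ 2) ≤ C := by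
  classical
  have hN' : (1 : ℝ) ≤ N := by exact_mod_cast hN
  obtain ⟨C, hC, s₀, hs₀, hs⟩ := Gp.mom_open hP hMom hE hR s_loc s_conf
    (max K (2 * N + 20)) 1 (lt_max_of_lt_left hK)
  refine ⟨C * (1 + 1) ^ (2 * 1), by positivity, s₀, hs₀,
    fun s hss w B0 β hB0 hBN Z a hZ ha => ?_⟩
  have hs1 : 1 ≤ s := hs₀.trans hss
  have hs1' : (1 : ℝ) ≤ s := by exact_mod_cast hs1
  -- the far point and the closed box
  set p : Pt := (w.1 + (N + 9) * s, w.2) with hp
  set S : Finset Pt := (RD.bx_finite p (8 * s)).toFinset with hS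
  have hSm : ∀ x, x ∈ S ↔ x ∈ R2.bx p (8 * s) := fun x => by rw [hS, Set.Finite.mem_toFinset]
  have hSc : (S : Set Pt) = R2.bx p (8 * s) := Set.Finite.coe_toFinset _
  have hann : Gp.HasAnn S p (4 * s) := fun x hx _ => (hSm x).2 (by
    have : X.bx p (2 * (4 * s)) = R2.bx p (8 * s) := by
      rw [show 2 * (4 * s) = 8 * s by ring]; rfl
    rw [← this]; exact hx)
  have hdisj : ∀ x, x ∈ R2.bx w (N * s) → x ∉ R2.bx p (8 * s) := by
    rintro x ⟨h1, -⟩ ⟨h2, -⟩
    rw [abs_le] at h1 h2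
    rw [hp] at h2
    simp only at h2
    nlinarith
  have hcon : ∀ x ∈ S, ∀ y ∈ S, Conn (S : Set Pt) x y := by
    intro x hx y hy
    rw [hSc]
    exact PLAN.cn_bx p (8 * s) x ((hSm x).1 hx) y ((hSm y).1 hy)
  have ha₁ : p ∈ S := (hSm p).2 ⟨by simp; omega, by simp; omega⟩
  have ha₂ : (p.1 + 1, p.2) ∈ S := (hSm _).2 ⟨by simp; omega, by simp; omega⟩
  have hne : p ≠ (p.1 + 1, p.2) := fun h => by
    have := congrArg Prod.fst h
    simp at this
  have hMB := fun h => MB_iff (β := S) hcon ha₁ ha₂ hne h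
  obtain ⟨F, hF⟩ : ∃ F : Finset Pt, (F : Set Pt) = B0 \ β :=
    ⟨(hB0.subset Set.sdiff_subset).toFinset, Set.Finite.coe_toFinset _⟩
  -- the function of the closed edges
  set Θ : Set Pt → ℝ := fun B => if iE (S : Set Pt) ⊆ B then 1 else 0 with hΘd
  have hiF : ∀ w ∈ iE (S : Set Pt), w ∉ tE (F : Set Pt) := by
    rintro w ⟨x, hx, y, hy, hxy, rfl⟩ ⟨x', hx', y', hxy', he⟩
    rw [hF] at hx'
    rw [hSc] at hx hy
    rcases LE.edge_eq hxy hxy' he with ⟨rfl, -⟩ | ⟨rfl, -⟩
    · exact hdisj _ (hBN hx'.1) hx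
    · exact hdisj _ (hBN hx'.1) hy
  have hΘ : Fn (tE (F : Set Pt))ᶜ Θ := by
    refine ⟨fun B => ?_, ⟨(iE_fin S.finite_toSet).toFinset, fun w hw => ?_, fun B B' h => ?_⟩, ?_⟩
    · simp only [hΘd]; split_ifs <;> norm_num
    · exact hiF w (by simpa using hw)
    · have : iE (S : Set Pt) ⊆ B ↔ iE (S : Set Pt) ⊆ B' :=
        forall₂_congr fun w hw => h w (by simpa using hw)
      simp only [hΘd, this]
    · have : ¬ iE (S : Set Pt) ⊆ ∅ := by
        intro h0
        have h1 := (hMB (fun _ => 3)).2 (h0.trans (Set.empty_subset _))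
        have h2 := h1 p ha₁
        norm_num at h2
      simp only [hΘd, if_neg this]
  have hΘi : ∀ h : Hg, Θ (bl h) = (MB S).indicator (fun _ => (1 : ℝ)) h := by
    intro h
    by_cases hh : h ∈ MB S
    · rw [Set.indicator_of_mem hh]; exact if_pos ((hMB h).1 hh)
    · rw [Set.indicator_of_notMem hh]; exact if_neg fun h' => hh ((hMB h).2 h')
  have hOn : MB S = Gp.On S (fun _ => {-1, 1}) := by
    ext h
    refine forall₂_congr fun x _ => ?_
    rw [abs_eq (by norm_num)]
    exact or_comm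
  have hint : ∀ G : Hg → ℝ, Gp.LocF G → IntegrableOn G (MB S) (muT P) := by
    intro G hG
    rw [hOn]
    refine Gp.onS_integrable hP ha₁ (M := 1) (fun b hb => ?_) hG
    rcases hb with hb | hb
    · rw [hb]; rfl
    · rw [Set.mem_singleton_iff.1 hb]; rfl
  -- two points
  have two : ∀ x ∈ Z, ∀ y ∈ Z, Ex (RD.nu B0 β) (fun h => (h x : ℝ) * h y) *
      (muT P).real (MB S) ≤ ∫ h in MB S, (h x : ℝ) * h y ∂(muT P) := by
    intro x hx y hy
    have key := LE.low_gen hP F (g := fun _ => 1) hΘ (fun _ => zero_le_one)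
        (fun _ _ _ => le_rfl) ⟨∅, by simp, fun _ _ _ => rfl⟩ (v := [x, y]) (fun z hz => by
          have hz' : z ∈ Z := by
            rcases List.mem_cons.1 hz with h | h
            · rw [h]; exact hx
            · rw [List.mem_singleton.1 h]; exact hy
          have := hZ z hz'
          rw [← hF] at this
          exact_mod_cast this)
    have e1 : ∀ h : Hg, (1 : ℝ) * LE.pv [x, y] h = (h x : ℝ) * h y := fun h => by
      simp [LE.pv]
    simp only [e1] at key
    rw [RD.ev_FreeF, hF] at key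
    have i1 : ∫ h, Θ (bl h) ∂(muT P) = (muT P).real (MB S) := by
      simp only [hΘi]
      rw [integral_indicator (meas_MB S), setIntegral_const, smul_eq_mul, mul_one]
    have i2 : ∫ h, Θ (bl h) * ((h x : ℝ) * h y) ∂(muT P) =
        ∫ h in MB S, (h x : ℝ) * h y ∂(muT P) := by
      rw [← integral_indicator (meas_MB S)]
      refine integral_congr_ae (Eventually.of_forall fun h => ?_)
      simp only [hΘi]
      by_cases hh : h ∈ MB S
      · rw [Set.indicator_of_mem hh, Set.indicator_of_mem hh, one_mul]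
      · rw [Set.indicator_of_notMem hh, Set.indicator_of_notMem hh, zero_mul]
    rw [i1, i2] at key
    exact key
  -- the functional
  set u : Pt →₀ ℝ := Finsupp.onFinset Z (fun x => if x ∈ Z then a x else 0) (fun x hx => by
    by_contra h; exact hx (if_neg h)) with hu
  have hux : ∀ x, u x = if x ∈ Z then a x else 0 := fun x => rfl
  have hlin : ∀ h : Hg, Gp.Xu u h = RD.lin Z a h := by
    intro h
    unfold Gp.Xu RD.lin
    have e0 := Finsupp.sum_of_support_subset u (s := Z) (fun x hx => by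
      by_contra hc
      rw [Finsupp.mem_support_iff, hux, if_neg hc] at hx
      exact hx rfl) (fun v b => b * (h v : ℝ)) (fun _ _ => zero_mul _)
    refine e0.trans (Finset.sum_congr rfl fun x hx => by rw [hux, if_pos hx])
  have hsq : ∀ h : Hg, RD.lin Z a h ^ 2 = ∑ x ∈ Z, ∑ y ∈ Z, (a x * a y) * ((h x : ℝ) * h y) := by
    intro h
    unfold RD.lin
    rw [sq, Finset.sum_mul_sum]
    exact Finset.sum_congr rfl fun x _ => Finset.sum_congr rfl fun y _ => by ring
  have hloc : ∀ x y : Pt, Gp.LocF fun h : Hg => (h x : ℝ) * h y := fun x y =>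
    ⟨{x, y}, fun h h' hh => by
      simp only [hh x (by simp), hh y (by simp)]⟩
  have sum_le : Ex (RD.nu B0 β) (fun h => RD.lin Z a h ^ 2) * (muT P).real (MB S) ≤
      ∫ h in MB S, Gp.Xu u h ^ (2 * 1) ∂(muT P) := by
    have e1 : Ex (RD.nu B0 β) (fun h => RD.lin Z a h ^ 2) =
        ∑ x ∈ Z, ∑ y ∈ Z, (a x * a y) * Ex (RD.nu B0 β) (fun h => (h x : ℝ) * h y) := by
      simp only [hsq]
      rw [Ex_sum]
      refine Finset.sum_congr rfl fun x _ => ?_
      rw [Ex_sum]
      exact Finset.sum_congr rfl fun y _ => Ex_const_mul _ _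
    have e2 : ∫ h in MB S, Gp.Xu u h ^ (2 * 1) ∂(muT P) =
        ∑ x ∈ Z, ∑ y ∈ Z, (a x * a y) * ∫ h in MB S, (h x : ℝ) * h y ∂(muT P) := by
      have : ∀ h : Hg, Gp.Xu u h ^ (2 * 1) =
          ∑ x ∈ Z, ∑ y ∈ Z, (a x * a y) * ((h x : ℝ) * h y) := fun h => by
        rw [mul_one, hlin, hsq]
      simp only [this]
      rw [integral_finsetSum _ fun x _ => integrable_finsetSum _ fun y _ =>
        (hint _ (hloc x y)).const_mul _]
      refine Finset.sum_congr rfl fun x _ => ?_
      rw [integral_finsetSum _ fun y _ => (hint _ (hloc x y)).const_mul _]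
      exact Finset.sum_congr rfl fun y _ => integral_const_mul _ _
    rw [e1, e2, Finset.sum_mul]
    refine Finset.sum_le_sum fun x hx => ?_
    rw [Finset.sum_mul]
    refine Finset.sum_le_sum fun y hy => ?_
    rw [mul_assoc]
    exact mul_le_mul_of_nonneg_left (two x hx y hy) (mul_nonneg (ha x hx).1 (ha y hy).1)
  have hpos : 0 < (muT P).real (MB S) := by
    have hfin : muT P (MB S) ≠ ⊤ := by
      have hGb := gb_of_plane hP
      have h1 : MB S ⊆ Cyl {p} (fun _ => 1) ∪ Cyl {p} (fun _ => -1) := by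
        intro h hh
        have h2 := hh p ha₁
        rw [abs_eq (by norm_num)] at h2
        rcases h2 with h2 | h2
        · exact Or.inl fun x hx => by rw [Finset.mem_singleton.1 hx]; exact h2
        · exact Or.inr fun x hx => by rw [Finset.mem_singleton.1 hx]; exact h2
      refine ne_top_of_le_ne_top ?_ ((measure_mono h1).trans (measure_union_le _ _))
      exact ENNReal.add_ne_top.2 ⟨hGb.fin _ _ (Finset.singleton_nonempty _),
        hGb.fin _ _ (Finset.singleton_nonempty _)⟩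
    refine ENNReal.toReal_pos (ne_of_gt ?_) hfin
    refine lt_of_lt_of_le (Gp.cyl_one_pos hP hR s_conf S) (measure_mono fun h hh x hx => ?_)
    rw [hh x hx]; rfl
  have hfinal := hs s hss p u (fun v => ?_) (fun v hv => ?_) (fun v hv => ?_) S hann 1 zero_le_one
    (fun _ => {-1, 1}) (fun x _ b hb => ?_)
  · rw [← hOn] at hfinal
    refine le_of_mul_le_mul_right (sum_le.trans (hfinal.trans (le_of_eq ?_))) hpos
    push_cast
    ring
  · rw [hux]
    split_ifs with h
    · refine ⟨(ha v h).1, (ha v h).2.trans ?_⟩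
      exact div_le_div_of_nonneg_right (le_max_left _ _) (by positivity)
    · exact ⟨le_rfl, div_nonneg (hK.le.trans (le_max_left _ _)) (by positivity)⟩
  · have hvZ : v ∈ Z := by
      by_contra h; exact hv (by rw [hux, if_neg h])
    obtain ⟨h1, h2⟩ := hBN (hZ v hvZ).1
    have h3 : |v.1 - p.1| ≤ (2 * N + 20) * s ∧ |v.2 - p.2| ≤ (2 * N + 20) * s := by
      rw [abs_le] at h1 h2
      rw [hp]
      simp only
      constructor <;> rw [abs_le] <;> constructor <;> nlinarith
    have h4 : ((2 * N + 20 : ℝ)) * s ≤ max K (2 * N + 20) * s :=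
      mul_le_mul_of_nonneg_right (le_max_right _ _) (by linarith)
    have h5 : ((|v.1 - p.1| : ℤ) : ℝ) ≤ (2 * N + 20) * s := by exact_mod_cast h3.1
    have h6 : ((|v.2 - p.2| : ℤ) : ℝ) ≤ (2 * N + 20) * s := by exact_mod_cast h3.2
    constructor
    · rw [← Int.cast_abs]; exact h5.trans h4
    · rw [← Int.cast_abs]; exact h6.trans h4
  · have hvZ : v ∈ Z := by
      by_contra h; exact hv (by rw [hux, if_neg h])
    exact hdisj v (hBN (hZ v hvZ).1)
  · rcases hb with hb | hb
    · rw [hb]; rfl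
    · rw [Set.mem_singleton_iff.1 hb]; rfl

end Vale.Agent.P153.R2.RDEC
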