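import Vale.Agent.P153.R2.RDEC.Sec2
import Vale.Agent.P153.R2.RDEC.Sec
import Vale.Agent.P153.R2.RDEC.Dom

/-!
# P153-R2, block RDEC: second moments next to a connected closed set
-/

namespace Vale.Agent.P153.R2.RD

open Set Relation
open Vale.Agent.P153 Vale.Agent.P153.R2
open Vale.Agent.P153.Topo (Conn)
open scoped Classical

/-- The second moments increase with the domain. -/
theorem mono_mom {V1 V2 : Set Pt} (hV2 : V2.Finite) (h12 : V1 ⊆ V2) {Z : Finset Pt} {a : Pt → ℝ}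
    (hZ : ∀ x ∈ Z, x ∈ V1) (ha : ∀ x ∈ Z, 0 ≤ a x) :
    Ex (Cfg V1 (frd V1 0)) (fun g => lin Z a g ^ 2) ≤
      Ex (Cfg V2 (frd V2 0)) (fun g => lin Z a g ^ 2) := by
  have hV1 : V1.Finite := hV2.subset h12
  have hL : Lv V2 (frd V2 0) 0 1 := F2A.Lv_frd hV2
  have hN : V2 \ (V2 \ V1) = V1 := by
    ext x
    constructor
    · rintro ⟨h3, h4⟩
      by_contra h5
      exact h4 ⟨h3, h5⟩
    · intro h3
      exact ⟨h12 h3, fun h4 => h4.2 h3⟩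
  set I : Pt → Set ℤ := rpl (frd V2 0) (V2 \ V1) fun _ => {0 - 1, 0 + 1} with hI
  have hne : (Cfg (V2 \ (V2 \ V1)) I).Nonempty := by
    refine ⟨fun _ => 1, fun _ => odd_one, fun x => ?_, fun x _ y _ => by simp⟩
    by_cases h1 : x ∈ V2 \ V1
    · rw [hI, rpl_in h1]; simp
    · rw [hI, rpl_out h1]; exact F2A.frd_one V2 x
  obtain ⟨e1, hcmp⟩ := Cmp_cut hL (N := V2 \ V1) (fun x hx => hx.1) (fun x hx y hy hxy => by
    rw [frd_bd ⟨hy, x, hx.1, hxy⟩]; norm_num) hne (fun x hx => by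
    rw [frd_in hx.1]; exact Sd_univ _ _)
  have key := md_mom0 hcmp (Z := Z) (φ := fun (_ : Fin 2) => a)
    (fun x hx => Or.inl (h12 (hZ x hx))) (fun _ x hx => ha x hx)
  have e : (fun g : Hg => lin Z a g ^ 2) = pm 0 1 Z (fun (_ : Fin 2) => a) :=
    funext fun g => (pm_two Z a g).symm
  rw [← e] at key
  refine le_trans (le_of_eq ?_) key
  rw [e1, hN]
  have hIV : ∀ x ∈ nb V1, frd V1 0 x = I x := by
    intro x hx
    by_cases h1 : x ∈ V1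
    · rw [frd_in h1, hI, rpl_out (fun h => h.2 h1), frd_in (h12 h1)]
    · have hxe : x ∈ ebd V1 := hx.resolve_left h1
      rw [frd_bd hxe]
      by_cases h2 : x ∈ V2
      · rw [hI, rpl_in (show x ∈ V2 \ V1 from ⟨h2, h1⟩)]; norm_num
      · rw [hI, rpl_out (fun h => h2 h.1)]
        obtain ⟨-, y, hy, hyx⟩ := hxe
        rw [frd_bd ⟨h2, y, h12 hy, hyx⟩]
  have dI1 : Dat V1 I := by
    refine ⟨hV1, fun x hx => ?_, hcmp.dI.cof⟩
    by_cases h2 : x ∈ V2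
    · rw [hI, rpl_in (show x ∈ V2 \ V1 from ⟨h2, hx⟩)]; exact Set.toFinite _
    · exact hcmp.dI.bdd x h2
  rw [hN] at hne
  refine Ex_off (frd_dat hV1) dI1 hIV (frd_nonempty V1) hne fun c b hcb => ?_
  rw [lin_congr (U := nb V1) (fun x hx => Or.inl (hZ x hx)) c b hcb]

end Vale.Agent.P153.R2.RD

namespace Vale.Agent.P153.R2.RDEC

open MeasureTheory Filter Topology Relation
open Vale.Agent.P153 Vale.Agent.P153.F Vale.Agent.P153.F.X Vale.Agent.P153.F.RSW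
open Vale.Agent.P153.GFF (Plane SpecOut RowCLT)
open Vale.Agent.P153.A (Sp IsQ tau rc cd)
open Vale.Agent.P153.F (Pt)
open Vale.Agent.P153.Topo (Conn)

variable {Q : Measure A.Om}

/-- **Second moments** of smeared heights, at a distance comparable to the scale from a connected
set with level `0`. -/
theorem sm {κ : ℝ} (hQ : IsQ Q) (hP : Plane (Q.map rc)) (hS : SpecOut (Q.map rc) κ)
    (hC : RowCLT (Q.map rc) κ) (hκ : 0 < κ) (hR : S_rsw (Q.map rc)) (hMom : S_mom (Q.map rc))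
    (hE : S_emom (Q.map rc)) :
    ∃ M : ℕ, 1 ≤ M ∧ ∀ N : ℤ, 1 ≤ N → ∃ D : ℝ, 0 ≤ D ∧ ∃ s₀ : ℤ, 1 ≤ s₀ ∧ ∀ s : ℤ, s₀ ≤ s →
      ∀ t : ℤ, s ≤ t → t ≤ N * s → ∀ (p w : Pt), w ∈ R2.bx p t → ∀ (B1 β : Set Pt), B1.Finite →
      β ⊆ B1 → R2.bx p (4 * M * t + 1) ⊆ B1 → (∀ x ∈ β, ∀ y ∈ β, Conn β x y) →
      (∃ x ∈ β, x ∈ R2.bx p t) → (∃ y ∈ β, y ∉ R2.bx p (4 * M * t)) →
      ∀ (Z : Finset Pt) (a : Pt → ℝ), (∀ x ∈ Z, x ∈ R2.bx p t ∧ x ∉ β) →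
      (∀ x ∈ Z, 0 ≤ a x ∧ a x ≤ 16 / (s : ℝ) ^ 2) → ∑ x ∈ Z, a x = 1 →
      Ex (RD.nu B1 β) (fun h => RD.lin Z a h ^ 2) ≤ D := by
  obtain ⟨δ, hδ, hesc⟩ := RD.sec_esc
  obtain ⟨M, hM1, hM⟩ := slit_fin hQ hP hS hC hκ hR hδ
  obtain ⟨s₁, hs₁, hslit⟩ := hM M le_rfl
  refine ⟨M, hM1, fun N hN => ?_⟩
  have hM1' : (1 : ℤ) ≤ M := by exact_mod_cast hM1
  obtain ⟨C, hC0, s₂, hs₂, hsec⟩ := sec_mom hP hMom hE hR ((4 * M + 1) * N)
    (by nlinarith) 16 (by norm_num)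
  refine ⟨2 * C + 2, by positivity, max s₁ s₂, le_max_of_le_left hs₁,
    fun s hs t hst htN p w hw B1 β hB1 hβ hbx hβc hβ1 hβ2 Z a hZ ha ha1 => ?_⟩
  have hs1 : s₁ ≤ s := (le_max_left _ _).trans hs
  have hs2 : s₂ ≤ s := (le_max_right _ _).trans hs
  have hs0 : 1 ≤ s := hs₁.trans hs1
  have ht0 : 1 ≤ t := hs0.trans hst
  have hMt : t ≤ 4 * M * t := by nlinarith
  have hMB : R2.bx p (4 * M * t) ⊆ B1 := fun x hx => hbx (RD.bx_mono (by omega) hx)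
  have hZM : ∀ x ∈ Z, x ∈ R2.bx p (4 * M * t) \ β := fun x hx =>
    ⟨RD.bx_mono hMt (hZ x hx).1, (hZ x hx).2⟩
  refine hesc B1 β (R2.bx p (4 * M * t)) (R2.bx p t) hB1 hMB Z a (fun x hx => (ha x hx).1) ha1
    hZM (fun x hx => (hZ x hx).1)
    (hslit t (hs1.trans hst) p β B1 hB1 hβ hbx hβc hβ1 hβ2) C ?_
  exact hsec s hs2 w (R2.bx p (4 * M * t)) β (RD.bx_finite _ _) (fun x hx => by
    rw [RD.mem_bx_iff]
    obtain ⟨h1, h2⟩ := hx
    obtain ⟨h3, h4⟩ := hw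
    unfold RD.sd
    rw [abs_le] at h1 h2 h3 h4
    have h5 : 4 * M * t + t ≤ (4 * M + 1) * N * s := by nlinarith
    refine max_le ?_ ?_
    · rw [abs_le]; constructor <;> linarith
    · rw [abs_le]; constructor <;> linarith) Z a hZM ha

end Vale.Agent.P153.R2.RDEC
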