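import Vale.Agent.P153.R2.RDEC.Mom4
import Vale.Agent.P153.R2.RDEC.DDb
import Vale.Agent.P153.R2.F2A.Expl

/-!
# P153-R2, block RDEC: second moments given that the cluster of the support is confined
-/

namespace Vale.Agent.P153.R2.RD

open Set Relation
open Vale.Agent.P153 Vale.Agent.P153.R2
open Vale.Agent.P153.Topo (Conn)
open Vale.Agent.P153.R2.F2A (Clo CloD CloD_lower mem_CloD sep fib fmap fib_eq_fmap
  subset_CluL CluL_step fib_self)
open scoped Classical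

theorem OpL_symm' {m : ℤ} {h : Hg} {x y : Pt} (hxy : OpL m h x y) : OpL m h y x :=
  ⟨Topo.adj_symm hxy.1, fun hc => hxy.2 ⟨hc.2, hc.1⟩⟩

theorem pm_two (Z : Finset Pt) (a : Pt → ℝ) (h : Hg) :
    pm 0 1 Z (fun (_ : Fin 2) => a) h = lin Z a h ^ 2 := by
  unfold pm lin
  rw [Fin.prod_univ_two, sq]
  simp

/-- The clusters of `T` stay in `M` iff the cluster of the complement of `M` misses `T`. -/
theorem mem_CF0_iff {T M : Set Pt} {h : Hg} : h ∈ CF0 T M ↔ ∀ x ∈ T, x ∉ CluL 0 Mᶜ h := by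
  have symm : ∀ x y, ReflTransGen (OpL 0 h) x y → ReflTransGen (OpL 0 h) y x := by
    intro x y hxy
    induction hxy with
    | refl => exact .refl
    | tail _ h1 ih => exact ReflTransGen.head (OpL_symm' h1) ih
  constructor
  · rintro hh x hx ⟨y, hy, hyx⟩
    exact hy (hh ⟨x, hx, symm _ _ hyx⟩)
  · rintro hh y ⟨x, hx, hxy⟩
    by_contra hy
    exact hh x hx ⟨y, hy, symm _ _ hxy⟩

variable {B0 β M : Set Pt}

/-- The second moment in a fibre. -/
theorem fib_sec (hB0 : B0.Finite) (hMB : M ⊆ B0) {Z : Finset Pt} {a : Pt → ℝ}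
    (ha : ∀ x ∈ Z, 0 ≤ a x) (hZM : ∀ x ∈ Z, x ∈ M \ β) {h : Hg} (hh : h ∈ nu B0 β)
    (hG : ∀ x ∈ Z, x ∉ CluL 0 Mᶜ h) :
    Ex (nu B0 β ∩ fib Mᶜ h) (fun g => lin Z a g ^ 2) ≤
      Ex (Cfg (M \ β) (frd (M \ β) 0)) (fun g => lin Z a g ^ 2) := by
  set V : Set Pt := B0 \ β with hV
  set V' : Set Pt := M \ β with hV'
  have hVf : V.Finite := hB0.subset Set.sdiff_subset
  have hV'V : V' ⊆ V := fun x hx => ⟨hMB hx.1, hx.2⟩
  have hV'f : V'.Finite := hVf.subset hV'V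
  set I : Pt → Set ℤ := frd V 0 with hI
  set J : Pt → Set ℤ := fun x => if x ∈ M then I x else if x ∈ ebd V' then {-1, 1} else {1} with hJ
  have J_M : ∀ x, x ∈ M → J x = I x := fun x hx => if_pos hx
  have J_e : ∀ x, x ∉ M → x ∈ ebd V' → J x = {-1, 1} := fun x hx hx2 => by
    rw [hJ]; simp only; rw [if_neg hx, if_pos hx2]
  have J_f : ∀ x, x ∉ M → x ∉ ebd V' → J x = {1} := fun x hx hx2 => by
    rw [hJ]; simp only; rw [if_neg hx, if_neg hx2]
  have J_nb : ∀ x ∈ nb V', J x = frd V' 0 x := by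
    intro x hx
    by_cases h1 : x ∈ V'
    · rw [J_M x h1.1, frd_in h1, hI, frd_in (hV'V h1)]
    · have h2 : x ∈ ebd V' := hx.resolve_left h1
      rw [frd_bd h2]
      by_cases h3 : x ∈ M
      · have hxβ : x ∈ β := by
          by_contra hc
          exact h1 ⟨h3, hc⟩
        obtain ⟨-, y, hy, hyx⟩ := h2
        rw [J_M x h3, hI, frd_bd ⟨fun hc => hc.2 hxβ, y, hV'V hy, hyx⟩]
      · rw [J_e x h3 h2]
  have J_one : ∀ x, (1 : ℤ) ∈ J x := by
    intro x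
    by_cases h1 : x ∈ M
    · rw [J_M x h1]; exact F2A.frd_one V x
    · by_cases h2 : x ∈ ebd V'
      · rw [J_e x h1 h2]; simp
      · rw [J_f x h1 h2]; simp
  have dJ : Dat V' J := by
    refine ⟨hV'f, fun x hx => ?_, (hVf.union (ebd_finite hVf |>.union (ebd_finite hV'f))).subset
      fun x hx => ?_⟩
    · by_cases h1 : x ∈ M
      · have hxβ : x ∈ β := by
          by_contra hc
          exact hx ⟨h1, hc⟩
        rw [J_M x h1]
        exact (frd_dat hVf).bdd x (fun hc => hc.2 hxβ)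
      · by_cases h2 : x ∈ ebd V'
        · rw [J_e x h1 h2]; exact Set.toFinite _
        · rw [J_f x h1 h2]; exact Set.finite_singleton _
    · by_contra hc
      simp only [Set.mem_union, not_or] at hc
      apply hx
      by_cases h1 : x ∈ M
      · rw [J_M x h1, hI, frd_far hc.1 hc.2.1]; exact Set.subsingleton_singleton
      · rw [J_f x h1 hc.2.2]; exact Set.subsingleton_singleton
  have hL : Lv V' J 0 1 :=
    { even := Even.zero
      sg := Or.inl rfl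
      dI := dJ
      ne := ⟨fun _ => 1, fun _ => odd_one, J_one, fun x _ y _ => by simp⟩
      sd := fun x => by
        have h11 : Sd 0 1 ({-1, 1} : Set ℤ) := by
          have := Sd_free 0 1
          norm_num at this
          exact this
        left
        by_cases h1 : x ∈ M
        · rw [J_M x h1, hI]
          by_cases h2 : x ∈ V
          · rw [frd_in h2]; exact Sd_univ 0 1
          · by_cases h3 : x ∈ ebd V
            · rw [frd_bd h3]; exact h11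
            · rw [frd_far h2 h3]; exact Sd_single (by norm_num)
        · by_cases h2 : x ∈ ebd V'
          · rw [J_e x h1 h2]; exact h11
          · rw [J_f x h1 h2]; exact Sd_single (by norm_num) }
  set O := CluL 0 Mᶜ h with hO
  have hKM : ∀ x, x ∈ Oᶜ → x ∈ M := fun x hx => by
    by_contra hc
    exact hx (subset_CluL Mᶜ h hc)
  have hloc : ∀ c b : Hg, (∀ x ∈ Oᶜ, c x = b x) → lin Z a c ^ 2 = lin Z a b ^ 2 := by
    intro c b hcb
    rw [lin_congr (U := Oᶜ) (fun x hx => hG x hx) c b hcb]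
  have hone : (fun _ => 1 : Hg) ∈ Cfg V' J ∩ Clo Oᶜ :=
    ⟨⟨fun _ => odd_one, J_one, fun x _ y _ => by simp⟩, fun x _ y _ _ => by simp⟩
  have e1 : Ex (nu B0 β ∩ fib Mᶜ h) (fun g => lin Z a g ^ 2) =
      Ex (Cfg V' J ∩ Clo Oᶜ) (fun g => lin Z a g ^ 2) := by
    have key := sep (K := Oᶜ) (V := V) (V' := V') (frd_dat hVf) dJ
      (fun x hx => (J_M x (hKM x hx)).symm)
      (fun x hx y _ _ hxV => Or.inl ⟨hKM x hx, hxV.2⟩)
      (fun x _ y _ _ hxV => Or.inl (hV'V hxV))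
      (A := {b | ∀ x ∈ O, b x = h x}) (A' := univ)
      (fun c hc b hb x hx => by rw [hb x (fun h1 => h1 hx)]; exact hc x hx) (OffDet_univ _)
      ⟨h, hh, by rw [hO, ← F2A.fib_eq]; exact fib_self Mᶜ h⟩ ⟨_, hone.1, hone.2, Set.mem_univ _⟩
      (F := fun g => lin Z a g ^ 2) hloc
    rw [F2A.fib_eq, ← hO, key, inter_univ]
  have e2 : Cfg V' J ∩ Clo Oᶜ = Cfg V' J ∩ {g | md 0 g ∈ CloD Oᶜ} := by
    ext g
    constructor
    · rintro ⟨h1, h2⟩
      exact ⟨h1, (mem_CloD h1 _).2 h2⟩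
    · rintro ⟨h1, h2⟩
      exact ⟨h1, (mem_CloD h1 _).1 h2⟩
  have e3 : Ex (Cfg V' J ∩ {g | md 0 g ∈ CloD Oᶜ}) (fun g => lin Z a g ^ 2) ≤
      Ex (Cfg V' J) (fun g => lin Z a g ^ 2) := by
    have key := md_mom hL.cmp (D := CloD Oᶜ) (U := univ) (CloD_lower _) isUpperSet_univ
      (by rw [← e2]; exact ⟨_, hone⟩) (by rw [inter_univ_md]; exact hL.ne)
      (Z := Z) (φ := fun (_ : Fin 2) => a) (fun x hx => Or.inl (hZM x hx)) (fun _ x hx => ha x hx)
    rw [inter_univ_md] at key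
    have e : (fun g : Hg => lin Z a g ^ 2) = pm 0 1 Z (fun (_ : Fin 2) => a) :=
      funext fun g => (pm_two Z a g).symm
    rw [e]
    exact key
  have e4 : Ex (Cfg V' J) (fun g => lin Z a g ^ 2) =
      Ex (Cfg V' (frd V' 0)) (fun g => lin Z a g ^ 2) :=
    Ex_off dJ (frd_dat hV'f) J_nb hL.ne (frd_nonempty V') fun c b hcb => by
      rw [lin_congr (U := nb V') (fun x hx => Or.inl (hZM x hx)) c b hcb]
  rw [e1, e2]
  exact e3.trans e4.le

/-- The second moment on the event that the cluster of `T` is confined. -/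
theorem conf_sec (hB0 : B0.Finite) (hMB : M ⊆ B0) {Z : Finset Pt} {a : Pt → ℝ}
    (ha : ∀ x ∈ Z, 0 ≤ a x) (hZM : ∀ x ∈ Z, x ∈ M \ β) {T : Set Pt} (hT : ∀ x ∈ Z, x ∈ T) {C : ℝ}
    (hC : Ex (Cfg (M \ β) (frd (M \ β) 0)) (fun g => lin Z a g ^ 2) ≤ C) :
    Ex (nu B0 β) (fun g => ind (CF0 T M) g * lin Z a g ^ 2) ≤ C := by
  have hS : (nu B0 β).Finite := Cfg_finite (frd_dat (hB0.subset Set.sdiff_subset))
  have hC0 : 0 ≤ C := le_trans (Ex_nonneg fun _ _ => sq_nonneg _) hC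
  rw [← Ex_const hS (frd_nonempty _) C]
  refine Ex_le_of_fiber hS (fmap Mᶜ) _ _ (fun _ _ _ _ _ => rfl) fun h hh => ?_
  rw [fib_eq_fmap]
  by_cases hd : h ∈ CF0 T M
  · refine le_trans (le_of_eq (Ex_congr fun g hg => ?_)) ((fib_sec hB0 hMB ha hZM hh
      (fun x hx => mem_CF0_iff.1 hd x (hT x hx))).trans hC)
    have hg' : g ∈ CF0 T M := mem_CF0_iff.2 fun x hx => by
      rw [hg.2.1]
      exact mem_CF0_iff.1 hd x hx
    unfold ind
    rw [if_pos hg', one_mul]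
  · refine le_trans (le_of_eq ?_) hC0
    rw [← Ex_zero (S := nu B0 β ∩ fib Mᶜ h)]
    refine Ex_congr fun g hg => ?_
    have hg' : g ∉ CF0 T M := fun hc => hd (mem_CF0_iff.2 fun x hx => by
      rw [← hg.2.1]
      exact mem_CF0_iff.1 hc x hx)
    unfold ind
    rw [if_neg hg', zero_mul]

/-- **Second moments** from a small probability of escape. -/
theorem sec_esc : ∃ δ : ℝ, 0 < δ ∧ ∀ (B0 β M T : Set Pt), B0.Finite → M ⊆ B0 →
    ∀ (Z : Finset Pt) (a : Pt → ℝ), (∀ x ∈ Z, 0 ≤ a x) → ∑ x ∈ Z, a x = 1 →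
    (∀ x ∈ Z, x ∈ M \ β) → (∀ x ∈ Z, x ∈ T) → Pr (nu B0 β) (CF0 T M)ᶜ ≤ δ → ∀ C : ℝ,
    Ex (Cfg (M \ β) (frd (M \ β) 0)) (fun g => lin Z a g ^ 2) ≤ C →
    Ex (nu B0 β) (fun g => lin Z a g ^ 2) ≤ 2 * C + 2 := by
  obtain ⟨C₄, hC₄, h4⟩ := mom4
  refine ⟨1 / (4 * (C₄ + 1)), by positivity, fun B0 β M T hB0 hMB Z a ha h1 hZM hT hp C hC => ?_⟩
  have hVf : (B0 \ β).Finite := hB0.subset Set.sdiff_subset
  have hS : (nu B0 β).Finite := Cfg_finite (frd_dat hVf)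
  set E := Ex (nu B0 β) (fun g => lin Z a g ^ 2) with hE
  have hE0 : 0 ≤ E := Ex_nonneg fun _ _ => sq_nonneg _
  have habs : ∑ x ∈ Z, |a x| = 1 := by
    rw [← h1]
    exact Finset.sum_congr rfl fun x hx => abs_of_nonneg (ha x hx)
  have m4 := h4 (B0 \ β) hVf Z a
  rw [habs, one_pow, ← hE] at m4
  have hsplit : E = Ex (nu B0 β) (fun g => ind (CF0 T M) g * lin Z a g ^ 2) +
      Ex (nu B0 β) (fun g => ind (CF0 T M)ᶜ g * lin Z a g ^ 2) := by
    rw [← Ex_add]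
    refine Ex_congr fun g _ => ?_
    by_cases hg : g ∈ CF0 T M <;> simp [ind, hg]
  have hA := conf_sec hB0 hMB ha hZM hT hC
  have hB := Ex_mul_sq_le hS (fun g => ind (CF0 T M)ᶜ g) (fun g => lin Z a g ^ 2)
  have hB1 : Ex (nu B0 β) (fun g => ind (CF0 T M)ᶜ g ^ 2) = Pr (nu B0 β) (CF0 T M)ᶜ := by
    rw [Pr_eq_Ex hS]
    refine Ex_congr fun g _ => ?_
    unfold ind
    split_ifs <;> norm_num
  have hB2 : Ex (nu B0 β) (fun g => (lin Z a g ^ 2) ^ 2) =
      Ex (nu B0 β) (fun g => lin Z a g ^ 4) := Ex_congr fun g _ => by ring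
  rw [hB1, hB2] at hB
  have hp0 := Pr_nonneg (nu B0 β) (CF0 T M)ᶜ
  have hm4 : 0 ≤ Ex (nu B0 β) (fun g => lin Z a g ^ 4) := Ex_nonneg fun g _ => by positivity
  have hB3 : (Ex (nu B0 β) (fun g => ind (CF0 T M)ᶜ g * lin Z a g ^ 2)) ^ 2 ≤
      ((E + 2) / 2) ^ 2 := by
    refine hB.trans ?_
    have h5 : Pr (nu B0 β) (CF0 T M)ᶜ * Ex (nu B0 β) (fun g => lin Z a g ^ 4) ≤
        1 / (4 * (C₄ + 1)) * (C₄ * (E + 1 + 1) ^ 2) :=
      mul_le_mul hp m4 hm4 (by positivity)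
    refine h5.trans ?_
    rw [div_mul_eq_mul_div, one_mul, div_le_iff₀ (by positivity)]
    nlinarith [sq_nonneg (E + 2)]
  have hB4 := abs_le_of_sq_le_sq hB3 (by linarith)
  linarith [(abs_le.1 (abs_le_of_sq_le_sq hB3 (by linarith))).2]

end Vale.Agent.P153.R2.RD
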